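import Vale.Agent.P165.H199.BA
import Vale.Agent.P165.H115.Surgery
import Vale.Agent.P165.H633.Geo
import Vale.Agent.P165.H326.Mag

namespace Vale.Agent.P165.H199

variable {V : Type} [DecidableEq V]

/-- Block BA1: `M · E[|K| t^|K|] ≤ C`, uniformly up to some `p₁ > p_c`. -/
theorem ba1 [Infinite V] {G : SimpleGraph V} [G.LocallyFinite] (hG : G.Connected)
    (hqt : IsQuasiTransitive G) (hna : 0 < vertexCheeger G) : BA1 G :=
  ba1_of G hG hqt hna (H115.s1 hqt) H115.s2 (H115.s3 hG) (H633.g1 G) (H633.g2 G) (H633.g3 G hG)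
    (H326.g4 hG hqt)

end Vale.Agent.P165.H199
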