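import Vale.Agent.P165.H199.Esc
import Vale.Agent.P165.H199.BAMain

/-!
Many escapes: the proof of `EscLow`.
-/

open Finset

set_option linter.unusedSectionVars false

namespace Vale.Agent.P165.H199

open Vale.Agent.P151 (Ex Cn cl csz edgesIn EV con tau)
open Vale.Agent.P165 Vale.Agent.P165.LF

variable {V : Type} [DecidableEq V]

lemma Ex_con_mem {q : ℝ} (h0 : 0 ≤ q) (h1 : q ≤ 1) {Λ : Finset (Sym2 V)} {a b : V}
    (hab : s(a, b) ∈ Λ) : q ≤ Ex q Λ (con a b) := by
  have he : {s(a, b)} ⊆ Λ := singleton_subset_iff.2 hab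
  refine le_trans ?_ (Vale.Agent.P151.Ex_mono_set h0 h1 he (Vale.Agent.P151.con_mono a b))
  have h2 : ({s(a, b)} : Finset (Sym2 V)) = insert s(a, b) ∅ := rfl
  rw [h2, Vale.Agent.P151.Ex_insert q (Finset.notMem_empty _), Vale.Agent.P151.Ex_empty,
    Vale.Agent.P151.Ex_empty]
  have h3 : con a b (insert s(a, b) ∅) = 1 := by
    rw [con_eq_ind]
    exact ind_true (Vale.Agent.P151.Cn_of_mem (mem_insert_self _ _))
  rw [h3]
  have h4 : 0 ≤ (1 - q) * con a b ∅ :=
    mul_nonneg (sub_nonneg.2 h1) (Vale.Agent.P151.con_nonneg _ _ _)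
  linarith only [h4]

/-- Walking from `w` towards `Q`: the last vertex before `Q`. -/
lemma outer_walk (G : SimpleGraph V) [G.LocallyFinite] {q : ℝ} (h0 : 0 ≤ q) (h1 : q ≤ 1)
    {F Q : Finset V} {w : V} (hwQ : w ∉ Q) : ∀ (r : ℕ) (y : V), y ∈ ballF G w r →
    ballF G w r ⊆ F →
    (y ∉ Q ∧ q ^ r ≤ Ex q (offE (edgesIn G F) (Q : Set V)) (con w y)) ∨
    ∃ v ∈ outer G F Q, v ∈ ballF G w r ∧
      q ^ r ≤ Ex q (offE (edgesIn G F) (Q : Set V)) (con w v) := by
  classical
  intro r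
  induction r with
  | zero =>
    intro y hy _
    rw [ballF_zero, mem_singleton] at hy
    rw [hy, pow_zero, Ex_con_self]
    exact Or.inl ⟨hwQ, le_rfl⟩
  | succ r ih =>
    intro y hy hF
    have hsub : ballF G w r ⊆ F := (ballF_mono G w (Nat.le_succ r)).trans hF
    have hyF := hF hy
    have hpow : q ^ (r + 1) ≤ q ^ r := pow_le_pow_of_le_one h0 h1 (Nat.le_succ r)
    have up : (∃ v ∈ outer G F Q, v ∈ ballF G w r ∧
      q ^ r ≤ Ex q (offE (edgesIn G F) (Q : Set V)) (con w v)) →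
      ∃ v ∈ outer G F Q, v ∈ ballF G w (r + 1) ∧
      q ^ (r + 1) ≤ Ex q (offE (edgesIn G F) (Q : Set V)) (con w v) := by
      rintro ⟨v, hv1, hv2, hv3⟩
      exact ⟨v, hv1, ballF_mono G w (Nat.le_succ r) hv2, hpow.trans hv3⟩
    rw [mem_ballF_succ] at hy
    rcases hy with hy | ⟨z, hz, hzy⟩
    · rcases ih y hy hsub with h | h
      · exact Or.inl ⟨h.1, hpow.trans h.2⟩
      · exact Or.inr (up h)
    · rcases ih z hz hsub with h | h
      swap
      · exact Or.inr (up h)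
      by_cases hyQ : y ∈ Q
      · refine Or.inr (up ⟨z, ?_, hz, h.2⟩)
        unfold outer
        rw [mem_filter]
        exact ⟨hsub hz, h.1, y, hyQ, hzy.symm, hyF⟩
      · refine Or.inl ⟨hyQ, ?_⟩
        refine le_trans ?_ (Ex_con_mul_le h0 h1 _ w z y)
        rw [pow_succ]
        refine mul_le_mul h.2 (Ex_con_mem h0 h1 ?_) h0 (Ex_con_nonneg h0 h1 _ _ _)
        rw [mem_offE]
        refine ⟨Vale.Agent.P151.mk_mem_edgesIn.2 ⟨hzy, hsub hz, hyF⟩, ?_⟩
        intro v hv hvQ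
        rcases Sym2.mem_iff.1 hv with rfl | rfl
        · exact h.1 (mem_coe.1 hvQ)
        · exact hyQ (mem_coe.1 hvQ)

lemma mag_con_mul {q t : ℝ} (h0 : 0 ≤ q) (h1 : q ≤ 1) (t0 : 0 ≤ t) (t1 : t ≤ 1)
    (O : Finset (Sym2 V)) (w v : V) :
    Ex q O (con w v) * Ex q O (fun S => 1 - t ^ csz S w) ≤
      Ex q O (fun S => 1 - t ^ csz S v) := by
  refine (Vale.Agent.P151.harris h0 h1 O (Vale.Agent.P151.con_mono w v)
    (H326.mono_mag t0 t1 w)).trans ?_
  refine Vale.Agent.P151.Ex_mono h0 h1 (fun S _ => ?_)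
  rw [con_eq_ind]
  by_cases h : Cn S w v
  · rw [ind_true h, one_mul]
    have e : csz S w = csz S v := by
      unfold csz
      congr 1
      ext y
      rw [Vale.Agent.P151.mem_cl, Vale.Agent.P151.mem_cl]
      exact ⟨fun h' => h.symm.trans h', fun h' => h.trans h'⟩
    rw [e]
  · rw [ind_false h, zero_mul]
    exact csz_of_nat_pow_nonneg t0 t1 _

theorem escLow [Infinite V] {G : SimpleGraph V} [G.LocallyFinite] (hG : G.Connected)
    (hqt : IsQuasiTransitive G) (hna : 0 < vertexCheeger G) : EscLow G := by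
  classical
  have hne : Nonempty V := hG.nonempty
  obtain ⟨⟨hpc0, hlt, _⟩, _, _⟩ := H794.main hG hqt hna
  obtain ⟨p, N', hp, hp0, hp1, hL'⟩ := H794.exists_L2B_of_lt hG hlt
  set p₁ := (pc G + p) / 2 with hp₁
  have hpp₁ : pc G < p₁ := by rw [hp₁]; linarith only [hp]
  have hp₁p : p₁ ≤ p := by rw [hp₁]; linarith only [hp]
  have hp₁1 : p₁ < 1 := by rw [hp₁]; linarith only [hp, hp1]
  set q₀ := pc G / 2 with hq₀
  have hq₀0 : 0 < q₀ := by rw [hq₀]; linarith only [hpc0]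
  obtain ⟨c₁, hc₁, hc₁1, hmag⟩ := H326.g4 hG hqt q₀ hq₀0
  set κ := c₁ / 2 with hκ
  have hκ0 : 0 < κ := by positivity
  have hκ1 : κ < 1 := by rw [hκ]; linarith only [hc₁1]
  obtain ⟨R, hR⟩ : ∃ R : ℕ, N' ^ 2 / κ ^ 2 + 1 ≤ (1 + vertexCheeger G) ^ R := by
    have h2 : 1 < 1 + vertexCheeger G := by linarith only [hna]
    obtain ⟨R, hR⟩ := pow_unbounded_of_one_lt (N' ^ 2 / κ ^ 2 + 1) h2
    exact ⟨R, hR.le⟩
  obtain ⟨Δ, hΔ1, hΔ⟩ := LF.exists_degree_bound (G := G) hqt
  set D : ℝ := (((Δ + 1) ^ R : ℕ) : ℝ) with hD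
  have hD0 : 0 < D := by rw [hD]; positivity
  refine ⟨p₁, q₀ ^ R * (c₁ / 2) / D, hpp₁, hp₁1, by positivity, ?_⟩
  intro q t hq hqp₁ t0 t1 x L
  have hq0 : 0 ≤ q := hq₀0.le.trans hq
  have hq1 : q ≤ 1 := hqp₁.trans hp₁1.le
  have hL2 : L2B G q N' := hL'.mg_mono hq0 (hqp₁.trans hp₁p) hp1
  obtain ⟨F1, hF1⟩ := hmag q t hq hq1 t0 t1 (ballF G x (L + R))
  refine ⟨F1 ∪ ballF G x (L + R + R), fun F hF Q hQ => ?_⟩
  have hFb : ballF G x (L + R + R) ⊆ F := subset_union_right.trans hF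
  have hFm := hF1 F (subset_union_left.trans hF)
  set M := mM G q t with hMdef
  have hMF : ∀ a, mF G q t F a ≤ M := mF_le_mM G hq0 hq1 t0.le F
  have hM0 : 0 ≤ M := by
    have h1 := mF_ge G hq0 hq1 t0.le t1.le F x
    have h2 := hMF x
    linarith only [h1, h2, t1]
  set W := ballF G x (L + R) with hW
  set Λ := edgesIn G F with hΛ
  set O := offE Λ (Q : Set V) with hO
  have hball : ∀ w ∈ W, ballF G w R ⊆ F := by
    intro w hw y hy
    refine hFb ?_
    have := mem_ballF_trans G hy hw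
    rwa [add_comm R (L + R)] at this
  have hWF : W ⊆ F := fun w hw => hball w hw (mem_ballF_self G w R)
  have hQW : Q ⊆ W := hQ.trans (ballF_mono G x (Nat.le_add_right L R))
  have hQF : Q ⊆ F := hQW.trans hWF
  set P : V → Prop := fun w => (∃ y ∈ Q, y ∈ ballF G w R) ∧ fQ G q F Q w ≤ κ with hP
  have hC := stepC G (H633.g2 G) hL2 hq0 hq1 hκ0 hQF hWF R hR (by
    intro z hz
    rw [mem_biUnion] at hz
    obtain ⟨y, hy, hz⟩ := hz
    have := mem_ballF_trans G hz (hQ hy)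
    rwa [add_comm R L] at this)
  set g : V → ℝ := fun v => Ex q O (fun S => 1 - t ^ csz S v) with hg
  have hg0 : ∀ v, 0 ≤ g v := fun v => Vale.Agent.P151.Ex_nonneg hq0 hq1
    (fun S _ => csz_of_nat_pow_nonneg t0.le t1.le _)
  -- each good `w` gives an outer vertex
  have hv : ∀ w ∈ W.filter P, ∃ v ∈ outer G F Q, v ∈ ballF G w R ∧
      q₀ ^ R * (c₁ / 2) * M ≤ g v := by
    intro w hw
    rw [mem_filter] at hw
    obtain ⟨hwW, ⟨y, hyQ, hyw⟩, hf⟩ := hw
    have hwQ : w ∉ Q := by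
      intro hwQ
      have h2 := fQ_mem G hq0 hq1 (F := F) (K := Q) (r := 0) (mem_ballF_self G w 0) (by
        rw [ballF_zero]
        exact singleton_subset_iff.2 (hWF hwW)) hwQ
      rw [pow_zero] at h2
      linarith only [h2, hf, hκ1]
    rcases outer_walk G hq0 hq1 hwQ R y hyw (hball w hwW) with h | ⟨v, hv1, hv2, hv3⟩
    · exact absurd hyQ h.1
    refine ⟨v, hv1, hv2, ?_⟩
    have h3 : (c₁ / 2) * M ≤ g w := by
      have h4 := off_ge' G hq0 hq1 t0.le t1.le F Q w hMF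
      rw [← hΛ, Ex_offE q Λ (Q : Set V) (fun S => 1 - t ^ csz S w), ← hO] at h4
      have h5 := hFm w hwW
      have h6 := mul_le_mul_of_nonneg_left hf hM0
      have e : M * κ = (c₁ / 2) * M := by rw [hκ]; ring
      have e' : c₁ * M = (c₁ / 2) * M + (c₁ / 2) * M := by ring
      have h7 : mF G q t F w - M * fQ G q F Q w ≤ g w := h4
      linarith only [h7, h5, h6, e, e']
    have h8 := mag_con_mul hq0 hq1 t0.le t1.le O w v
    refine le_trans ?_ h8
    rw [mul_assoc]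
    have hcM : 0 ≤ c₁ / 2 * M := mul_nonneg (by linarith only [hc₁]) hM0
    refine mul_le_mul ?_ h3 hcM (Ex_con_nonneg hq0 hq1 _ _ _)
    exact (pow_le_pow_left₀ hq₀0.le hq R).trans hv3
  choose! f hf1 hf2 hf3 using hv
  have hcard : (Q.card : ℝ) ≤ ((W.filter P).card : ℝ) := by
    refine hC.trans (le_of_eq ?_)
    rw [← Finset.sum_boole]
    refine Finset.sum_congr rfl (fun w _ => ?_)
    by_cases h : P w
    · rw [if_pos h]; exact ind_true h
    · rw [if_neg h]; exact ind_false h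
  have hesc : esc G q t F Q = ∑ v ∈ outer G F Q, g v := by
    unfold esc
    refine Finset.sum_congr rfl (fun v _ => ?_)
    rw [← hΛ, Ex_offE q Λ (Q : Set V) (fun S => 1 - t ^ csz S v)]
  have hsum : q₀ ^ R * (c₁ / 2) * M * Q.card ≤ D * ∑ v ∈ outer G F Q, g v := by
    calc q₀ ^ R * (c₁ / 2) * M * Q.card
        ≤ q₀ ^ R * (c₁ / 2) * M * (W.filter P).card := by
          refine mul_le_mul_of_nonneg_left hcard ?_
          positivity
      _ = ∑ w ∈ W.filter P, q₀ ^ R * (c₁ / 2) * M := by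
          rw [Finset.sum_const, nsmul_eq_mul]
          ring
      _ ≤ ∑ w ∈ W.filter P, g (f w) := Finset.sum_le_sum (fun w hw => hf3 w hw)
      _ = ∑ v ∈ outer G F Q, ∑ w ∈ (W.filter P).filter (fun w => f w = v), g (f w) :=
          (Finset.sum_fiberwise_of_maps_to hf1 _).symm
      _ ≤ ∑ v ∈ outer G F Q, D * g v := by
          refine Finset.sum_le_sum (fun v _ => ?_)
          have h1 : ∑ w ∈ (W.filter P).filter (fun w => f w = v), g (f w) =
              (((W.filter P).filter (fun w => f w = v)).card : ℝ) * g v := by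
            rw [Finset.sum_congr rfl (fun w hw => by rw [(mem_filter.1 hw).2]),
              Finset.sum_const, nsmul_eq_mul]
          rw [h1]
          refine mul_le_mul_of_nonneg_right ?_ (hg0 v)
          rw [hD]
          refine Nat.cast_le.2 ((card_le_card ?_).trans (card_ballF_le G Δ hΔ v R))
          intro w hw
          rw [mem_filter] at hw
          have := hf2 w hw.1
          rw [hw.2] at this
          exact (mem_ballF_comm G _ _ _).1 this
      _ = D * ∑ v ∈ outer G F Q, g v := (Finset.mul_sum _ _ _).symm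
  rw [hesc]
  have e : q₀ ^ R * (c₁ / 2) / D * M * Q.card = q₀ ^ R * (c₁ / 2) * M * Q.card / D := by ring
  rw [e, div_le_iff₀ hD0]
  linarith only [hsum]

end Vale.Agent.P165.H199
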