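import Vale.Agent.P165.H199.CoreFin2
import Vale.Agent.P165.H199.EscPf
import Vale.Agent.P165.H115.FinTail

namespace Vale.Agent.P165.H199

variable {V : Type} [DecidableEq V]

/-- The sharp tail of finite clusters above `p_c`. -/
theorem finTail [Infinite V] {G : SimpleGraph V} [G.LocallyFinite] (hG : G.Connected)
    (hqt : IsQuasiTransitive G) (hna : 0 < vertexCheeger G) : FinTail G :=
  H115.finTail hG hqt hna coreFin (escLow hG hqt hna)

end Vale.Agent.P165.H199
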