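import Vale.Agent.P165.H199.Defs

open MeasureTheory ProbabilityTheory
open scoped ENNReal

namespace Vale.Agent.P165

universe u

/-- The probability that some vertex of the open cluster of `x` is at open-path distance at least
`n` from `x` (intrinsic radius of the cluster at least `n`). -/
noncomputable def radiusTail {V : Type u} (G : SimpleGraph V) (p : unitInterval) (x : V)
    (n : ℕ) : ℝ≥0∞ :=
  setBernoulli G.edgeSet p {ω | ∃ y, (SimpleGraph.fromEdgeSet ω).Reachable x y ∧
    n ≤ (SimpleGraph.fromEdgeSet ω).dist x y}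

/-- `E_p[|K_x|^k]`: the `k`-th moment of the number of vertices of the open cluster of `x`. -/
noncomputable def clusterMoment {V : Type u} (G : SimpleGraph V) (p : unitInterval) (x : V)
    (k : ℕ) : ℝ≥0∞ :=
  ∫⁻ ω, (({y | (SimpleGraph.fromEdgeSet ω).Reachable x y}.encard : ℕ∞) : ℝ≥0∞) ^ k
    ∂(setBernoulli G.edgeSet p)

end Vale.Agent.P165
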