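import Vale.Agent.P165.H199.Blocks
import Vale.Agent.P165.H199.MomDefs

/-!
Moments of the cluster size below `p_c`: literal statements.
-/

open Finset MeasureTheory ProbabilityTheory
open scoped ENNReal

set_option linter.unusedSectionVars false

namespace Vale.Agent.P165.H199

open Vale.Agent.P151 (Ex Cn cl csz edgesIn EV con tau)
open Vale.Agent.P165.LF

variable {V : Type} [DecidableEq V]

/-- (E1) binary splitting of a connected event with at least two marked points. -/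
def E1 (V : Type) [DecidableEq V] : Prop :=
  ∀ (ι : Type) [DecidableEq ι] (S : Finset (Sym2 V)) (x : V) (z : ι → V) (I : Finset ι),
    2 ≤ I.card → (∀ i ∈ I, Cn S x (z i)) →
    ∃ u, Cn S x u ∧ ∃ J, J ⊆ I ∧ J.Nonempty ∧ (I \ J).Nonempty ∧
      ∃ S1 S2, S1 ⊆ S ∧ S2 ⊆ S ∧ Disjoint S1 S2 ∧ Cn S1 x u ∧
        ∃ T1 T2, T1 ⊆ S2 ∧ T2 ⊆ S2 ∧ Disjoint T1 T2 ∧ (∀ i ∈ J, Cn T1 u (z i)) ∧
          ∀ i ∈ I \ J, Cn T2 u (z i)

/-- (E2) `E|K|^k ≤ C_k χ^(2k-1)` in finite volume. -/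
def E2 (G : SimpleGraph V) : Prop :=
  ∀ k : ℕ, 1 ≤ k → ∃ C : ℝ, 0 < C ∧ ∀ q X : ℝ, 0 ≤ q → q ≤ 1 → (∀ z, vol G q z ≤ X) →
    ∀ (x : V) (F : Finset V),
      Ex q (edgesIn G F) (fun S => (csz S x : ℝ) ^ k) ≤ C * X ^ (2 * k - 1)

/-- (E3) `c_k (p_c - p)^(1-2k) ≤ E_p|K|^k` (some finite volume). -/
def E3 (G : SimpleGraph V) : Prop :=
  ∀ k : ℕ, 1 ≤ k → ∃ c : ℝ, 0 < c ∧ ∀ q : ℝ, 0 ≤ q → q < pc G → ∀ x : V, ∃ F : Finset V,
    c / (pc G - q) ^ (2 * k - 1) ≤ Ex q (edgesIn G F) (fun S => (csz S x : ℝ) ^ k)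

/-- The intrinsic ball: vertices joined to `x` by an open walk of length at most `n`. -/
def Bn (S : Finset (Sym2 V)) (x : V) (n : ℕ) : Set V :=
  {y | ∃ w : (Vale.Agent.P151.gr S).Walk x y, w.length ≤ n}

/-- The intrinsic radius of the cluster of `x` is at least `n`. -/
def Rad (S : Finset (Sym2 V)) (x : V) (n : ℕ) : Prop :=
  ∃ y, Cn S x y ∧ ∀ w : (Vale.Agent.P151.gr S).Walk x y, n ≤ w.length

/-- (I1) `E_{p_c}|B_int(n)| ≤ C n`. -/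
def BintUp (G : SimpleGraph V) : Prop :=
  ∃ C : ℝ, 0 < C ∧ ∀ n : ℕ, 1 ≤ n → ∀ (x : V) (F : Finset V),
    Ex (pc G) (edgesIn G F) (fun S => ((Bn S x n).ncard : ℝ)) ≤ C * n

/-- (I2) intrinsic one-arm upper bound (Kozma-Nachmias), in every finite subgraph. -/
def RadUp (G : SimpleGraph V) : Prop :=
  ∃ C : ℝ, 0 < C ∧ ∀ n : ℕ, 1 ≤ n → ∀ (x : V) (F : Finset V) (Λ : Finset (Sym2 V)),
    Λ ⊆ edgesIn G F → Ex (pc G) Λ (fun S => ind (Rad S x n)) ≤ C / n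

/-- (I3) intrinsic one-arm lower bound. -/
def RadLow (G : SimpleGraph V) : Prop :=
  ∃ c : ℝ, 0 < c ∧ ∀ n : ℕ, 1 ≤ n → ∀ x : V, ∃ F0 : Finset V, ∀ F : Finset V, F0 ⊆ F →
    c / n ≤ Ex (pc G) (edgesIn G F) (fun S => ind (Rad S x n))

end Vale.Agent.P165.H199
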