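import Vale.Agent.P165.H199.MomDefs
import Vale.Agent.P165.H199.Mom

open MeasureTheory ProbabilityTheory
open scoped ENNReal

namespace Vale.Agent.P165

universe u

/-- `P_p(x ↔ distance ≥ n)`: the probability that the open cluster of `x` contains a vertex at
graph distance at least `n` from `x`. -/
noncomputable def armProb {V : Type u} (G : SimpleGraph V) (p : unitInterval) (x : V)
    (n : ℕ) : ℝ≥0∞ :=
  setBernoulli G.edgeSet p {ω | ∃ y, (SimpleGraph.fromEdgeSet ω).Reachable x y ∧
    n ≤ G.dist x y}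

end Vale.Agent.P165

namespace Vale.Agent.P165.H199

open Vale.Agent.P151 (Ex Cn cl csz edgesIn EV con tau)
open Vale.Agent.P165.LF

variable {V : Type} [DecidableEq V]

/-- Extrinsic one-arm lower bound. -/
def ArmLow (G : SimpleGraph V) : Prop :=
  ∃ c : ℝ, 0 < c ∧ ∀ n : ℕ, 1 ≤ n → ∀ x : V,
    c / n ≤ EV G (pc G) (fun S => ind (∃ y, Cn S x y ∧ n ≤ G.dist x y))

end Vale.Agent.P165.H199
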