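import Vale.Agent.P165.H199.Mom
import Vale.Agent.P165.H177.Up

/-!
Expected intrinsic balls at `p_c` and the lower bound of the intrinsic one-arm probability.
-/

open Finset

set_option linter.unusedSectionVars false

namespace Vale.Agent.P165.H199

open Vale.Agent.P151 (Ex Cn cl csz edgesIn EV con tau)
open Vale.Agent.P165 Vale.Agent.P165.LF

/-- Thinning. -/
theorem Ex_thin {ι : Type*} [DecidableEq ι] (p s : ℝ) (Λ : Finset ι) (F : Finset ι → ℝ) :
    Ex p Λ (fun S => Ex s S F) = Ex (p * s) Λ F := by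
  induction Λ using Finset.induction_on generalizing F with
  | empty => simp
  | insert e Λ he ih =>
    rw [Vale.Agent.P151.Ex_insert p he, Vale.Agent.P151.Ex_insert (p * s) he]
    have h1 : Ex p Λ (fun S => Ex s (insert e S) F) =
        s * Ex (p * s) Λ (fun S => F (insert e S)) + (1 - s) * Ex (p * s) Λ F := by
      rw [← ih, ← ih, ← Vale.Agent.P151.Ex_const_mul, ← Vale.Agent.P151.Ex_const_mul,
        ← Vale.Agent.P151.Ex_add]
      refine Vale.Agent.P151.Ex_congr p (fun S hS => ?_)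
      exact Vale.Agent.P151.Ex_insert s (fun h => he (hS h)) F
    rw [h1, ih]
    ring

variable {V : Type} [DecidableEq V]

lemma Bn_subset (S : Finset (Sym2 V)) (x : V) (n : ℕ) : Bn S x n ⊆ (cl S x : Set V) := by
  rintro y ⟨w, _⟩
  rw [mem_coe, Vale.Agent.P151.mem_cl]
  exact ⟨w⟩

lemma Bn_finite (S : Finset (Sym2 V)) (x : V) (n : ℕ) : (Bn S x n).Finite :=
  (Finset.finite_toSet _).subset (Bn_subset S x n)

/-- A short open walk survives the thinning. -/
lemma pow_le_Ex_con {s : ℝ} (h0 : 0 ≤ s) (h1 : s ≤ 1) {S : Finset (Sym2 V)} {x y : V} {n : ℕ}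
    (h : y ∈ Bn S x n) : s ^ n ≤ Ex s S (con x y) := by
  classical
  obtain ⟨w, hw⟩ := h
  set W : Finset (Sym2 V) := w.edges.toFinset with hW
  have hWS : W ⊆ S := by
    intro e he
    rw [hW, List.mem_toFinset] at he
    have := SimpleGraph.Walk.edges_subset_edgeSet w he
    induction e with
    | _ a b =>
      exact (Vale.Agent.P151.gr_adj.1 this).1
  have hcard : W.card ≤ n := by
    refine (List.toFinset_card_le _).trans ?_
    rw [SimpleGraph.Walk.length_edges]
    exact hw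
  have hc : con x y W = 1 := by
    rw [con_eq_ind]
    exact ind_true (Cn_of_walk_bk w (fun e he => List.mem_toFinset.2 he))
  calc s ^ n ≤ s ^ W.card := pow_le_pow_of_le_one h0 h1 hcard
    _ = s ^ W.card * con x y W := by rw [hc, mul_one]
    _ ≤ Ex s W (con x y) :=
        Vale.Agent.P151.pow_card_mul_le_Ex h0 h1 W (Vale.Agent.P151.con_nonneg x y)
    _ ≤ Ex s S (con x y) := Vale.Agent.P151.Ex_mono_set h0 h1 hWS (Vale.Agent.P151.con_mono x y)

lemma ncard_Bn_le {s : ℝ} (h0 : 0 ≤ s) (h1 : s ≤ 1) (S : Finset (Sym2 V)) (x : V) (n : ℕ) :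
    s ^ n * ((Bn S x n).ncard : ℝ) ≤ Ex s S (fun T => (csz T x : ℝ)) := by
  classical
  set D := (Bn_finite S x n).toFinset with hD
  have e1 : (Bn S x n).ncard = D.card := Set.ncard_eq_toFinset_card _ (Bn_finite S x n)
  have h2 : s ^ n * (D.card : ℝ) ≤ ∑ y ∈ D, Ex s S (con x y) := by
    rw [mul_comm, ← nsmul_eq_mul, ← Finset.sum_const]
    refine Finset.sum_le_sum (fun y hy => pow_le_Ex_con h0 h1 ?_)
    rwa [hD, Set.Finite.mem_toFinset] at hy
  rw [e1]
  refine h2.trans ?_
  rw [← Vale.Agent.P151.Ex_sum]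
  refine Vale.Agent.P151.Ex_mono h0 h1 (fun T _ => ?_)
  have e2 : ∀ y ∈ D, con x y T = if y ∈ cl T x then (1 : ℝ) else 0 := by
    intro y _
    rw [con_eq_ind]
    by_cases h : Cn T x y
    · rw [ind_true h, if_pos (Vale.Agent.P151.mem_cl.2 h)]
    · rw [ind_false h, if_neg (fun h' => h (Vale.Agent.P151.mem_cl.1 h'))]
  rw [Finset.sum_congr rfl e2, ← Finset.sum_filter, Finset.sum_const, nsmul_eq_mul, mul_one]
  unfold csz
  exact_mod_cast card_le_card (fun y hy => (mem_filter.1 hy).2)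

/-- (I1) -/
theorem bintUp [Infinite V] {G : SimpleGraph V} [G.LocallyFinite] (hG : G.Connected)
    (hqt : IsQuasiTransitive G) (hna : 0 < vertexCheeger G) : BintUp G := by
  have hne : Nonempty V := hG.nonempty
  obtain ⟨⟨hpc0, _, _⟩, _, _⟩ := H794.main hG hqt hna
  obtain ⟨C, hC, hchi⟩ := H177.chi_upper hG hqt hna
  refine ⟨4 * C / pc G, by positivity, fun n hn x F => ?_⟩
  have hn' : (1 : ℝ) ≤ n := by exact_mod_cast hn
  set s : ℝ := 1 - 1 / (2 * n) with hs
  have hu : 1 / (2 * (n : ℝ)) ≤ 1 / 2 := by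
    rw [div_le_div_iff₀ (by positivity) (by norm_num)]
    linarith only [hn']
  have hu0 : 0 < 1 / (2 * (n : ℝ)) := by positivity
  have hs0 : 0 ≤ s := by rw [hs]; linarith only [hu]
  have hs1 : s ≤ 1 := by rw [hs]; linarith only [hu0]
  have hsn : (1 : ℝ) / 2 ≤ s ^ n := by
    have h := one_add_mul_le_pow (a := -(1 / (2 * (n : ℝ)))) (by linarith only [hu]) n
    have e : 1 + (n : ℝ) * -(1 / (2 * (n : ℝ))) = 1 / 2 := by
      field_simp
      ring
    rw [e] at h
    have e2 : 1 + -(1 / (2 * (n : ℝ))) = s := by rw [hs]; ring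
    rwa [e2] at h
  have hq0 : 0 ≤ pc G * s := by positivity
  have hqc : pc G * s < pc G := by
    rw [hs]
    have : 0 < pc G * (1 / (2 * (n : ℝ))) := by positivity
    linarith only [this]
  have hpc1 : pc G ≤ 1 := pc_le_one hG
  have hsub : Sub G (pc G * s) := sub_of_lt_pc hG hqt hq0 hqc (hqc.le.trans hpc1)
  have h1 : Ex (pc G) (edgesIn G F) (fun S => s ^ n * ((Bn S x n).ncard : ℝ)) ≤
      Ex (pc G * s) (edgesIn G F) (fun S => (csz S x : ℝ)) := by
    rw [← Ex_thin]
    exact Vale.Agent.P151.Ex_mono hpc0.le hpc1 (fun S _ => ncard_Bn_le hs0 hs1 S x n)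
  have h2 : Ex (pc G * s) (edgesIn G F) (fun S => (csz S x : ℝ)) ≤ C / (pc G - pc G * s) :=
    (csz_le_chi hsub x F).trans (hchi _ hq0 hqc)
  have e3 : C / (pc G - pc G * s) = 2 * C / pc G * n := by
    rw [hs]
    field_simp
    ring
  rw [Vale.Agent.P151.Ex_const_mul, ] at h1
  have h3 : 0 ≤ Ex (pc G) (edgesIn G F) (fun S => ((Bn S x n).ncard : ℝ)) :=
    Vale.Agent.P151.Ex_nonneg hpc0.le hpc1 (fun _ _ => Nat.cast_nonneg _)
  have h4 := mul_le_mul_of_nonneg_right hsn h3
  have e4 : 4 * C / pc G * n = 2 * (2 * C / pc G * n) := by ring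
  rw [e4]
  linarith only [h1, h2, e3, h4]

/-- If the radius is small, the cluster is the intrinsic ball. -/
lemma csz_le_of_not_Rad {S : Finset (Sym2 V)} {x : V} {n : ℕ} (h : ¬ Rad S x n) :
    csz S x ≤ (Bn S x n).ncard := by
  have hsub : (cl S x : Set V) ⊆ Bn S x n := by
    intro y hy
    rw [mem_coe, Vale.Agent.P151.mem_cl] at hy
    unfold Rad at h
    push Not at h
    obtain ⟨w, hw⟩ := h y hy
    exact ⟨w, hw.le⟩
  unfold csz
  rw [← Set.ncard_coe_finset]
  exact Set.ncard_le_ncard hsub (Bn_finite S x n)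

/-- (I3) -/
theorem radLow [Infinite V] {G : SimpleGraph V} [G.LocallyFinite] (hG : G.Connected)
    (hqt : IsQuasiTransitive G) (hna : 0 < vertexCheeger G) (hTL : TailLow G) : RadLow G := by
  have hne : Nonempty V := hG.nonempty
  obtain ⟨⟨hpc0, _, _⟩, _, _⟩ := H794.main hG hqt hna
  have hpc1 : pc G ≤ 1 := pc_le_one hG
  obtain ⟨C, hC, hB⟩ := bintUp hG hqt hna
  obtain ⟨c, hc, hT⟩ := hTL
  -- choose an integer a with 8 C ≤ c a
  obtain ⟨a, ha⟩ := exists_nat_gt (4 * C / c)
  have ha0 : 0 < (a : ℝ) := lt_of_le_of_lt (by positivity) ha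
  have haN : 1 ≤ a := by exact_mod_cast ha0
  have hac : 4 * C < c * a := by
    rw [div_lt_iff₀ hc] at ha
    linarith only [ha]
  refine ⟨c / (4 * a), by positivity, fun n hn x => ?_⟩
  have hn' : (1 : ℝ) ≤ n := by exact_mod_cast hn
  have hn0 : (0 : ℝ) < n := by linarith only [hn']
  set N : ℕ := (a * n) ^ 2 with hN
  have hN1 : 1 ≤ N := Nat.one_le_pow _ _ (Nat.mul_pos haN hn)
  have hsq : √(N : ℝ) = a * n := by
    rw [hN]
    push_cast
    exact Real.sqrt_sq (by positivity)
  have hNr : (N : ℝ) = (a * n) ^ 2 := by rw [hN]; push_cast; rfl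
  have h1 : c / (2 * (a * n)) < EV G (pc G) (fun S => ind (N ≤ csz S x)) := by
    refine lt_of_lt_of_le ?_ (hT N hN1 x)
    rw [hsq]
    exact div_lt_div_of_pos_left hc (by positivity) (by nlinarith only [mul_pos ha0 hn0])
  obtain ⟨F0, hF0⟩ := Vale.Agent.P151.exists_lt_Ex h1
  refine ⟨F0, fun F hF => ?_⟩
  have hmono : Monotone (fun S : Finset (Sym2 V) => ind (N ≤ csz S x)) := fun S T h =>
    ind_mono (fun h' => h'.trans (Vale.Agent.P151.csz_mono h x))
  have h2 := Vale.Agent.P151.Ex_edgesIn_mono hpc0.le hpc1 hmono hF (G := G)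
  have h3 : Ex (pc G) (edgesIn G F) (fun S => ind (N ≤ csz S x)) ≤
      Ex (pc G) (edgesIn G F) (fun S => ind (Rad S x n)) +
      Ex (pc G) (edgesIn G F) (fun S => ((Bn S x n).ncard : ℝ) / N) := by
    rw [← Vale.Agent.P151.Ex_add]
    refine Vale.Agent.P151.Ex_mono hpc0.le hpc1 (fun S _ => ?_)
    have hnn : 0 ≤ ((Bn S x n).ncard : ℝ) / N := by positivity
    by_cases hR : Rad S x n
    · rw [ind_true hR]
      have := ind_le_one (N ≤ csz S x)
      linarith only [this, hnn]
    · rw [ind_false hR, zero_add]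
      by_cases hcs : N ≤ csz S x
      · rw [ind_true hcs, le_div_iff₀ (by exact_mod_cast hN1), one_mul]
        exact_mod_cast hcs.trans (csz_le_of_not_Rad hR)
      · rw [ind_false hcs]
        exact hnn
  have h4 : Ex (pc G) (edgesIn G F) (fun S => ((Bn S x n).ncard : ℝ) / N) ≤ C * n / N := by
    have e : (fun S : Finset (Sym2 V) => ((Bn S x n).ncard : ℝ) / N) =
        fun S => ((Bn S x n).ncard : ℝ) * (N : ℝ)⁻¹ := by
      funext S
      rw [div_eq_mul_inv]
    rw [e, Vale.Agent.P151.Ex_mul_const, div_eq_mul_inv]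
    exact mul_le_mul_of_nonneg_right (hB n hn x F) (by positivity)
  have h5 : C * n / N ≤ c / (4 * a) / n := by
    rw [hNr, div_div, div_le_div_iff₀ (by positivity) (by positivity)]
    have e1 : C * n * (4 * a * n) = (4 * C) * (a * n ^ 2) := by ring
    have e2 : c * (a * n) ^ 2 = (c * a) * (a * n ^ 2) := by ring
    rw [e1, e2]
    exact mul_le_mul_of_nonneg_right hac.le (by positivity)
  have e6 : c / (2 * (a * n)) = c / (4 * a) / n + c / (4 * a) / n := by
    field_simp
    ring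
  linarith only [hF0, h2, h3, h4, h5, e6]

end Vale.Agent.P165.H199
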