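import Vale.Agent.P165.H199.Row
import Vale.Agent.P165.H199.Rad
import Vale.Agent.P165.H199.Arm

/-!
The extrinsic one-arm lower bound.
-/

open Finset

set_option linter.unusedSectionVars false

namespace Vale.Agent.P165.H199

open Vale.Agent.P151 (Ex Cn cl csz edgesIn EV con tau)
open Vale.Agent.P165 Vale.Agent.P165.LF

variable {V : Type} [DecidableEq V]

lemma sum_adj_le (G : SimpleGraph V) [G.LocallyFinite] {d : ℕ} (hd : ∀ x, G.degree x ≤ d)
    (F : Finset V) (u : V) : ∑ v ∈ F, ind (G.Adj u v) ≤ d := by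
  classical
  have e : ∑ v ∈ F, ind (G.Adj u v) = ((F.filter (fun v => G.Adj u v)).card : ℝ) := by
    rw [Finset.card_filter, Nat.cast_sum]
    refine Finset.sum_congr rfl (fun v _ => ?_)
    by_cases h : G.Adj u v
    · rw [ind_true h, if_pos h, Nat.cast_one]
    · rw [ind_false h, if_neg h, Nat.cast_zero]
  rw [e]
  have h2 : (F.filter (fun v => G.Adj u v)) ⊆ G.neighborFinset u := by
    intro v hv
    rw [SimpleGraph.mem_neighborFinset]
    exact (mem_filter.1 hv).2
  have h3 := card_le_card h2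
  rw [SimpleGraph.card_neighborFinset_eq_degree] at h3
  exact_mod_cast h3.trans (hd u)

/-- The weighted row is bounded in `ℓ²`. -/
theorem row_sq_le (G : SimpleGraph V) [G.LocallyFinite] {d : ℕ} (hd : ∀ x, G.degree x ≤ d)
    {p N α : ℝ} (h0 : 0 ≤ p) (h1 : p ≤ 1) (hL : L2B G p N) (hα : 1 ≤ α)
    (hαN : (α - 1) * (N * d) ≤ 1 / 2) {F : Finset V} {x : V} (hx : x ∈ F) (M : ℕ) :
    ∑ y ∈ F, Wl G p α F x M y ^ 2 ≤ 4 * N ^ 2 := by
  classical
  have hN := hL.1
  set w : V → ℝ := fun y => Wl G p α F x M y with hw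
  have hw0 : ∀ y, 0 ≤ w y := fun y => Wl_nonneg G h0 h1 (zero_le_one.trans hα) F x M y
  set a : V → ℝ := fun v => ∑ u ∈ F, ind (G.Adj u v) * w u with ha
  have ha0 : ∀ v, 0 ≤ a v := fun v => Finset.sum_nonneg (fun u _ =>
    mul_nonneg (ind_nonneg _) (hw0 u))
  set X := ∑ y ∈ F, w y ^ 2 with hX
  have hX0 : 0 ≤ X := Finset.sum_nonneg (fun _ _ => sq_nonneg _)
  have ha2 : ∑ v ∈ F, a v ^ 2 ≤ (d : ℝ) ^ 2 * X := by
    have h2 : ∀ v ∈ F, a v ^ 2 ≤ d * ∑ u ∈ F, ind (G.Adj u v) * w u ^ 2 := by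
      intro v _
      have hcs := Finset.sum_mul_sq_le_sq_mul_sq F (fun u => ind (G.Adj u v))
        (fun u => ind (G.Adj u v) * w u)
      have hii : ∀ P : Prop, ind P * ind P = ind P := fun P => by
        rw [← ind_and]
        exact ind_congr ⟨fun h => h.1, fun h => ⟨h, h⟩⟩
      have e1 : ∑ u ∈ F, ind (G.Adj u v) * (ind (G.Adj u v) * w u) = a v :=
        Finset.sum_congr rfl (fun u _ => by rw [← mul_assoc, hii])
      have e2 : ∑ u ∈ F, ind (G.Adj u v) ^ 2 = ∑ u ∈ F, ind (G.Adj v u) :=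
        Finset.sum_congr rfl (fun u _ => by
          rw [sq, hii]
          exact ind_congr (SimpleGraph.adj_comm _ _ _))
      have e3 : ∑ u ∈ F, (ind (G.Adj u v) * w u) ^ 2 = ∑ u ∈ F, ind (G.Adj u v) * w u ^ 2 :=
        Finset.sum_congr rfl (fun u _ => by rw [mul_pow, sq (ind _), hii])
      rw [e1, e2, e3] at hcs
      refine hcs.trans (mul_le_mul_of_nonneg_right (sum_adj_le G hd F v) ?_)
      exact Finset.sum_nonneg (fun u _ => mul_nonneg (ind_nonneg _) (sq_nonneg _))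
    refine (Finset.sum_le_sum h2).trans ?_
    rw [← Finset.mul_sum, Finset.sum_comm]
    have h3 : ∑ u ∈ F, ∑ v ∈ F, ind (G.Adj u v) * w u ^ 2 ≤ ∑ u ∈ F, (d : ℝ) * w u ^ 2 := by
      refine Finset.sum_le_sum (fun u _ => ?_)
      rw [← Finset.sum_mul]
      exact mul_le_mul_of_nonneg_right (sum_adj_le G hd F u) (sq_nonneg _)
    have h4 := mul_le_mul_of_nonneg_left h3 (Nat.cast_nonneg d (α := ℝ))
    refine h4.trans (le_of_eq ?_)
    rw [← Finset.mul_sum, hX]
    ring
  have k1 : ∑ y ∈ F, w y * Ex p (edgesIn G F) (con x y) ≤ N * √X := by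
    have h2 := hL.2 F (fun z => if z = x then 1 else 0) w (fun z => by split_ifs <;> norm_num) hw0
    have e1 : ∑ z ∈ F, ∑ y ∈ F, (if z = x then (1 : ℝ) else 0) * w y *
        Ex p (edgesIn G F) (con z y) = ∑ y ∈ F, w y * Ex p (edgesIn G F) (con x y) := by
      rw [Finset.sum_eq_single_of_mem x hx]
      · exact Finset.sum_congr rfl (fun y _ => by rw [if_pos rfl, one_mul])
      · intro z _ hz
        exact Finset.sum_eq_zero (fun y _ => by rw [if_neg hz]; ring)
    have e2 : ∑ z ∈ F, (if z = x then (1 : ℝ) else 0) ^ 2 = 1 := by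
      rw [Finset.sum_eq_single_of_mem x hx]
      · rw [if_pos rfl]; norm_num
      · intro z _ hz
        rw [if_neg hz]; norm_num
    rw [e1, e2, one_mul] at h2
    have h3 : (N * √X) ^ 2 = N ^ 2 * X := by rw [mul_pow, Real.sq_sqrt hX0]
    exact (abs_le_of_sq_le_sq' (by rw [h3]; exact h2) (mul_nonneg hN (Real.sqrt_nonneg _))).2
  have k2 : ∑ v ∈ F, ∑ y ∈ F, a v * w y * Ex p (edgesIn G F) (con v y) ≤ N * d * X := by
    have h2 := hL.2 F a w ha0 hw0
    refine (abs_le_of_sq_le_sq' (h2.trans ?_) (by positivity)).2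
    calc N ^ 2 * ((∑ x ∈ F, a x ^ 2) * ∑ y ∈ F, w y ^ 2)
        ≤ N ^ 2 * (((d : ℝ) ^ 2 * X) * X) :=
          mul_le_mul_of_nonneg_left (mul_le_mul_of_nonneg_right ha2 hX0) (sq_nonneg _)
      _ = (N * d * X) ^ 2 := by ring
  have k3 : X ≤ N * √X + (α - 1) * (N * d * X) := by
    have h2 : X ≤ ∑ y ∈ F, w y * (Ex p (edgesIn G F) (con x y) +
        (α - 1) * ∑ v ∈ F, a v * Ex p (edgesIn G F) (con v y)) := by
      refine Finset.sum_le_sum (fun y _ => ?_)
      rw [sq]
      exact mul_le_mul_of_nonneg_left (Wl_le G h0 h1 hα F x y M) (hw0 y)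
    have e1 : ∑ y ∈ F, w y * (Ex p (edgesIn G F) (con x y) +
        (α - 1) * ∑ v ∈ F, a v * Ex p (edgesIn G F) (con v y)) =
        ∑ y ∈ F, w y * Ex p (edgesIn G F) (con x y) +
        (α - 1) * ∑ v ∈ F, ∑ y ∈ F, a v * w y * Ex p (edgesIn G F) (con v y) := by
      rw [Finset.sum_comm (s := F) (t := F), Finset.mul_sum, ← Finset.sum_add_distrib]
      refine Finset.sum_congr rfl (fun y _ => ?_)
      rw [Finset.mul_sum, Finset.mul_sum, mul_add, Finset.mul_sum]
      congr 1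
      exact Finset.sum_congr rfl (fun v _ => by ring)
    rw [e1] at h2
    exact h2.trans (add_le_add k1 (mul_le_mul_of_nonneg_left k2 (sub_nonneg.2 hα)))
  have k4 : X ≤ 2 * N * √X := by
    have h2 : (α - 1) * (N * d * X) ≤ 1 / 2 * X := by
      rw [← mul_assoc]
      exact mul_le_mul_of_nonneg_right hαN hX0
    linarith only [k3, h2]
  have hs0 := Real.sqrt_nonneg X
  have hsX := Real.sq_sqrt hX0
  have k5 : √X ≤ 2 * N := by
    by_contra hcon
    rw [not_le] at hcon
    have hpos : 0 < √X := lt_of_le_of_lt (by positivity) hcon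
    have := mul_lt_mul_of_pos_right hcon hpos
    have e : √X * √X = X := by rw [← sq, hsX]
    linarith only [this, k4, e]
  calc X = √X ^ 2 := hsX.symm
    _ ≤ (2 * N) ^ 2 := pow_le_pow_left₀ hs0 k5 2
    _ = 4 * N ^ 2 := by ring

lemma exists_level_bound (Λ : Finset (Sym2 V)) (x : V) (F : Finset V) :
    ∃ M : ℕ, ∀ S ⊆ Λ, ∀ y ∈ F, Cn S x y → y ∈ Bn S x M := by
  classical
  have h : ∀ z : Finset (Sym2 V) × V, ∃ m : ℕ, Cn z.1 x z.2 → z.2 ∈ Bn z.1 x m := by
    intro z
    by_cases hc : Cn z.1 x z.2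
    · obtain ⟨w⟩ := hc
      exact ⟨w.length, fun _ => ⟨w, le_rfl⟩⟩
    · exact ⟨0, fun h => absurd h hc⟩
  choose f hf using h
  refine ⟨(Λ.powerset ×ˢ F).sup f, fun S hS y hy hc => ?_⟩
  refine Bn_mono_n S x ?_ (hf (S, y) hc)
  exact Finset.le_sup (f := f) (mem_product.2 ⟨mem_powerset.2 hS, hy⟩)

lemma pow_mul_le_Wl (G : SimpleGraph V) {p α : ℝ} (h0 : 0 ≤ p) (h1 : p ≤ 1) (hα : 1 ≤ α)
    (F : Finset V) (x y : V) (m : ℕ) : ∀ M, m ≤ M →
      α ^ m * (Bl G p F x M y - Bl G p F x m y) ≤ Wl G p α F x M y := by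
  intro M hM
  induction M, hM using Nat.le_induction with
  | base =>
    rw [sub_self, mul_zero]
    exact Wl_nonneg G h0 h1 (zero_le_one.trans hα) F x m y
  | succ M hM ih =>
    have h2 : Wl G p α F x (M + 1) y = Wl G p α F x M y +
        α ^ (M + 1) * (Bl G p F x (M + 1) y - Bl G p F x M y) := by
      unfold Wl
      rw [Finset.sum_range_succ _ (M + 1), Dl_succ]
    have h3 := Dl_nonneg G h0 h1 F x (M + 1) y
    rw [Dl_succ] at h3
    have h4 : α ^ m ≤ α ^ (M + 1) := pow_le_pow_right₀ hα (by omega)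
    have h5 := mul_le_mul_of_nonneg_right h4 h3
    rw [h2]
    linarith only [ih, h5]

lemma Rl_sq_le (G : SimpleGraph V) [G.LocallyFinite] {d : ℕ} (hd : ∀ x, G.degree x ≤ d)
    {p N α : ℝ} (h0 : 0 ≤ p) (h1 : p ≤ 1) (hL : L2B G p N) (hα : 1 ≤ α)
    (hαN : (α - 1) * (N * d) ≤ 1 / 2) {F : Finset V} {x : V} (hx : x ∈ F) (m : ℕ) :
    ∑ y ∈ F, (α ^ m * Rl G p F x m y) ^ 2 ≤ 4 * N ^ 2 := by
  obtain ⟨M0, hM0⟩ := exists_level_bound (edgesIn G F) x F
  set M := max m M0 with hM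
  refine le_trans (Finset.sum_le_sum (fun y hy => ?_)) (row_sq_le G hd h0 h1 hL hα hαN hx M)
  have hR0 : 0 ≤ Rl G p F x m y := Vale.Agent.P151.Ex_nonneg h0 h1 (fun _ _ => ind_nonneg _)
  refine pow_le_pow_left₀ (mul_nonneg (pow_nonneg (zero_le_one.trans hα) m) hR0) ?_ 2
  refine le_trans (le_of_eq ?_) (pow_mul_le_Wl G h0 h1 hα F x y m M (le_max_left _ _))
  congr 1
  unfold Rl Bl
  rw [← Vale.Agent.P151.Ex_sub]
  refine Vale.Agent.P151.Ex_congr p (fun S hS => ?_)
  by_cases hc : Cn S x y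
  · rw [ind_true (Bn_mono_n S x (le_max_right m M0) (hM0 S hS y hy hc))]
    by_cases hm : y ∈ Bn S x m
    · rw [ind_true hm, ind_false (fun h => h.2 hm)]
      ring
    · rw [ind_false hm, ind_true ⟨hc, hm⟩]
      ring
  · have hB : ∀ k, y ∉ Bn S x k := by
      rintro k ⟨w, _⟩
      exact hc ⟨w⟩
    rw [ind_false (hB _), ind_false (hB _), ind_false (fun h => hc h.1)]
    ring

/-- `E_{p_c}|K ∩ B(x,n)| ≤ C n`. -/
theorem ballUp [Infinite V] {G : SimpleGraph V} [G.LocallyFinite] (hG : G.Connected)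
    (hqt : IsQuasiTransitive G) (hna : 0 < vertexCheeger G) :
    ∃ C : ℝ, 0 < C ∧ ∀ n : ℕ, 1 ≤ n → ∀ (x : V) (F : Finset V), ballF G x n ⊆ F →
      ∑ y ∈ ballF G x n, Ex (pc G) (edgesIn G F) (con x y) ≤ C * n := by
  classical
  have hne : Nonempty V := hG.nonempty
  obtain ⟨⟨hpc0, hlt, _⟩, _, _⟩ := H794.main hG hqt hna
  have hpc1 : pc G ≤ 1 := pc_le_one hG
  obtain ⟨p, N, hp, hp0, hp1, hL'⟩ := H794.exists_L2B_of_lt hG hlt
  have hL : L2B G (pc G) N := hL'.mg_mono hpc0.le hp.le hp1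
  have hN := hL.1
  obtain ⟨C, hC, hB⟩ := bintUp hG hqt hna
  obtain ⟨d, hd1, hd⟩ := LF.exists_degree_bound (G := G) hqt
  have hd1' : (1 : ℝ) ≤ d := by exact_mod_cast hd1
  set ε : ℝ := 1 / (2 * (N + 1) * d) with hε
  have hε0 : 0 < ε := by positivity
  set α : ℝ := 1 + ε with hα
  have hα1 : 1 < α := by rw [hα]; linarith only [hε0]
  have hαN : (α - 1) * (N * d) ≤ 1 / 2 := by
    have e : α - 1 = ε := by rw [hα]; ring
    rw [e, hε, div_mul_eq_mul_div, one_mul, div_le_div_iff₀ (by positivity) (by norm_num)]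
    nlinarith only [hN, hd1']
  obtain ⟨A, hA⟩ := pow_unbounded_of_one_lt ((d : ℝ) + 1) hα1
  refine ⟨C * (A + 1) + 2 * N, by positivity, fun n hn x F hF => ?_⟩
  have hn' : (1 : ℝ) ≤ n := by exact_mod_cast hn
  have hxF : x ∈ F := hF (mem_ballF_self G x n)
  set m := (A + 1) * n with hm
  have hm1 : 1 ≤ m := by rw [hm]; exact Nat.mul_pos (Nat.succ_pos _) hn
  have h2 : ∀ y ∈ ballF G x n, Ex (pc G) (edgesIn G F) (con x y) =
      Bl G (pc G) F x m y + Rl G (pc G) F x m y := by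
    intro y _
    unfold Bl Rl
    rw [← Vale.Agent.P151.Ex_add]
    refine Vale.Agent.P151.Ex_congr _ (fun S _ => ?_)
    rw [con_eq_ind]
    by_cases hc : Cn S x y
    · by_cases hb : y ∈ Bn S x m
      · rw [ind_true hc, ind_true hb, ind_false (fun h => h.2 hb)]; ring
      · rw [ind_true hc, ind_false hb, ind_true ⟨hc, hb⟩]; ring
    · have hb : y ∉ Bn S x m := by
        rintro ⟨w, _⟩
        exact hc ⟨w⟩
      rw [ind_false hc, ind_false hb, ind_false (fun h => hc h.1)]; ring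
  rw [Finset.sum_congr rfl h2, Finset.sum_add_distrib]
  have h3 : ∑ y ∈ ballF G x n, Bl G (pc G) F x m y ≤ C * m := by
    refine le_trans ?_ (hB m hm1 x F)
    unfold Bl
    rw [← Vale.Agent.P151.Ex_sum]
    refine Vale.Agent.P151.Ex_mono hpc0.le hpc1 (fun S _ => ?_)
    have e1 : ∑ y ∈ ballF G x n, ind (y ∈ Bn S x m) =
        (((ballF G x n).filter (fun y => y ∈ Bn S x m)).card : ℝ) := by
      rw [Finset.card_filter, Nat.cast_sum]
      refine Finset.sum_congr rfl (fun v _ => ?_)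
      by_cases h : v ∈ Bn S x m
      · rw [ind_true h, if_pos h, Nat.cast_one]
      · rw [ind_false h, if_neg h, Nat.cast_zero]
    rw [e1, ← Set.ncard_coe_finset]
    refine Nat.cast_le.2 (Set.ncard_le_ncard ?_ (Bn_finite S x m))
    intro y hy
    exact (mem_filter.1 (mem_coe.1 hy)).2
  have h4 : ∑ y ∈ ballF G x n, Rl G (pc G) F x m y ≤ 2 * N := by
    have hR0 : ∀ y, 0 ≤ Rl G (pc G) F x m y := fun y =>
      Vale.Agent.P151.Ex_nonneg hpc0.le hpc1 (fun _ _ => ind_nonneg _)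
    have hsq := Rl_sq_le G hd hpc0.le hpc1 hL hα1.le hαN hxF m
    have hcs := sq_sum_le_card_mul_sum_sq (s := ballF G x n)
      (f := fun y => Rl G (pc G) F x m y)
    have hcard : ((ballF G x n).card : ℝ) ≤ (α ^ m) ^ 2 := by
      have h5 : ((ballF G x n).card : ℝ) ≤ ((d : ℝ) + 1) ^ n := by
        have := card_ballF_le G d hd x n
        exact_mod_cast this
      have h6 : ((d : ℝ) + 1) ^ n ≤ (α ^ A) ^ n := pow_le_pow_left₀ (by positivity) hA.le n
      have h7 : (α ^ A) ^ n ≤ (α ^ m) ^ 2 := by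
        rw [← pow_mul, ← pow_mul]
        refine pow_le_pow_right₀ hα1.le ?_
        rw [hm]
        nlinarith only []
      exact h5.trans (h6.trans h7)
    have h8 : ((ballF G x n).card : ℝ) * ∑ y ∈ ballF G x n, Rl G (pc G) F x m y ^ 2 ≤
        4 * N ^ 2 := by
      refine le_trans ?_ hsq
      refine (mul_le_mul_of_nonneg_right hcard (Finset.sum_nonneg (fun _ _ => sq_nonneg _))).trans
        ?_
      rw [Finset.mul_sum]
      refine le_trans (le_of_eq (Finset.sum_congr rfl (fun y _ => (mul_pow _ _ 2).symm))) ?_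
      exact Finset.sum_le_sum_of_subset_of_nonneg hF (fun _ _ _ => sq_nonneg _)
    have h9 : (∑ y ∈ ballF G x n, Rl G (pc G) F x m y) ^ 2 ≤ (2 * N) ^ 2 := by
      refine (hcs.trans h8).trans (le_of_eq ?_)
      ring
    exact (abs_le_of_sq_le_sq' h9 (by positivity)).2
  have e5 : C * (m : ℝ) = C * (A + 1) * n := by rw [hm]; push_cast; ring
  have h6 : 2 * N ≤ 2 * N * n := le_mul_of_one_le_right (by positivity) hn'
  have e7 : (C * (A + 1) + 2 * N) * n = C * (A + 1) * n + 2 * N * n := by ring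
  rw [e7]
  linarith only [h3, h4, e5, h6]

/-- Extrinsic one-arm lower bound. -/
theorem armLow [Infinite V] {G : SimpleGraph V} [G.LocallyFinite] (hG : G.Connected)
    (hqt : IsQuasiTransitive G) (hna : 0 < vertexCheeger G) (hTL : TailLow G) : ArmLow G := by
  classical
  have hne : Nonempty V := hG.nonempty
  obtain ⟨⟨hpc0, _, _⟩, _, _⟩ := H794.main hG hqt hna
  have hpc1 : pc G ≤ 1 := pc_le_one hG
  obtain ⟨C, hC, hB⟩ := ballUp hG hqt hna
  obtain ⟨c, hc, hT⟩ := hTL
  obtain ⟨a, ha⟩ := exists_nat_gt (4 * C / c)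
  have ha0 : 0 < (a : ℝ) := lt_of_le_of_lt (by positivity) ha
  have haN : 1 ≤ a := by exact_mod_cast ha0
  have hac : 4 * C < c * a := by
    rw [div_lt_iff₀ hc] at ha
    linarith only [ha]
  refine ⟨c / (4 * a), by positivity, fun n hn x => ?_⟩
  have hn' : (1 : ℝ) ≤ n := by exact_mod_cast hn
  have hn0 : (0 : ℝ) < n := by linarith only [hn']
  set N : ℕ := (a * n) ^ 2 with hN
  have hN1 : 1 ≤ N := Nat.one_le_pow _ _ (Nat.mul_pos haN hn)
  have hsq : √(N : ℝ) = a * n := by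
    rw [hN]
    push_cast
    exact Real.sqrt_sq (by positivity)
  have hNr : (N : ℝ) = (a * n) ^ 2 := by rw [hN]; push_cast; rfl
  have h1 : c / (2 * (a * n)) < EV G (pc G) (fun S => ind (N ≤ csz S x)) := by
    refine lt_of_lt_of_le ?_ (hT N hN1 x)
    rw [hsq]
    exact div_lt_div_of_pos_left hc (by positivity) (by nlinarith only [mul_pos ha0 hn0])
  obtain ⟨F0, hF0⟩ := Vale.Agent.P151.exists_lt_Ex h1
  set F := F0 ∪ ballF G x n with hF
  have hmono : Monotone (fun S : Finset (Sym2 V) => ind (N ≤ csz S x)) := fun S T h =>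
    ind_mono (fun h' => h'.trans (Vale.Agent.P151.csz_mono h x))
  have h2 := Vale.Agent.P151.Ex_edgesIn_mono hpc0.le hpc1 hmono
    (F := F0) (F' := F) subset_union_left (G := G)
  refine le_trans ?_ (Vale.Agent.P151.le_EV hpc0.le hpc1 (fun S => ind_le_one _) F)
  have h3 : Ex (pc G) (edgesIn G F) (fun S => ind (N ≤ csz S x)) ≤
      Ex (pc G) (edgesIn G F) (fun S => ind (∃ y, Cn S x y ∧ n ≤ G.dist x y)) +
      Ex (pc G) (edgesIn G F) (fun S => (∑ y ∈ ballF G x n, con x y S) * (N : ℝ)⁻¹) := by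
    rw [← Vale.Agent.P151.Ex_add]
    refine Vale.Agent.P151.Ex_mono hpc0.le hpc1 (fun S _ => ?_)
    have hs0 : 0 ≤ ∑ y ∈ ballF G x n, con x y S :=
      Finset.sum_nonneg (fun y _ => Vale.Agent.P151.con_nonneg x y S)
    have hnn : 0 ≤ (∑ y ∈ ballF G x n, con x y S) * (N : ℝ)⁻¹ := by positivity
    by_cases hR : ∃ y, Cn S x y ∧ n ≤ G.dist x y
    · rw [ind_true hR]
      have := ind_le_one (N ≤ csz S x)
      linarith only [this, hnn]
    · rw [ind_false hR, zero_add]
      by_cases hcs : N ≤ csz S x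
      · rw [ind_true hcs, ← div_eq_mul_inv, le_div_iff₀ (by exact_mod_cast hN1), one_mul]
        have hsub : cl S x ⊆ ballF G x n := by
          intro y hy
          rw [Vale.Agent.P151.mem_cl] at hy
          have hlt : G.dist x y < n := by
            by_contra hcon
            exact hR ⟨y, hy, not_lt.1 hcon⟩
          refine mem_ballF_of_dist_le G hG x y n ?_
          rw [SimpleGraph.dist_comm]
          exact hlt.le
        have e1 : ∑ y ∈ ballF G x n, con x y S = (csz S x : ℝ) := by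
          have e2 : ∀ y ∈ ballF G x n, con x y S = if y ∈ cl S x then (1 : ℝ) else 0 := by
            intro y _
            rw [con_eq_ind]
            by_cases h : Cn S x y
            · rw [ind_true h, if_pos (Vale.Agent.P151.mem_cl.2 h)]
            · rw [ind_false h, if_neg (fun h' => h (Vale.Agent.P151.mem_cl.1 h'))]
          rw [Finset.sum_congr rfl e2, ← Finset.sum_filter, Finset.sum_const, nsmul_eq_mul,
            mul_one]
          unfold csz
          congr 2
          ext y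
          rw [mem_filter]
          exact ⟨fun h => h.2, fun h => ⟨hsub h, h⟩⟩
        rw [e1]
        exact_mod_cast hcs
      · rw [ind_false hcs]
        exact hnn
  have h4 : Ex (pc G) (edgesIn G F) (fun S => (∑ y ∈ ballF G x n, con x y S) * (N : ℝ)⁻¹) ≤
      C * n / N := by
    rw [Vale.Agent.P151.Ex_mul_const, div_eq_mul_inv, Vale.Agent.P151.Ex_sum]
    exact mul_le_mul_of_nonneg_right (hB n hn x F subset_union_right) (by positivity)
  have h5 : C * n / N ≤ c / (4 * a) / n := by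
    rw [hNr, div_div, div_le_div_iff₀ (by positivity) (by positivity)]
    have e1 : C * n * (4 * a * n) = (4 * C) * (a * n ^ 2) := by ring
    have e2 : c * (a * n) ^ 2 = (c * a) * (a * n ^ 2) := by ring
    rw [e1, e2]
    exact mul_le_mul_of_nonneg_right hac.le (by positivity)
  have e6 : c / (2 * (a * n)) = c / (4 * a) / n + c / (4 * a) / n := by
    field_simp
    ring
  linarith only [hF0, h2, h3, h4, h5, e6]

end Vale.Agent.P165.H199
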