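import Vale.Agent.P165.H199.Ghost

/-!
Finite clusters above `p_c`: literal statements of the pieces.
-/

open Finset

set_option linter.unusedSectionVars false

namespace Vale.Agent.P165.H199

open Vale.Agent.P151 (Ex Cn cl csz edgesIn EV con tau)
open Vale.Agent.P165.LF

variable {V : Type} [DecidableEq V]

open Classical in
/-- The outer vertex boundary of `Q` inside `F`. -/
noncomputable def outer (G : SimpleGraph V) (F Q : Finset V) : Finset V :=
  F.filter (fun v => v ∉ Q ∧ ∃ u ∈ Q, G.Adj u v ∧ u ∈ F)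

/-- The expected number of outer boundary vertices of `Q` with a ghost in their cluster off
`Q`. -/
noncomputable def esc (G : SimpleGraph V) (p t : ℝ) (F Q : Finset V) : ℝ :=
  ∑ v ∈ outer G F Q, Ex p (edgesIn G F) (fun S =>
    1 - t ^ csz (S ∩ offE (edgesIn G F) (Q : Set V)) v)

/-- (C1) sprinkling and Jensen: finite clusters at `q` are rare because of the escapes at
`p < q`; here `1 - q = (1 - p) (1 - s)`. -/
def CoreFin (V : Type) [DecidableEq V] : Prop :=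
  ∀ (G : SimpleGraph V) (p q s t κ : ℝ), 0 ≤ p → p ≤ 1 → 0 ≤ s → s ≤ 1 →
    1 - q = (1 - p) * (1 - s) → 0 < t → t < 1 → 0 < κ →
    ∀ (F : Finset V) (x : V) (n L : ℕ), x ∈ F →
    (∀ S ⊆ edgesIn G F, n ≤ csz S x → csz S x ≤ L →
      κ * csz S x ≤ esc G p t F (cl S x)) →
    Ex q (edgesIn G F) (fun S => ind (n ≤ csz S x ∧ csz S x ≤ L) * t ^ csz S x) ≤
      Real.exp (-(s * κ * n)) * Ex q (edgesIn G F) (fun S => ind (n ≤ csz S x))

/-- (C2) many escapes. -/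
def EscLow (G : SimpleGraph V) [G.LocallyFinite] : Prop :=
  ∃ p₁ c : ℝ, pc G < p₁ ∧ p₁ < 1 ∧ 0 < c ∧ ∀ p t : ℝ, pc G / 2 ≤ p → p ≤ p₁ → 0 < t → t < 1 →
    ∀ (x : V) (L : ℕ), ∃ F0 : Finset V, ∀ F : Finset V, F0 ⊆ F → ∀ Q ⊆ ballF G x L,
      c * mM G p t * Q.card ≤ esc G p t F Q

/-- (C3) the tail of finite clusters above `p_c`. -/
def FinTail (G : SimpleGraph V) : Prop :=
  ∃ c C : ℝ, 0 < c ∧ 0 < C ∧ ∀ q : ℝ, pc G < q → q ≤ 1 → ∀ (x : V) (n L : ℕ), 1 ≤ n →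
    ∀ t : ℝ, 0 < t → t < 1 → ∃ F0 : Finset V, ∀ F : Finset V, F0 ⊆ F →
      Ex q (edgesIn G F) (fun S => ind (n ≤ csz S x ∧ csz S x ≤ L) * t ^ csz S x) ≤
        C / √(n : ℝ) * Real.exp (-(c * (q - pc G) ^ 2 * n))

end Vale.Agent.P165.H199
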