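import Vale.Agent.P165.H199.Esc

/-!
Sharp lower bound for the tail of finite clusters: literal statements of the pieces.
-/

open Finset

set_option linter.unusedSectionVars false

namespace Vale.Agent.P165.H199

open Vale.Agent.P151 (Ex Cn cl csz edgesIn EV con tau)
open Vale.Agent.P165.LF

variable {V : Type} [DecidableEq V]

/-- The centred number of open edges touching the cluster of `x`. -/
noncomputable def Mx (p : ℝ) (Λ : Finset (Sym2 V)) (x : V) (S : Finset (Sym2 V)) : ℝ :=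
  ∑ e ∈ Λ, ind (∃ v ∈ e, v ∈ cl S x) * (ind (e ∈ S) - p)

/-- (L1) second moment of `Mx`, with ghosts. -/
def SecMom (G : SimpleGraph V) : Prop :=
  ∃ D : ℝ, 0 < D ∧ ∀ p t : ℝ, 0 ≤ p → p ≤ 1 → 0 < t → t < 1 → ∀ (F : Finset V) (x : V),
    Ex p (edgesIn G F) (fun S => Mx p (edgesIn G F) x S ^ 2 * t ^ csz S x) ≤
      D * (Ex p (edgesIn G F) (fun S => 1 - t ^ csz S x) / (1 - t))

/-- (L2) change of parameter on events of the cluster. -/
def ChPar (G : SimpleGraph V) : Prop :=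
  ∀ p₀ a b : ℝ, 0 < p₀ → p₀ < 1 → 0 < a → b < 1 → ∃ C : ℝ, 0 < C ∧ ∀ p : ℝ, a ≤ p → p ≤ b →
    ∀ (F : Finset V) (x : V) (φ : ℕ → ℝ), (∀ n, 0 ≤ φ n) →
      Ex p₀ (edgesIn G F) (fun S => φ (csz S x) *
        Real.exp (-(C * |p - p₀| * |Mx p₀ (edgesIn G F) x S|) - C * (p - p₀) ^ 2 * csz S x)) ≤
      Ex p (edgesIn G F) (fun S => φ (csz S x))

/-- (L3) the lower bound for finite clusters, all `p` in a compact subset of `(0,1)`. -/
def TailLowAll (G : SimpleGraph V) : Prop :=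
  ∀ a b : ℝ, 0 < a → b < 1 → ∃ (c C : ℝ) (B : ℕ), 0 < c ∧ 0 < C ∧ ∀ p : ℝ, a ≤ p → p ≤ b →
    ∀ (x : V) (n : ℕ), 1 ≤ n → ∃ F0 : Finset V, ∀ F : Finset V, F0 ⊆ F →
      c / √(n : ℝ) * Real.exp (-(C * (p - pc G) ^ 2 * n)) ≤
        Ex p (edgesIn G F) (fun S => ind (n ≤ csz S x ∧ csz S x ≤ B * n))

end Vale.Agent.P165.H199
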