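import Vale.Agent.P165.H199.SecMomPf

/-!
Change of parameter on the cluster of `x`.
-/

open Finset

set_option linter.unusedSectionVars false

namespace Vale.Agent.P165.H199

open Vale.Agent.P151 (Ex Cn cl csz edgesIn EV con tau)
open Vale.Agent.P165 Vale.Agent.P165.LF

variable {V : Type} [DecidableEq V]

/-- The log-likelihood of the edges touching the cluster of `B`. -/
noncomputable def WB (l₁ l₂ : ℝ) (Λ : Finset (Sym2 V)) (B : Finset V) (S : Finset (Sym2 V)) : ℝ :=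
  ∑ e ∈ Λ, ind (∃ v ∈ e, v ∈ clB S B) * (l₂ + ind (e ∈ S) * (l₁ - l₂))

lemma WB_open (l₁ l₂ : ℝ) {Λ S : Finset (Sym2 V)} {B : Finset V} {a b : V} (ha : a ∈ B)
    (he : s(a, b) ∉ Λ) :
    WB l₁ l₂ (insert s(a, b) Λ) B (insert s(a, b) S) = l₁ + WB l₁ l₂ Λ (insert b B) S := by
  unfold WB
  rw [Finset.sum_insert he, clB_insert ha]
  congr 1
  · rw [ind_true ⟨a, Sym2.mem_mk_left a b, subset_clB _ _ (mem_insert_of_mem ha)⟩,
      ind_true (mem_insert_self _ _)]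
    ring
  · refine Finset.sum_congr rfl (fun f hf => ?_)
    congr 3
    refine ind_congr ⟨fun h => ?_, fun h => mem_insert_of_mem h⟩
    rcases mem_insert.1 h with rfl | h
    · exact absurd hf he
    · exact h

lemma WB_closed (l₁ l₂ : ℝ) {Λ S : Finset (Sym2 V)} {B : Finset V} {a b : V} (ha : a ∈ B)
    (he : s(a, b) ∉ Λ) (hS : S ⊆ Λ) :
    WB l₁ l₂ (insert s(a, b) Λ) B S = l₂ + WB l₁ l₂ Λ B S := by
  unfold WB
  rw [Finset.sum_insert he]
  congr 1
  rw [ind_true ⟨a, Sym2.mem_mk_left a b, subset_clB _ _ ha⟩, ind_false (fun h => he (hS h)),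
    one_mul, zero_mul, add_zero]

theorem chPar_aux {p p₀ l₁ l₂ : ℝ} (e₁ : p₀ * Real.exp l₁ = p)
    (e₂ : (1 - p₀) * Real.exp l₂ = 1 - p) (φ : Finset V → ℝ) :
    ∀ (n : ℕ) (Λ : Finset (Sym2 V)) (B : Finset V), Λ.card ≤ n →
    Ex p Λ (fun S => φ (clB S B)) =
      Ex p₀ Λ (fun S => φ (clB S B) * Real.exp (WB l₁ l₂ Λ B S)) := by
  intro n
  have hno : ∀ (Λ : Finset (Sym2 V)) (B : Finset V), (¬ ∃ e ∈ Λ, ∃ v ∈ e, v ∈ B) →
      Ex p Λ (fun S => φ (clB S B)) =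
      Ex p₀ Λ (fun S => φ (clB S B) * Real.exp (WB l₁ l₂ Λ B S)) := by
    intro Λ B h
    have a1 : Ex p Λ (fun S => φ (clB S B)) = φ B := by
      rw [← Vale.Agent.P151.Ex_const p Λ (φ B)]
      refine Vale.Agent.P151.Ex_congr p (fun S hS => ?_)
      rw [clB_of_noTouch hS h]
    have a2 : Ex p₀ Λ (fun S => φ (clB S B) * Real.exp (WB l₁ l₂ Λ B S)) = φ B := by
      rw [← Vale.Agent.P151.Ex_const p₀ Λ (φ B)]
      refine Vale.Agent.P151.Ex_congr p₀ (fun S hS => ?_)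
      have e3 : WB l₁ l₂ Λ B S = 0 := by
        unfold WB
        refine Finset.sum_eq_zero (fun e he => ?_)
        rw [clB_of_noTouch hS h, ind_false (fun h' => h ⟨e, he, h'⟩), zero_mul]
      rw [e3, clB_of_noTouch hS h, Real.exp_zero, mul_one]
    rw [a1, a2]
  induction n with
  | zero =>
    intro Λ B hn
    have hΛ : Λ = ∅ := Finset.card_eq_zero.1 (Nat.le_zero.1 hn)
    subst hΛ
    exact hno ∅ B (by rintro ⟨e, he, _⟩; exact notMem_empty _ he)
  | succ n ih =>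
    intro Λ B hn
    by_cases h : ∃ e ∈ Λ, ∃ v ∈ e, v ∈ B
    swap
    · exact hno Λ B h
    obtain ⟨e, he, a, hae, haB⟩ := h
    obtain ⟨b, rfl⟩ := Sym2.mem_iff_exists.1 hae
    have heΛ' : s(a, b) ∉ Λ.erase s(a, b) := notMem_erase _ _
    have hcard : (Λ.erase s(a, b)).card ≤ n := by
      have := Finset.card_erase_of_mem he
      omega
    rw [← insert_erase he, Vale.Agent.P151.Ex_insert p heΛ', Vale.Agent.P151.Ex_insert p₀ heΛ']
    generalize Λ.erase s(a, b) = Λ' at heΛ' hcard ⊢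
    have a1 : Ex p Λ' (fun S => φ (clB (insert s(a, b) S) B)) =
        Ex p₀ Λ' (fun S => φ (clB S (insert b B)) *
          Real.exp (WB l₁ l₂ Λ' (insert b B) S)) := by
      rw [← ih Λ' (insert b B) hcard]
      exact Vale.Agent.P151.Ex_congr p (fun S _ => by rw [clB_insert haB])
    have a2 : Ex p₀ Λ' (fun S => φ (clB (insert s(a, b) S) B) *
          Real.exp (WB l₁ l₂ (insert s(a, b) Λ') B (insert s(a, b) S))) =
        Real.exp l₁ * Ex p₀ Λ' (fun S => φ (clB S (insert b B)) *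
          Real.exp (WB l₁ l₂ Λ' (insert b B) S)) := by
      rw [← Vale.Agent.P151.Ex_const_mul]
      refine Vale.Agent.P151.Ex_congr p₀ (fun S _ => ?_)
      rw [WB_open l₁ l₂ haB heΛ', clB_insert haB, Real.exp_add]
      ring
    have a3 : Ex p₀ Λ' (fun S => φ (clB S B) *
          Real.exp (WB l₁ l₂ (insert s(a, b) Λ') B S)) =
        Real.exp l₂ * Ex p₀ Λ' (fun S => φ (clB S B) * Real.exp (WB l₁ l₂ Λ' B S)) := by
      rw [← Vale.Agent.P151.Ex_const_mul]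
      refine Vale.Agent.P151.Ex_congr p₀ (fun S hS => ?_)
      rw [WB_closed l₁ l₂ haB heΛ' hS, Real.exp_add]
      ring
    rw [a1, a2, a3, ih Λ' B hcard, ← mul_assoc, ← mul_assoc, e₁, e₂]

lemma log_ge {x : ℝ} (hx : 0 < x) : 1 - x⁻¹ ≤ Real.log x := Real.one_sub_inv_le_log_of_pos hx

/-- The scalar estimates. -/
lemma scal {p p₀ a b : ℝ} (h0 : 0 < p₀) (h1 : p₀ < 1) (ha : 0 < a) (hb : b < 1) (hap : a ≤ p)
    (hpb : p ≤ b) :
    |Real.log (p / p₀) - Real.log ((1 - p) / (1 - p₀))| ≤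
      (1 / a + 1 / p₀ + 1 / (1 - b) + 1 / (1 - p₀)) * |p - p₀| ∧
    -((1 / (a * (1 - b))) * (p - p₀) ^ 2) ≤
      p₀ * Real.log (p / p₀) + (1 - p₀) * Real.log ((1 - p) / (1 - p₀)) := by
  have hp : 0 < p := ha.trans_le hap
  have hp1 : 0 < 1 - p := by linarith only [hpb, hb]
  have hq1 : 0 < 1 - p₀ := by linarith only [h1]
  have hb1 : 0 < 1 - b := by linarith only [hb]
  have u1 : Real.log (p / p₀) ≤ p / p₀ - 1 := Real.log_le_sub_one_of_pos (div_pos hp h0)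
  have u2 : Real.log ((1 - p) / (1 - p₀)) ≤ (1 - p) / (1 - p₀) - 1 :=
    Real.log_le_sub_one_of_pos (div_pos hp1 hq1)
  have l1 : 1 - (p / p₀)⁻¹ ≤ Real.log (p / p₀) := log_ge (div_pos hp h0)
  have l2 : 1 - ((1 - p) / (1 - p₀))⁻¹ ≤ Real.log ((1 - p) / (1 - p₀)) :=
    log_ge (div_pos hp1 hq1)
  have f1 : p / p₀ - 1 = (p - p₀) * (1 / p₀) := by field_simp
  have f2 : (1 - p) / (1 - p₀) - 1 = -((p - p₀) * (1 / (1 - p₀))) := by field_simp; ring
  have f3 : 1 - (p / p₀)⁻¹ = (p - p₀) * (1 / p) := by field_simp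
  have f4 : 1 - ((1 - p) / (1 - p₀))⁻¹ = -((p - p₀) * (1 / (1 - p))) := by field_simp; ring
  rw [f1] at u1
  rw [f2] at u2
  rw [f3] at l1
  rw [f4] at l2
  have g1 : 1 / p ≤ 1 / a := one_div_le_one_div_of_le ha hap
  have g2 : 1 / (1 - p) ≤ 1 / (1 - b) := one_div_le_one_div_of_le hb1 (by linarith only [hpb])
  have x0 := abs_nonneg (p - p₀)
  have x1 := le_abs_self (p - p₀)
  have x2 := neg_abs_le (p - p₀)
  have i0 : 0 < 1 / p₀ := one_div_pos.2 h0
  have i1 : 0 < 1 / (1 - p₀) := one_div_pos.2 hq1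
  have i2 : 0 < 1 / p := one_div_pos.2 hp
  have i3 : 0 < 1 / (1 - p) := one_div_pos.2 hp1
  have i4 : 0 < 1 / a := one_div_pos.2 ha
  have i5 : 0 < 1 / (1 - b) := one_div_pos.2 hb1
  have bd : ∀ y : ℝ, 0 < y → (p - p₀) * y ≤ y * |p - p₀| ∧ -(y * |p - p₀|) ≤ (p - p₀) * y := by
    intro y hy
    constructor
    · rw [mul_comm]
      exact mul_le_mul_of_nonneg_left x1 hy.le
    · have := mul_le_mul_of_nonneg_left x2 hy.le
      rw [mul_neg] at this
      rwa [mul_comm (p - p₀)]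
  have j1 := bd _ i0
  have j2 := bd _ i1
  have j3 := bd _ i2
  have j4 := bd _ i3
  have k3 := mul_le_mul_of_nonneg_right g1 x0
  have k4 := mul_le_mul_of_nonneg_right g2 x0
  have m0 := mul_nonneg i0.le x0
  have m1 := mul_nonneg i1.le x0
  have m2 := mul_nonneg i4.le x0
  have m3 := mul_nonneg i5.le x0
  constructor
  · rw [abs_le]
    constructor
    · linarith only [l1, u2, j1.1, j1.2, j2.1, j2.2, j3.1, j3.2, j4.1, j4.2, k3, k4, m0, m1, m2, m3]
    · linarith only [u1, l2, j1.1, j1.2, j2.1, j2.2, j3.1, j3.2, j4.1, j4.2, k3, k4, m0, m1, m2, m3]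
  · have n1 := mul_le_mul_of_nonneg_left l1 h0.le
    have n2 := mul_le_mul_of_nonneg_left l2 hq1.le
    have e : p₀ * ((p - p₀) * (1 / p)) + (1 - p₀) * -((p - p₀) * (1 / (1 - p))) =
        -((1 / (p * (1 - p))) * (p - p₀) ^ 2) := by
      field_simp
      ring
    have n3 : 1 / (p * (1 - p)) ≤ 1 / (a * (1 - b)) := by
      refine one_div_le_one_div_of_le (mul_pos ha hb1) ?_
      exact mul_le_mul hap (by linarith only [hpb]) hb1.le hp.le
    have n4 := mul_le_mul_of_nonneg_right n3 (sq_nonneg (p - p₀))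
    linarith only [n1, n2, e, n4]

open Classical in
lemma touch_le (G : SimpleGraph V) [G.LocallyFinite] {d : ℕ} (hd : ∀ x, G.degree x ≤ d)
    (F K : Finset V) : ∑ e ∈ edgesIn G F, ind (∃ v ∈ e, v ∈ K) ≤ (d : ℝ) * K.card := by
  have h1 : ∑ e ∈ edgesIn G F, ind (∃ v ∈ e, v ∈ K) ≤
      ∑ e ∈ edgesIn G F, ∑ v ∈ K, ind (v ∈ e) := by
    refine Finset.sum_le_sum (fun e _ => ?_)
    by_cases h : ∃ v ∈ e, v ∈ K
    · obtain ⟨v, hv, hvK⟩ := h
      rw [ind_true ⟨v, hv, hvK⟩]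
      refine le_trans (le_of_eq (ind_true hv).symm) (Finset.single_le_sum
        (f := fun v => ind (v ∈ e)) (fun _ _ => ind_nonneg _) hvK)
    · rw [ind_false h]
      exact Finset.sum_nonneg (fun _ _ => ind_nonneg _)
  refine h1.trans ?_
  rw [Finset.sum_comm]
  calc ∑ v ∈ K, ∑ e ∈ edgesIn G F, ind (v ∈ e) ≤ ∑ v ∈ K, (d : ℝ) := by
        refine Finset.sum_le_sum (fun v _ => ?_)
        have e : ∑ e ∈ edgesIn G F, ind (v ∈ e) =
            (((edgesIn G F).filter (fun e => v ∈ e)).card : ℝ) := by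
          rw [← Finset.sum_boole]
          refine Finset.sum_congr rfl (fun e _ => ?_)
          by_cases h : v ∈ e
          · rw [ind_true h, if_pos h]
          · rw [ind_false h, if_neg h]
        rw [e]
        exact Nat.cast_le.2 (card_touch G hd F v)
    _ = (d : ℝ) * K.card := by
        rw [Finset.sum_const, nsmul_eq_mul, mul_comm]

theorem chPar (G : SimpleGraph V) [G.LocallyFinite] {d : ℕ} (hd : ∀ x, G.degree x ≤ d) :
    ChPar G := by
  classical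
  intro p₀ a b h0 h1 ha hb
  have hb1 : 0 < 1 - b := by linarith only [hb]
  have hq1 : 0 < 1 - p₀ := by linarith only [h1]
  set C₁ := 1 / a + 1 / p₀ + 1 / (1 - b) + 1 / (1 - p₀) with hC₁
  set C₂ := 1 / (a * (1 - b)) with hC₂
  have hC₁0 : 0 < C₁ := by rw [hC₁]; positivity
  have hC₂0 : 0 < C₂ := by rw [hC₂]; positivity
  have hd0 : (0 : ℝ) ≤ d := Nat.cast_nonneg _
  refine ⟨C₁ + C₂ * d, by positivity, ?_⟩
  intro p hap hpb F x φ hφ
  have hp : 0 < p := ha.trans_le hap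
  have hp1 : 0 < 1 - p := by linarith only [hpb, hb]
  obtain ⟨s1, s2⟩ := scal h0 h1 ha hb hap hpb
  rw [← hC₁] at s1
  rw [← hC₂] at s2
  set Λ := edgesIn G F with hΛ
  set l₁ := Real.log (p / p₀) with hl₁
  set l₂ := Real.log ((1 - p) / (1 - p₀)) with hl₂
  have e₁ : p₀ * Real.exp l₁ = p := by
    rw [hl₁, Real.exp_log (div_pos hp h0)]
    field_simp
  have e₂ : (1 - p₀) * Real.exp l₂ = 1 - p := by
    rw [hl₂, Real.exp_log (div_pos hp1 hq1)]
    field_simp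
  have hclB : ∀ S : Finset (Sym2 V), clB S {x} = cl S x := fun S => by
    unfold clB
    rw [Finset.singleton_biUnion]
  have key := chPar_aux e₁ e₂ (fun K => φ K.card) Λ.card Λ {x} le_rfl
  have k2 : Ex p Λ (fun S => φ (csz S x)) = Ex p Λ (fun S => φ (clB S {x}).card) := by
    refine Vale.Agent.P151.Ex_congr p (fun S _ => ?_)
    rw [hclB]
    rfl
  rw [k2, key]
  refine Vale.Agent.P151.Ex_mono h0.le h1.le (fun S hS => ?_)
  rw [hclB]
  refine mul_le_mul_of_nonneg_left (Real.exp_le_exp.2 ?_) (hφ _)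
  have hW : WB l₁ l₂ Λ {x} S = (l₁ - l₂) * Mx p₀ Λ x S +
      (p₀ * l₁ + (1 - p₀) * l₂) * ∑ e ∈ Λ, ind (∃ v ∈ e, v ∈ cl S x) := by
    unfold WB Mx
    rw [Finset.mul_sum, Finset.mul_sum, ← Finset.sum_add_distrib]
    refine Finset.sum_congr rfl (fun e _ => ?_)
    rw [hclB]
    ring
  rw [hW]
  have t1 := touch_le G hd F (cl S x)
  rw [← hΛ] at t1
  set τ := ∑ e ∈ Λ, ind (∃ v ∈ e, v ∈ cl S x) with hτ
  have hτ0 : 0 ≤ τ := Finset.sum_nonneg (fun _ _ => ind_nonneg _)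
  have hcz : ((cl S x).card : ℝ) = csz S x := rfl
  rw [hcz] at t1
  set M := Mx p₀ Λ x S with hM
  have a1 : -(C₁ * |p - p₀| * |M|) ≤ (l₁ - l₂) * M := by
    have h2 : |(l₁ - l₂) * M| ≤ C₁ * |p - p₀| * |M| := by
      rw [abs_mul]
      exact mul_le_mul_of_nonneg_right s1 (abs_nonneg _)
    exact (abs_le.1 h2).1
  have a2 : -(C₂ * (p - p₀) ^ 2 * (d * csz S x)) ≤ (p₀ * l₁ + (1 - p₀) * l₂) * τ := by
    have h2 := mul_le_mul_of_nonneg_right s2 hτ0
    have h3 : C₂ * (p - p₀) ^ 2 * τ ≤ C₂ * (p - p₀) ^ 2 * (d * csz S x) :=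
      mul_le_mul_of_nonneg_left t1 (mul_nonneg hC₂0.le (sq_nonneg _))
    linarith only [h2, h3]
  have a3 : 0 ≤ C₂ * d * |p - p₀| * |M| := by positivity
  have a4 : 0 ≤ C₁ * (p - p₀) ^ 2 * (csz S x : ℝ) := by positivity
  have e3 : -((C₁ + C₂ * d) * |p - p₀| * |M|) - (C₁ + C₂ * d) * (p - p₀) ^ 2 * (csz S x : ℝ) =
      -(C₁ * |p - p₀| * |M|) - C₂ * d * |p - p₀| * |M| - C₁ * (p - p₀) ^ 2 * (csz S x : ℝ) -
      C₂ * (p - p₀) ^ 2 * (d * csz S x) := by ring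
  rw [e3]
  linarith only [a1, a2, a3, a4]

end Vale.Agent.P165.H199
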