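import Vale.Agent.P165.H199.LowDefs

/-!
The second moment of `Mx` with ghosts: exploration by induction on the set of edges.
-/

open Finset

set_option linter.unusedSectionVars false

namespace Vale.Agent.P165.H199

open Vale.Agent.P151 (Ex Cn cl csz edgesIn EV con tau)
open Vale.Agent.P165 Vale.Agent.P165.LF

variable {V : Type} [DecidableEq V]

/-- The cluster of a finite set. -/
noncomputable def clB (S : Finset (Sym2 V)) (B : Finset V) : Finset V := B.biUnion (fun b => cl S b)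

lemma mem_clB {S : Finset (Sym2 V)} {B : Finset V} {v : V} :
    v ∈ clB S B ↔ ∃ b ∈ B, Cn S b v := by
  unfold clB
  rw [mem_biUnion]
  simp only [Vale.Agent.P151.mem_cl]

lemma subset_clB (S : Finset (Sym2 V)) (B : Finset V) : B ⊆ clB S B := fun b hb =>
  mem_clB.2 ⟨b, hb, Vale.Agent.P151.Cn.refl _ _⟩

lemma clB_insert {S : Finset (Sym2 V)} {B : Finset V} {a b : V} (ha : a ∈ B) :
    clB (insert s(a, b) S) B = clB S (insert b B) := by
  ext v
  rw [mem_clB, mem_clB]
  constructor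
  · rintro ⟨c, hc, hcv⟩
    have : v ∈ {v | ∃ c ∈ insert b B, Cn S c v} := by
      refine Vale.Agent.P151.Cn_closed (S := insert s(a, b) S) ?_
        ⟨c, mem_insert_of_mem hc, Vale.Agent.P151.Cn.refl _ _⟩ hcv
      rintro u ⟨c', hc', hcu⟩ w huw
      rcases mem_insert.1 huw with h | h
      · rcases Sym2.eq_iff.1 h with ⟨rfl, rfl⟩ | ⟨rfl, rfl⟩
        · exact ⟨w, mem_insert_self _ _, Vale.Agent.P151.Cn.refl _ _⟩
        · exact ⟨w, mem_insert_of_mem ha, Vale.Agent.P151.Cn.refl _ _⟩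
      · exact ⟨c', hc', hcu.trans (Vale.Agent.P151.Cn_of_mem h)⟩
    exact this
  · rintro ⟨c, hc, hcv⟩
    have hcv' : Cn (insert s(a, b) S) c v := hcv.mono (subset_insert _ _)
    rcases mem_insert.1 hc with rfl | h
    · exact ⟨a, ha, (Vale.Agent.P151.Cn_of_mem (mem_insert_self _ _)).trans hcv'⟩
    · exact ⟨c, h, hcv'⟩

/-- The centred number of open edges touching the cluster of `B`. -/
noncomputable def MB (p : ℝ) (Λ : Finset (Sym2 V)) (B : Finset V) (S : Finset (Sym2 V)) : ℝ :=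
  ∑ e ∈ Λ, ind (∃ v ∈ e, v ∈ clB S B) * (ind (e ∈ S) - p)

lemma MB_open (p : ℝ) {Λ S : Finset (Sym2 V)} {B : Finset V} {a b : V} (ha : a ∈ B)
    (he : s(a, b) ∉ Λ) :
    MB p (insert s(a, b) Λ) B (insert s(a, b) S) = (1 - p) + MB p Λ (insert b B) S := by
  unfold MB
  rw [Finset.sum_insert he, clB_insert ha]
  congr 1
  · rw [ind_true ⟨a, Sym2.mem_mk_left a b, subset_clB _ _ (mem_insert_of_mem ha)⟩,
      ind_true (mem_insert_self _ _), one_mul]
  · refine Finset.sum_congr rfl (fun f hf => ?_)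
    congr 2
    refine ind_congr ⟨fun h => ?_, fun h => mem_insert_of_mem h⟩
    rcases mem_insert.1 h with rfl | h
    · exact absurd hf he
    · exact h

lemma MB_closed (p : ℝ) {Λ S : Finset (Sym2 V)} {B : Finset V} {a b : V} (ha : a ∈ B)
    (he : s(a, b) ∉ Λ) (hS : S ⊆ Λ) :
    MB p (insert s(a, b) Λ) B S = -p + MB p Λ B S := by
  unfold MB
  rw [Finset.sum_insert he]
  congr 1
  rw [ind_true ⟨a, Sym2.mem_mk_left a b, subset_clB _ _ ha⟩, ind_false (fun h => he (hS h)),
    one_mul, zero_sub]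

lemma clB_of_noTouch {Λ S : Finset (Sym2 V)} {B : Finset V} (hS : S ⊆ Λ)
    (h : ¬ ∃ e ∈ Λ, ∃ v ∈ e, v ∈ B) : clB S B = B := by
  refine Finset.Subset.antisymm (fun v hv => ?_) (subset_clB _ _)
  rw [mem_clB] at hv
  obtain ⟨c, hc, hcv⟩ := hv
  refine mem_coe.1 (Vale.Agent.P151.Cn_closed (S := S) (A := (B : Set V)) ?_ (mem_coe.2 hc) hcv)
  intro u hu w huw
  exact absurd ⟨s(u, w), hS huw, u, Sym2.mem_mk_left u w, mem_coe.1 hu⟩ h

open Classical in
theorem secMom_aux {p t : ℝ} (h0 : 0 ≤ p) (h1 : p ≤ 1) (t0 : 0 ≤ t) (t1 : t ≤ 1) (d : ℕ) :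
    ∀ (n : ℕ) (Λ : Finset (Sym2 V)) (B : Finset V) (m : ℝ), Λ.card ≤ n →
    (∀ v, (Λ.filter (fun e => v ∈ e)).card ≤ d) →
    Ex p Λ (fun S => (m + MB p Λ B S) ^ 2 * t ^ (clB S B \ B).card) ≤
      m ^ 2 + p * (1 - p) * (Λ.filter (fun e => ∃ v ∈ e, v ∈ B)).card +
        p * (1 - p) * d * Ex p Λ (fun S => ∑ j ∈ range (clB S B \ B).card, t ^ (j + 1)) := by
  have hp : 0 ≤ 1 - p := sub_nonneg.2 h1
  have hσ : 0 ≤ p * (1 - p) := mul_nonneg h0 hp
  have hsum0 : ∀ k : ℕ, 0 ≤ ∑ j ∈ range k, t ^ (j + 1) := fun k =>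
    Finset.sum_nonneg (fun _ _ => pow_nonneg t0 _)
  intro n
  induction n with
  | zero =>
    intro Λ B m hn _
    have hΛ : Λ = ∅ := Finset.card_eq_zero.1 (Nat.le_zero.1 hn)
    subst hΛ
    rw [Vale.Agent.P151.Ex_empty, Vale.Agent.P151.Ex_empty]
    have e : MB p (∅ : Finset (Sym2 V)) B ∅ = 0 := by unfold MB; rw [Finset.sum_empty]
    have e2 : clB (∅ : Finset (Sym2 V)) B = B :=
      clB_of_noTouch (Λ := ∅) (Finset.Subset.refl _) (by rintro ⟨e, he, _⟩; exact notMem_empty _ he)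
    rw [e, e2, Finset.sdiff_self, Finset.card_empty, Finset.filter_empty, Finset.card_empty,
      Finset.range_zero, Finset.sum_empty]
    simp
  | succ n ih =>
    intro Λ B m hn hd
    by_cases h : ∃ e ∈ Λ, ∃ v ∈ e, v ∈ B
    swap
    · have e1 : Ex p Λ (fun S => (m + MB p Λ B S) ^ 2 * t ^ (clB S B \ B).card) = m ^ 2 := by
        rw [← Vale.Agent.P151.Ex_const p Λ (m ^ 2)]
        refine Vale.Agent.P151.Ex_congr p (fun S hS => ?_)
        have e2 := clB_of_noTouch hS h
        have e3 : MB p Λ B S = 0 := by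
          unfold MB
          refine Finset.sum_eq_zero (fun e he => ?_)
          rw [e2, ind_false (fun h' => h ⟨e, he, h'⟩), zero_mul]
        rw [e2, e3, Finset.sdiff_self, Finset.card_empty, pow_zero, mul_one, add_zero]
      rw [e1]
      have a1 : 0 ≤ p * (1 - p) * ((Λ.filter (fun e => ∃ v ∈ e, v ∈ B)).card : ℝ) :=
        mul_nonneg hσ (Nat.cast_nonneg _)
      have a2 : 0 ≤ p * (1 - p) * d * Ex p Λ (fun S => ∑ j ∈ range (clB S B \ B).card,
          t ^ (j + 1)) :=
        mul_nonneg (mul_nonneg hσ (Nat.cast_nonneg _))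
          (Vale.Agent.P151.Ex_nonneg h0 h1 (fun S _ => hsum0 _))
      linarith only [a1, a2]
    obtain ⟨e, he, a, hae, haB⟩ := h
    obtain ⟨b, rfl⟩ := Sym2.mem_iff_exists.1 hae
    set Λ' := Λ.erase s(a, b) with hΛ'
    have heΛ' : s(a, b) ∉ Λ' := notMem_erase _ _
    have hΛ : Λ = insert s(a, b) Λ' := (insert_erase he).symm
    have hcard : Λ'.card ≤ n := by
      have := Finset.card_erase_of_mem he
      rw [← hΛ'] at this
      omega
    have hd' : ∀ v, (Λ'.filter (fun e => v ∈ e)).card ≤ d := fun v =>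
      (card_le_card (filter_subset_filter _ (erase_subset _ _))).trans (hd v)
    -- the two conditional expectations
    have E1 : ∀ m' : ℝ, Ex p Λ' (fun S => (m + MB p Λ B (insert s(a, b) S)) ^ 2 *
        t ^ (clB (insert s(a, b) S) B \ B).card) =
        Ex p Λ' (fun S => ((m + (1 - p)) + MB p Λ' (insert b B) S) ^ 2 *
          t ^ (clB S (insert b B) \ B).card) := by
      intro _
      refine Vale.Agent.P151.Ex_congr p (fun S _ => ?_)
      rw [hΛ, MB_open p haB heΛ', clB_insert haB, add_assoc]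
    have E2 : Ex p Λ' (fun S => (m + MB p Λ B S) ^ 2 * t ^ (clB S B \ B).card) =
        Ex p Λ' (fun S => ((m - p) + MB p Λ' B S) ^ 2 * t ^ (clB S B \ B).card) := by
      refine Vale.Agent.P151.Ex_congr p (fun S hS => ?_)
      rw [hΛ, MB_closed p haB heΛ' hS]
      congr 2
      ring
    have hL : Ex p Λ (fun S => (m + MB p Λ B S) ^ 2 * t ^ (clB S B \ B).card) =
        p * Ex p Λ' (fun S => ((m + (1 - p)) + MB p Λ' (insert b B) S) ^ 2 *
          t ^ (clB S (insert b B) \ B).card) +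
        (1 - p) * Ex p Λ' (fun S => ((m - p) + MB p Λ' B S) ^ 2 *
          t ^ (clB S B \ B).card) := by
      rw [← E1 m, ← E2]
      conv_lhs => rw [hΛ]
      rw [Vale.Agent.P151.Ex_insert p heΛ']
      rw [← hΛ]
    have hR : Ex p Λ (fun S => ∑ j ∈ range (clB S B \ B).card, t ^ (j + 1)) =
        p * Ex p Λ' (fun S => ∑ j ∈ range (clB S (insert b B) \ B).card, t ^ (j + 1)) +
        (1 - p) * Ex p Λ' (fun S => ∑ j ∈ range (clB S B \ B).card, t ^ (j + 1)) := by
      conv_lhs => rw [hΛ]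
      rw [Vale.Agent.P151.Ex_insert p heΛ']
      congr 2
      refine Vale.Agent.P151.Ex_congr p (fun S _ => ?_)
      rw [clB_insert haB]
    have hdg : ((Λ.filter (fun e => ∃ v ∈ e, v ∈ B)).card : ℝ) =
        (Λ'.filter (fun e => ∃ v ∈ e, v ∈ B)).card + 1 := by
      conv_lhs => rw [hΛ]
      rw [Finset.filter_insert, if_pos ⟨a, Sym2.mem_mk_left a b, haB⟩,
        Finset.card_insert_of_notMem (fun h => heΛ' (mem_filter.1 h).1)]
      push_cast
      rfl
    rw [hL, hR, hdg]
    have ih2 := ih Λ' B (m - p) hcard hd'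
    set g0 : ℝ := ((Λ'.filter (fun e => ∃ v ∈ e, v ∈ B)).card : ℝ) with hg0
    have hg00 : 0 ≤ g0 := Nat.cast_nonneg _
    set X2 := Ex p Λ' (fun S => ∑ j ∈ range (clB S B \ B).card, t ^ (j + 1)) with hX2
    have i2 := mul_le_mul_of_nonneg_left ih2 hp
    by_cases hbB : b ∈ B
    · rw [Finset.insert_eq_of_mem hbB]
      have ih1 := ih Λ' B (m + (1 - p)) hcard hd'
      rw [← hg0, ← hX2] at ih1
      have i1 := mul_le_mul_of_nonneg_left ih1 h0
      have e : p * ((m + (1 - p)) ^ 2 + p * (1 - p) * g0 + p * (1 - p) * d * X2) +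
          (1 - p) * ((m - p) ^ 2 + p * (1 - p) * g0 + p * (1 - p) * d * X2) =
          m ^ 2 + p * (1 - p) * (g0 + 1) + p * (1 - p) * d * (p * X2 + (1 - p) * X2) := by ring
      linarith only [i1, i2, e]
    · have hcl : ∀ S : Finset (Sym2 V), (clB S (insert b B) \ B).card =
          (clB S (insert b B) \ insert b B).card + 1 := by
        intro S
        have : clB S (insert b B) \ B = insert b (clB S (insert b B) \ insert b B) := by
          ext v
          simp only [mem_sdiff, mem_insert]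
          constructor
          · rintro ⟨hv1, hv2⟩
            by_cases hvb : v = b
            · exact Or.inl hvb
            · exact Or.inr ⟨hv1, fun h => h.elim hvb hv2⟩
          · rintro (rfl | ⟨hv1, hv2⟩)
            · exact ⟨subset_clB _ _ (mem_insert_self _ _), hbB⟩
            · exact ⟨hv1, fun h => hv2 (Or.inr h)⟩
        rw [this, Finset.card_insert_of_notMem]
        intro h
        exact (mem_sdiff.1 h).2 (mem_insert_self _ _)
      have ih1 := ih Λ' (insert b B) (m + (1 - p)) hcard hd'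
      set g1 : ℝ := ((Λ'.filter (fun e => ∃ v ∈ e, v ∈ insert b B)).card : ℝ) with hg1
      set X1 := Ex p Λ' (fun S => ∑ j ∈ range (clB S (insert b B) \ insert b B).card,
        t ^ (j + 1)) with hX1
      have hX10 : 0 ≤ X1 := Vale.Agent.P151.Ex_nonneg h0 h1 (fun S _ => hsum0 _)
      have hg : g1 ≤ g0 + d := by
        have h2 : Λ'.filter (fun e => ∃ v ∈ e, v ∈ insert b B) ⊆
            Λ'.filter (fun e => ∃ v ∈ e, v ∈ B) ∪ Λ'.filter (fun e => b ∈ e) := by
          intro f hf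
          rw [mem_filter] at hf
          obtain ⟨hf1, v, hv, hvB⟩ := hf
          rw [mem_union, mem_filter, mem_filter]
          rcases mem_insert.1 hvB with rfl | h
          · exact Or.inr ⟨hf1, hv⟩
          · exact Or.inl ⟨hf1, v, hv, h⟩
        have h3 := (card_le_card h2).trans (card_union_le _ _)
        have h4 := h3.trans (Nat.add_le_add_left (hd' b) _)
        rw [hg1, hg0]
        exact_mod_cast h4
      have e1 : Ex p Λ' (fun S => ((m + (1 - p)) + MB p Λ' (insert b B) S) ^ 2 *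
          t ^ (clB S (insert b B) \ B).card) =
          t * Ex p Λ' (fun S => ((m + (1 - p)) + MB p Λ' (insert b B) S) ^ 2 *
          t ^ (clB S (insert b B) \ insert b B).card) := by
        rw [← Vale.Agent.P151.Ex_const_mul]
        refine Vale.Agent.P151.Ex_congr p (fun S _ => ?_)
        rw [hcl, pow_succ]
        ring
      have e2 : Ex p Λ' (fun S => ∑ j ∈ range (clB S (insert b B) \ B).card, t ^ (j + 1)) =
          t + t * X1 := by
        have e5 : Ex p Λ' (fun S => t + t * ∑ j ∈ range (clB S (insert b B) \ insert b B).card,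
            t ^ (j + 1)) = t + t * X1 := by
          rw [Vale.Agent.P151.Ex_add, Vale.Agent.P151.Ex_const, Vale.Agent.P151.Ex_const_mul]
        rw [← e5]
        refine Vale.Agent.P151.Ex_congr p (fun S _ => ?_)
        rw [hcl, Finset.sum_range_succ', Finset.mul_sum, add_comm]
        congr 1
        · rw [zero_add, pow_one]
        · exact Finset.sum_congr rfl (fun j _ => by ring)
      rw [e1, e2]
      have i1 := mul_le_mul_of_nonneg_left ih1 (mul_nonneg h0 t0)
      have k1 : p * t * (m + (1 - p)) ^ 2 ≤ p * (m + (1 - p)) ^ 2 :=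
        mul_le_mul_of_nonneg_right (mul_le_of_le_one_right h0 t1) (sq_nonneg _)
      have k2 : p * t * (p * (1 - p) * g1) ≤ p * t * (p * (1 - p) * (g0 + d)) :=
        mul_le_mul_of_nonneg_left (mul_le_mul_of_nonneg_left hg hσ) (mul_nonneg h0 t0)
      have k3 : p * t * (p * (1 - p) * g0) ≤ p * (p * (1 - p) * g0) :=
        mul_le_mul_of_nonneg_right (mul_le_of_le_one_right h0 t1) (mul_nonneg hσ hg00)
      have e3 : m ^ 2 + p * (1 - p) * (g0 + 1) +
          p * (1 - p) * d * (p * (t + t * X1) + (1 - p) * X2) =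
          (p * (m + (1 - p)) ^ 2 + p * (p * (1 - p) * g0) +
            p * t * (p * (1 - p) * (g0 + d)) - p * t * (p * (1 - p) * g0) +
            p * t * (p * (1 - p) * d * X1)) +
          (1 - p) * ((m - p) ^ 2 + p * (1 - p) * g0 + p * (1 - p) * d * X2) := by ring
      have e4 : p * t * ((m + (1 - p)) ^ 2 + p * (1 - p) * g1 + p * (1 - p) * d * X1) =
          p * t * (m + (1 - p)) ^ 2 + p * t * (p * (1 - p) * g1) +
            p * t * (p * (1 - p) * d * X1) := by ring
      rw [e3]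
      rw [e4, mul_assoc p t] at i1
      linarith only [i1, i2, k1, k2, k3]

open Classical in
lemma card_touch (G : SimpleGraph V) [G.LocallyFinite] {d : ℕ} (hd : ∀ x, G.degree x ≤ d)
    (F : Finset V) (v : V) : ((edgesIn G F).filter (fun e => v ∈ e)).card ≤ d := by
  have h : (edgesIn G F).filter (fun e => v ∈ e) ⊆ (G.neighborFinset v).image (fun w => s(v, w)) := by
    intro e he
    rw [mem_filter] at he
    obtain ⟨he1, he2⟩ := he
    obtain ⟨w, rfl⟩ := Sym2.mem_iff_exists.1 he2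
    rw [mem_image]
    exact ⟨w, (G.mem_neighborFinset v w).2 (Vale.Agent.P151.mk_mem_edgesIn.1 he1).1, rfl⟩
  refine (card_le_card h).trans (card_image_le.trans ?_)
  rw [G.card_neighborFinset_eq_degree]
  exact hd v

theorem secMom (G : SimpleGraph V) [G.LocallyFinite] {d : ℕ} (hd : ∀ x, G.degree x ≤ d) :
    SecMom G := by
  classical
  refine ⟨(d : ℝ) + 1, by positivity, ?_⟩
  intro p t h0 h1 t0 t1 F x
  set Λ := edgesIn G F with hΛ
  have key := secMom_aux h0 h1 t0.le t1.le d Λ.card Λ {x} 0 le_rfl (card_touch G hd F)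
  have hp : 0 ≤ 1 - p := sub_nonneg.2 h1
  have hσ : 0 ≤ p * (1 - p) := mul_nonneg h0 hp
  have hσ1 : p * (1 - p) ≤ 1 := mul_le_one₀ h1 hp (by linarith only [h0])
  have hclB : ∀ S : Finset (Sym2 V), clB S {x} = cl S x := fun S => by
    unfold clB
    rw [Finset.singleton_biUnion]
  have hN : ∀ S : Finset (Sym2 V), csz S x = (cl S x \ {x}).card + 1 := by
    intro S
    have hx : x ∈ cl S x := Vale.Agent.P151.mem_cl.2 (Vale.Agent.P151.Cn.refl _ _)
    have h2 : cl S x \ {x} = (cl S x).erase x := by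
      rw [Finset.sdiff_singleton_eq_erase]
    unfold csz
    rw [h2, Finset.card_erase_of_mem hx]
    have := Finset.card_pos.2 ⟨x, hx⟩
    omega
  have hMB : ∀ S, MB p Λ {x} S = Mx p Λ x S := fun S => by
    unfold MB Mx
    rw [hclB]
  have a1 : Ex p Λ (fun S => Mx p Λ x S ^ 2 * t ^ csz S x) ≤
      Ex p Λ (fun S => (0 + MB p Λ {x} S) ^ 2 * t ^ (clB S {x} \ {x}).card) := by
    refine Vale.Agent.P151.Ex_mono h0 h1 (fun S _ => ?_)
    rw [zero_add, hMB, hclB, hN]
    refine mul_le_mul_of_nonneg_left ?_ (sq_nonneg _)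
    exact pow_le_pow_of_le_one t0.le t1.le (Nat.le_succ _)
  have hfil : ((Λ.filter (fun e => ∃ v ∈ e, v ∈ ({x} : Finset V))).card : ℝ) ≤ d := by
    refine Nat.cast_le.2 (le_trans (card_le_card ?_) (card_touch G hd F x))
    intro e he
    rw [mem_filter] at he ⊢
    obtain ⟨h2, v, hv, hvx⟩ := he
    rw [mem_singleton] at hvx
    subst hvx
    exact ⟨h2, hv⟩
  have a2 : ∀ S : Finset (Sym2 V), 1 + ∑ j ∈ range (clB S {x} \ {x}).card, t ^ (j + 1) =
      (1 - t ^ csz S x) / (1 - t) := by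
    intro S
    have ht : (1 - t) ≠ 0 := (sub_pos.2 t1).ne'
    rw [hclB, hN, eq_div_iff ht, ← geom_sum_mul_neg, Finset.sum_range_succ' (fun i => t ^ i),
      pow_zero, add_comm]
  have a3 : Ex p Λ (fun S => 1 - t ^ csz S x) / (1 - t) =
      1 + Ex p Λ (fun S => ∑ j ∈ range (clB S {x} \ {x}).card, t ^ (j + 1)) := by
    rw [div_eq_mul_inv, ← Vale.Agent.P151.Ex_mul_const]
    conv_rhs => rw [← Vale.Agent.P151.Ex_const p Λ (1 : ℝ)]
    rw [← Vale.Agent.P151.Ex_add]
    refine Vale.Agent.P151.Ex_congr p (fun S _ => ?_)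
    rw [a2 S, div_eq_mul_inv]
  set X := Ex p Λ (fun S => ∑ j ∈ range (clB S {x} \ {x}).card, t ^ (j + 1)) with hX
  have hX0 : 0 ≤ X := Vale.Agent.P151.Ex_nonneg h0 h1 (fun S _ =>
    Finset.sum_nonneg (fun _ _ => pow_nonneg t0.le _))
  refine a1.trans (key.trans ?_)
  rw [a3]
  have hd0 : (0 : ℝ) ≤ d := Nat.cast_nonneg _
  have b1 : p * (1 - p) * ((Λ.filter (fun e => ∃ v ∈ e, v ∈ ({x} : Finset V))).card : ℝ) ≤ d :=
    (mul_le_mul hσ1 hfil (Nat.cast_nonneg _) zero_le_one).trans (le_of_eq (one_mul _))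
  have b2 : p * (1 - p) * d * X ≤ d * X := by
    refine mul_le_mul_of_nonneg_right ?_ hX0
    exact mul_le_of_le_one_left hd0 hσ1
  have e : ((d : ℝ) + 1) * (1 + X) = d + d * X + (1 + X) := by ring
  rw [e]
  linarith only [b1, b2, hX0]

end Vale.Agent.P165.H199
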