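import Vale.Agent.P165.H199.ArmAll2

/-!
Two-sided arm probabilities: assembly of `ArmLowAll`.
-/

open Finset

set_option linter.unusedSectionVars false

namespace Vale.Agent.P165.H199

open Vale.Agent.P151 (Ex Cn cl csz edgesIn EV con tau)
open Vale.Agent.P165 Vale.Agent.P165.LF

variable {V : Type} [DecidableEq V]

/-- The lower bound below `p_c`, for one `p`, `n`. -/
theorem armLow_below {G : SimpleGraph V} (hpc0 : 0 < pc G) (hpc1 : pc G < 1)
    {a C₀ c₁ : ℝ} {K : ℕ} (ha : 0 < a) (hc₁ : 0 < c₁) (hC₀ : 0 < C₀)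
    (hU : ∀ n : ℕ, 1 ≤ n → ∀ (x : V) (F : Finset V),
      Ex (pc G) (edgesIn G F) (fun S => ind (n ≤ csz S x)) ≤ C₀ / √(n : ℝ))
    (hL : ∀ q : ℝ, 0 ≤ q → q ≤ pc G → ∀ n : ℕ, 1 ≤ n → ∀ x : V,
      c₁ / n * (q / pc G) ^ (K * n) ≤
        EV G q (fun S => ind (∃ y, Cn S x y ∧ n ≤ G.dist x y)))
    {p : ℝ} (hap : a ≤ p) (hp : p ≤ pc G) (x : V) (n : ℕ) (hn : 1 ≤ n) :
    ∃ (L : ℕ) (F0 : Finset V), ∀ F : Finset V, F0 ⊆ F →
      c₁ / 4 / n * Real.exp (-(K / a * (pc G - p) * n)) ≤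
        Ex p (edgesIn G F) (fun S => ind ((∃ y, Cn S x y ∧ n ≤ G.dist x y) ∧ csz S x ≤ L)) := by
  have hn1 : (1 : ℝ) ≤ n := by exact_mod_cast hn
  have hn0 : (0 : ℝ) < n := by linarith only [hn1]
  have hp0 : 0 < p := ha.trans_le hap
  have hp1 : p ≤ 1 := hp.trans hpc1.le
  set X := c₁ / n * (p / pc G) ^ (K * n) with hXdef
  have hX : 0 < X := by positivity
  obtain ⟨F0, hF0⟩ := Vale.Agent.P151.exists_lt_Ex (lt_of_lt_of_le (half_lt_self hX)
    (hL p hp0.le hp n hn x))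
  obtain ⟨L, hLn⟩ := exists_nat_gt ((4 * C₀ / X) ^ 2)
  refine ⟨L, F0, fun F hF => ?_⟩
  have hF1 : X / 2 ≤ Ex p (edgesIn G F) (fun S => ind (∃ y, Cn S x y ∧ n ≤ G.dist x y)) :=
    hF0.le.trans (Vale.Agent.P151.Ex_edgesIn_mono hp0.le hp1 (arm_mono G x n) hF)
  have htail : Ex p (edgesIn G F) (fun S => ind (L + 1 ≤ csz S x)) ≤ X / 4 := by
    have h1 : Ex p (edgesIn G F) (fun S => ind (L + 1 ≤ csz S x)) ≤
        Ex (pc G) (edgesIn G F) (fun S => ind (L + 1 ≤ csz S x)) :=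
      Vale.Agent.P151.Ex_mono_p hp0.le hp hpc1.le _ (fun S T h =>
        ind_mono (fun h' => h'.trans (Vale.Agent.P151.csz_mono h x)))
    refine h1.trans ((hU (L + 1) (Nat.le_add_left 1 L) x F).trans ?_)
    have h2 : 4 * C₀ / X ≤ √((L + 1 : ℕ) : ℝ) := by
      refine Real.le_sqrt_of_sq_le ?_
      push_cast
      linarith only [hLn]
    have h3 : 0 < 4 * C₀ / X := by positivity
    calc C₀ / √((L + 1 : ℕ) : ℝ) ≤ C₀ / (4 * C₀ / X) :=
          div_le_div_of_nonneg_left hC₀.le h3 h2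
      _ = X / 4 := by field_simp
  have htr := arm_trunc G hp0.le hp1 (edgesIn G F) x n L
  have hpow : Real.exp (-(K / a * (pc G - p) * n)) ≤ (p / pc G) ^ (K * n) := by
    have h2 : 0 < p / pc G := div_pos hp0 hpc0
    have h3 : -((pc G - p) / a) ≤ Real.log (p / pc G) := by
      refine le_trans ?_ (log_ge h2)
      have e : 1 - (p / pc G)⁻¹ = -((pc G - p) / p) := by
        field_simp
        ring
      rw [e]
      exact neg_le_neg (div_le_div_of_nonneg_left (sub_nonneg.2 hp) ha hap)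
    rw [← Real.exp_log h2, ← Real.exp_nat_mul]
    refine Real.exp_le_exp.2 ?_
    push_cast
    have h5 := mul_le_mul_of_nonneg_left h3 (mul_nonneg (Nat.cast_nonneg K) hn0.le)
    have h6 : (K : ℝ) * n * -((pc G - p) / a) = -(K / a * (pc G - p) * n) := by ring
    linarith only [h5, h6]
  have hX2 : c₁ / 4 / n * Real.exp (-(K / a * (pc G - p) * n)) ≤ X / 4 := by
    have := mul_le_mul_of_nonneg_left hpow (by positivity : 0 ≤ c₁ / n)
    have e : c₁ / 4 / n * Real.exp (-(K / a * (pc G - p) * n)) =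
        c₁ / n * Real.exp (-(K / a * (pc G - p) * n)) / 4 := by ring
    rw [hXdef, e]
    linarith only [this]
  linarith only [hF1, htail, htr, hX2]

theorem armLowAll_of [Infinite V] {G : SimpleGraph V} [G.LocallyFinite] (hG : G.Connected)
    (hqt : IsQuasiTransitive G) (hna : 0 < vertexCheeger G)
    (hSub : ∃ c : ℝ, ∃ K : ℕ, 0 < c ∧ ∀ q : ℝ, 0 ≤ q → q ≤ pc G → ∀ n : ℕ, 1 ≤ n → ∀ x : V,
      c / n * (q / pc G) ^ (K * n) ≤
        EV G q (fun S => ind (∃ y, Cn S x y ∧ n ≤ G.dist x y)))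
    (hRad : RadUp G) : ArmLowAll G := by
  have hU := H177.tailUp hG hqt hna (ba1 hG hqt hna)
  obtain ⟨⟨hpc0, _, _⟩, _, _⟩ := H794.main hG hqt hna
  obtain ⟨d, _, hd⟩ := LF.exists_degree_bound (G := G) hqt
  obtain ⟨p₁, _, hp, hp1, _⟩ := ba1 hG hqt hna
  have hpc1 : pc G < 1 := hp.trans hp1
  obtain ⟨c₂, C₂, hc₂, hC₂, hS⟩ := H177.subTailUp hG hqt hna hU
  obtain ⟨C₀, hC₀, hU'⟩ := hU
  obtain ⟨c₁, K, hc₁, hL⟩ := hSub
  obtain ⟨C₃, hC₃, hR⟩ := hRad
  intro a b ha hb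
  have hb1 : 0 < 1 - b := by linarith only [hb]
  have hd0 : (0 : ℝ) ≤ d := Nat.cast_nonneg _
  have hK0 : (0 : ℝ) ≤ K := Nat.cast_nonneg _
  set Cq := 1 / (pc G / 4 * (1 - b)) with hCq
  have hCq0 : 0 < Cq := by rw [hCq]; positivity
  set η := min (pc G / 8) (1 / (4 * Cq * (d + 1))) with hη
  have hη0 : 0 < η := lt_min (by positivity) (by positivity)
  have hη1 : η ≤ pc G / 8 := min_le_left _ _
  have hη2 : 2 * Cq * d * η ≤ 1 / 2 := by
    have h1 : η ≤ 1 / (4 * Cq * (d + 1)) := min_le_right _ _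
    rw [le_div_iff₀ (by positivity)] at h1
    have h2 : 0 ≤ η * Cq := by positivity
    have e : η * (4 * Cq * (d + 1)) = 2 * (2 * Cq * d * η) + 4 * (η * Cq) := by ring
    linarith only [h1, h2, e]
  set θ := c₁ / 16 * Real.exp (-(2 * K)) / C₂ with hθ
  have hθ0 : 0 < θ := by positivity
  set s := C₃ * 16 / c₁ with hs
  have hs0 : 0 < s := by positivity
  set A := 2 + 2 / θ ^ 2 + 16 * (K + 1) / (c₂ * pc G ^ 2) + 2 * (K + s) / η with hA
  have t1 : 0 < 2 / θ ^ 2 := by positivity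
  have t2 : 0 < 16 * ((K : ℝ) + 1) / (c₂ * pc G ^ 2) := by positivity
  have t3 : 0 < 2 * (K + s) / η := by positivity
  have hA2 : 2 ≤ A := by linarith only [hA, t1, t2, t3]
  have hA0 : 0 < A := by linarith only [hA2]
  have hA3 : C₂ * √(2 / A) ≤ c₁ / 16 * Real.exp (-(2 * K)) := by
    have h1 : √(2 / A) ≤ θ := by
      rw [Real.sqrt_le_left hθ0.le, div_le_iff₀ hA0]
      have h2 : 2 / θ ^ 2 ≤ A := by linarith only [hA, t2, t3]
      rw [div_le_iff₀ (by positivity)] at h2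
      linarith only [h2]
    have h2 := mul_le_mul_of_nonneg_left h1 hC₂.le
    have e : C₂ * θ = c₁ / 16 * Real.exp (-(2 * K)) := by rw [hθ]; field_simp
    linarith only [h2, e]
  have hA4 : (K : ℝ) + 1 ≤ c₂ * pc G ^ 2 / 4 * A / 4 := by
    have h2 : 16 * ((K : ℝ) + 1) / (c₂ * pc G ^ 2) ≤ A := by linarith only [hA, t1, t3]
    rw [div_le_iff₀ (by positivity)] at h2
    linarith only [h2]
  have hA7 : K + s ≤ η * A / 2 := by
    have h2 : 2 * (K + s) / η ≤ A := by linarith only [hA, t1, t2]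
    rw [div_le_iff₀ hη0] at h2
    linarith only [h2]
  have hA6 : (K : ℝ) ≤ η * A / 2 := by linarith only [hA7, hs0]
  have hA5 : C₃ * Real.exp (-(η * A / 2 - K)) ≤ c₁ / 16 := by
    have h1 : s ≤ η * A / 2 - K := by linarith only [hA7]
    have h2 : Real.exp (-(η * A / 2 - K)) ≤ 1 / s := by
      calc Real.exp (-(η * A / 2 - K)) ≤ Real.exp (-s) := Real.exp_le_exp.2 (neg_le_neg h1)
        _ ≤ 1 / s := by
            rw [Real.exp_neg, ← one_div]
            refine one_div_le_one_div_of_le hs0 ?_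
            have := Real.add_one_le_exp s
            linarith only [this]
    have h3 := mul_le_mul_of_nonneg_left h2 hC₃.le
    have e : C₃ * (1 / s) = c₁ / 16 := by rw [hs]; field_simp
    linarith only [h3, e]
  set C₅ := 2 * (2 / (pc G / 4) + 2 / (1 - b)) * A + 8 * Cq * d * A + K with hC₅
  have hC₅0 : 0 ≤ C₅ := by rw [hC₅]; positivity
  have hKa : 0 ≤ (K : ℝ) / a := by positivity
  refine ⟨c₁ / 4 * Real.exp (-C₅), C₅ + K / a + 1, by positivity, by positivity, ?_⟩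
  intro p hap hpb x n hn
  have hn1 : (1 : ℝ) ≤ n := by exact_mod_cast hn
  have hn0 : (0 : ℝ) < n := by linarith only [hn1]
  rcases le_or_gt p (pc G) with h | h
  · obtain ⟨L, F0, hF⟩ := armLow_below hpc0 hpc1 ha hc₁ hC₀ hU' hL hap h x n hn
    refine ⟨L, F0, fun F hF' => le_trans ?_ (hF F hF')⟩
    have habs : |p - pc G| = pc G - p := by
      rw [abs_of_nonpos (sub_nonpos.2 h)]
      ring
    rw [habs]
    have h0 : 0 ≤ (pc G - p) * n := mul_nonneg (sub_nonneg.2 h) hn0.le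
    have h1 : Real.exp (-C₅) ≤ 1 := by
      rw [Real.exp_le_one_iff, neg_nonpos]
      exact hC₅0
    have h2 : Real.exp (-((C₅ + K / a + 1) * (pc G - p) * n)) ≤
        Real.exp (-(K / a * (pc G - p) * n)) := by
      refine Real.exp_le_exp.2 (neg_le_neg ?_)
      have h3 := mul_nonneg hC₅0 h0
      have e : (C₅ + K / a + 1) * (pc G - p) * n = C₅ * ((pc G - p) * n) +
        K / a * (pc G - p) * n + (pc G - p) * n := by ring
      linarith only [h3, e, h0]
    have h3 : c₁ / 4 * Real.exp (-C₅) / n ≤ c₁ / 4 / n := by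
      refine div_le_div_of_nonneg_right ?_ hn0.le
      exact mul_le_of_le_one_right (by positivity) h1
    exact mul_le_mul h3 h2 (Real.exp_nonneg _) (by positivity)
  · obtain ⟨L, F0, hF⟩ := armLow_above hd hpc0 hpc1 hb hc₁ hc₂ hC₂ hC₃ hS hL hR hη0 hη1 hη2 hA2
      hA3 hA4 hA5 hA6 h hpb x n hn
    refine ⟨L, F0, fun F hF' => le_trans ?_ (hF F hF')⟩
    have habs : |p - pc G| = p - pc G := abs_of_pos (sub_pos.2 h)
    rw [habs]
    have h0 : 0 ≤ (p - pc G) * n := mul_nonneg (sub_nonneg.2 h.le) hn0.le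
    have e1 : c₁ / 4 * Real.exp (-C₅) / n * Real.exp (-((C₅ + K / a + 1) * (p - pc G) * n)) =
        c₁ / 4 / n * Real.exp (-C₅ - (C₅ + K / a + 1) * (p - pc G) * n) := by
      have : Real.exp (-C₅ - (C₅ + K / a + 1) * (p - pc G) * n) = Real.exp (-C₅) *
          Real.exp (-((C₅ + K / a + 1) * (p - pc G) * n)) := by
        rw [← Real.exp_add]
        congr 1
      rw [this]
      ring
    rw [e1]
    refine mul_le_mul_of_nonneg_left (Real.exp_le_exp.2 ?_) (by positivity)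
    have h3 := mul_nonneg hKa h0
    have e2 : (C₅ + K / a + 1) * (p - pc G) * n = C₅ * ((p - pc G) * n) +
        K / a * ((p - pc G) * n) + (p - pc G) * n := by ring
    have e3 : C₅ * ((p - pc G) * n + 1) = C₅ * ((p - pc G) * n) + C₅ := by ring
    rw [e2, e3]
    linarith only [h3, h0]

end Vale.Agent.P165.H199
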