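import Vale.Agent.P165.H199.ChParPf
import Vale.Agent.P165.H199.FinMain
import Vale.Agent.P165.H177.LowAll

namespace Vale.Agent.P165.H199

variable {V : Type} [DecidableEq V]

/-- The sharp lower bound for the tail of finite clusters, `p` in a compact subset of `(0,1)`. -/
theorem tailLowAll [Infinite V] {G : SimpleGraph V} [G.LocallyFinite] (hG : G.Connected)
    (hqt : IsQuasiTransitive G) (hna : 0 < vertexCheeger G) : TailLowAll G := by
  have hU := H177.tailUp hG hqt hna (ba1 hG hqt hna)
  obtain ⟨⟨hpc0, _, _⟩, _, _⟩ := H794.main hG hqt hna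
  obtain ⟨Δ, _, hΔ⟩ := LF.exists_degree_bound (G := G) hqt
  obtain ⟨p₁, _, hp, hp1, _⟩ := ba1 hG hqt hna
  exact H177.tailLowAll_of (secMom G hΔ) (chPar G hΔ) hU (H177.tailLow hG hqt hna hU) hpc0
    (hp.trans hp1)

end Vale.Agent.P165.H199
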