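import Vale.Agent.P165.H199.ChParPf
import Vale.Agent.P165.H199.LowMain
import Vale.Agent.P165.H199.Arm
import Vale.Agent.P165.H177.SubTail

/-!
Two-sided arm probabilities: the lower bound on both sides of `p_c`.
-/

open Finset

set_option linter.unusedSectionVars false

namespace Vale.Agent.P165.H199

open Vale.Agent.P151 (Ex Cn cl csz edgesIn EV con tau)
open Vale.Agent.P165 Vale.Agent.P165.LF

variable {V : Type} [DecidableEq V]

/-- The arm lower bound for finite clusters, `p` in a compact subset of `(0,1)`. -/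
def ArmLowAll (G : SimpleGraph V) : Prop :=
  ∀ a b : ℝ, 0 < a → b < 1 → ∃ c C : ℝ, 0 < c ∧ 0 < C ∧ ∀ p : ℝ, a ≤ p → p ≤ b →
    ∀ (x : V) (n : ℕ), 1 ≤ n → ∃ (L : ℕ) (F0 : Finset V), ∀ F : Finset V, F0 ⊆ F →
      c / n * Real.exp (-(C * |p - pc G| * n)) ≤
        Ex p (edgesIn G F) (fun S => ind ((∃ y, Cn S x y ∧ n ≤ G.dist x y) ∧ csz S x ≤ L))

/-- The exact change of parameter. -/
theorem chPar_x {p p₀ : ℝ} (hp : 0 < p) (hp1 : p < 1) (h0 : 0 < p₀) (h1 : p₀ < 1)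
    (φ : Finset V → ℝ) (Λ : Finset (Sym2 V)) (x : V) :
    Ex p Λ (fun S => φ (cl S x)) = Ex p₀ Λ (fun S => φ (cl S x) *
      Real.exp ((Real.log (p / p₀) - Real.log ((1 - p) / (1 - p₀))) * Mx p₀ Λ x S +
        (p₀ * Real.log (p / p₀) + (1 - p₀) * Real.log ((1 - p) / (1 - p₀))) *
          ∑ e ∈ Λ, ind (∃ v ∈ e, v ∈ cl S x))) := by
  have hp1' : 0 < 1 - p := by linarith only [hp1]
  have hq1 : 0 < 1 - p₀ := by linarith only [h1]
  set l₁ := Real.log (p / p₀) with hl₁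
  set l₂ := Real.log ((1 - p) / (1 - p₀)) with hl₂
  have e₁ : p₀ * Real.exp l₁ = p := by
    rw [hl₁, Real.exp_log (div_pos hp h0)]
    field_simp
  have e₂ : (1 - p₀) * Real.exp l₂ = 1 - p := by
    rw [hl₂, Real.exp_log (div_pos hp1' hq1)]
    field_simp
  have hclB : ∀ S : Finset (Sym2 V), clB S {x} = cl S x := fun S => by
    unfold clB
    rw [Finset.singleton_biUnion]
  have key := chPar_aux e₁ e₂ φ Λ.card Λ {x} le_rfl
  simp only [hclB] at key
  rw [key]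
  refine Vale.Agent.P151.Ex_congr p₀ (fun S _ => ?_)
  congr 2
  unfold WB Mx
  rw [Finset.mul_sum, Finset.mul_sum, ← Finset.sum_add_distrib]
  refine Finset.sum_congr rfl (fun e _ => ?_)
  rw [hclB]
  ring

/-- Tilting down: very negative `Mx` is unlikely. -/
theorem tilt_down (G : SimpleGraph V) [G.LocallyFinite] {d : ℕ} (hd : ∀ x, G.degree x ≤ d)
    {q δ a b R : ℝ} {L : ℕ} (ha : 0 < a) (hb : b < 1) (haq : a ≤ q - δ) (hqb : q ≤ b)
    (hδ : 0 ≤ δ) (hR : 0 ≤ R) (F : Finset V) (x : V) (φ : Finset V → ℝ) (hφ : ∀ K, 0 ≤ φ K)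
    (hφL : ∀ K : Finset V, L < K.card → φ K = 0) :
    Ex q (edgesIn G F) (fun S => φ (cl S x) * ind (Mx q (edgesIn G F) x S < -R)) ≤
      Real.exp (-(δ * R) + (1 / (a * (1 - b))) * δ ^ 2 * (d * L)) *
        Ex (q - δ) (edgesIn G F) (fun S => φ (cl S x)) := by
  have hqa : a ≤ q := by linarith only [haq, hδ]
  have hq : 0 < q := ha.trans_le hqa
  have hq1 : q < 1 := hqb.trans_lt hb
  have hp : 0 < q - δ := ha.trans_le haq
  have hpb : q - δ ≤ b := by linarith only [hqb, hδ]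
  have hp1 : q - δ < 1 := hpb.trans_lt hb
  have hb1 : 0 < 1 - b := by linarith only [hb]
  obtain ⟨-, s2⟩ := scal hq hq1 ha hb haq hpb
  have hL1 : Real.log ((q - δ) / q) ≤ -δ := by
    refine (Real.log_le_sub_one_of_pos (div_pos hp hq)).trans ?_
    have e : (q - δ) / q - 1 = -(δ * (1 / q)) := by field_simp; ring
    rw [e]
    have h2 : 1 ≤ 1 / q := by rw [le_div_iff₀ hq]; linarith only [hq1]
    have h3 := mul_le_mul_of_nonneg_left h2 hδ
    linarith only [h3]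
  have hL2 : 0 ≤ Real.log ((1 - (q - δ)) / (1 - q)) := by
    refine Real.log_nonneg ?_
    rw [le_div_iff₀ (by linarith only [hq1])]
    linarith only [hδ]
  rw [chPar_x hp hp1 hq hq1 φ (edgesIn G F) x, ← Vale.Agent.P151.Ex_const_mul]
  refine Vale.Agent.P151.Ex_mono hq.le hq1.le (fun S _ => ?_)
  set l₁ := Real.log ((q - δ) / q)
  set l₂ := Real.log ((1 - (q - δ)) / (1 - q))
  set C₂ := 1 / (a * (1 - b)) with hC₂
  have hC₂0 : 0 < C₂ := by rw [hC₂]; positivity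
  set M := Mx q (edgesIn G F) x S
  by_cases hM : M < -R
  swap
  · rw [ind_false hM, mul_zero]
    exact mul_nonneg (Real.exp_nonneg _) (mul_nonneg (hφ _) (Real.exp_nonneg _))
  rw [ind_true hM, mul_one]
  by_cases hL : L < (cl S x).card
  · rw [hφL _ hL, zero_mul, mul_zero]
  rw [not_lt] at hL
  have t1 := touch_le G hd F (cl S x)
  set τ := ∑ e ∈ edgesIn G F, ind (∃ v ∈ e, v ∈ cl S x)
  have hτ0 : 0 ≤ τ := Finset.sum_nonneg (fun _ _ => ind_nonneg _)
  have hLr : ((cl S x).card : ℝ) ≤ L := Nat.cast_le.2 hL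
  have t2 : τ ≤ d * L := t1.trans (mul_le_mul_of_nonneg_left hLr (Nat.cast_nonneg _))
  have a1 : δ * R ≤ (l₁ - l₂) * M := by
    have h2 : δ ≤ -(l₁ - l₂) := by linarith only [hL1, hL2]
    have h3 : R ≤ -M := by linarith only [hM]
    have h4 := mul_le_mul h2 h3 hR (hδ.trans h2)
    have e : -(l₁ - l₂) * -M = (l₁ - l₂) * M := by ring
    linarith only [h4, e]
  have a2 : -(C₂ * δ ^ 2 * (d * L)) ≤ (q * l₁ + (1 - q) * l₂) * τ := by
    have e : (q - δ - q) ^ 2 = δ ^ 2 := by ring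
    rw [e] at s2
    have h2 := mul_le_mul_of_nonneg_right s2 hτ0
    have h3 : C₂ * δ ^ 2 * τ ≤ C₂ * δ ^ 2 * (d * L) :=
      mul_le_mul_of_nonneg_left t2 (mul_nonneg hC₂0.le (sq_nonneg _))
    linarith only [h2, h3]
  calc φ (cl S x) = φ (cl S x) * 1 := (mul_one _).symm
    _ ≤ φ (cl S x) * (Real.exp (-(δ * R) + C₂ * δ ^ 2 * (d * L)) *
        Real.exp ((l₁ - l₂) * M + (q * l₁ + (1 - q) * l₂) * τ)) := by
        refine mul_le_mul_of_nonneg_left ?_ (hφ _)
        rw [← Real.exp_add]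
        refine Real.one_le_exp ?_
        linarith only [a1, a2]
    _ = _ := by ring

/-- Tilting up: cost of increasing the parameter when `Mx` is not very negative. -/
theorem tilt_up (G : SimpleGraph V) [G.LocallyFinite] {d : ℕ} (hd : ∀ x, G.degree x ≤ d)
    {p q a b R : ℝ} {L : ℕ} (ha : 0 < a) (hb : b < 1) (haq : a ≤ q) (hqp : q ≤ p) (hpb : p ≤ b)
    (hR : 0 ≤ R) (F : Finset V) (x : V) (φ : Finset V → ℝ) (hφ : ∀ K, 0 ≤ φ K)
    (hφL : ∀ K : Finset V, L < K.card → φ K = 0) :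
    Real.exp (-((2 / a + 2 / (1 - b)) * (p - q) * R) -
        (1 / (a * (1 - b))) * (p - q) ^ 2 * (d * L)) *
      Ex q (edgesIn G F) (fun S => φ (cl S x) * ind (¬ Mx q (edgesIn G F) x S < -R)) ≤
        Ex p (edgesIn G F) (fun S => φ (cl S x)) := by
  have hq : 0 < q := ha.trans_le haq
  have hqb : q ≤ b := hqp.trans hpb
  have hq1 : q < 1 := hqb.trans_lt hb
  have hp : 0 < p := hq.trans_le hqp
  have hp1 : p < 1 := hpb.trans_lt hb
  have hb1 : 0 < 1 - b := by linarith only [hb]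
  have hq1' : 0 < 1 - q := by linarith only [hq1]
  obtain ⟨s1, s2⟩ := scal hq hq1 ha hb (haq.trans hqp) hpb
  have hpq : 0 ≤ p - q := sub_nonneg.2 hqp
  have hL1 : 0 ≤ Real.log (p / q) := by
    refine Real.log_nonneg ?_
    rw [le_div_iff₀ hq]
    linarith only [hqp]
  have hL2 : Real.log ((1 - p) / (1 - q)) ≤ 0 := by
    refine Real.log_nonpos (div_nonneg (by linarith only [hp1]) hq1'.le) ?_
    rw [div_le_one hq1']
    linarith only [hqp]
  have hCC : 1 / a + 1 / q + 1 / (1 - b) + 1 / (1 - q) ≤ 2 / a + 2 / (1 - b) := by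
    have g1 : 1 / q ≤ 1 / a := one_div_le_one_div_of_le ha haq
    have g2 : 1 / (1 - q) ≤ 1 / (1 - b) := one_div_le_one_div_of_le hb1 (by linarith only [hqb])
    have e1 : 2 / a = 1 / a + 1 / a := by ring
    have e2 : 2 / (1 - b) = 1 / (1 - b) + 1 / (1 - b) := by ring
    rw [e1, e2]
    linarith only [g1, g2]
  rw [abs_of_nonneg hpq] at s1
  rw [chPar_x hp hp1 hq hq1 φ (edgesIn G F) x, ← Vale.Agent.P151.Ex_const_mul]
  refine Vale.Agent.P151.Ex_mono hq.le hq1.le (fun S _ => ?_)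
  set l₁ := Real.log (p / q)
  set l₂ := Real.log ((1 - p) / (1 - q))
  set C₁ := 2 / a + 2 / (1 - b) with hC₁
  set C₂ := 1 / (a * (1 - b)) with hC₂
  have hC₂0 : 0 < C₂ := by rw [hC₂]; positivity
  set M := Mx q (edgesIn G F) x S
  by_cases hM : M < -R
  · rw [ind_false (not_not.2 hM), mul_zero, mul_zero]
    exact mul_nonneg (hφ _) (Real.exp_nonneg _)
  rw [ind_true hM, mul_one]
  by_cases hL : L < (cl S x).card
  · rw [hφL _ hL, zero_mul, mul_zero]
  rw [not_lt] at hL hM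
  have t1 := touch_le G hd F (cl S x)
  set τ := ∑ e ∈ edgesIn G F, ind (∃ v ∈ e, v ∈ cl S x)
  have hτ0 : 0 ≤ τ := Finset.sum_nonneg (fun _ _ => ind_nonneg _)
  have hLr : ((cl S x).card : ℝ) ≤ L := Nat.cast_le.2 hL
  have t2 : τ ≤ d * L := t1.trans (mul_le_mul_of_nonneg_left hLr (Nat.cast_nonneg _))
  have hl : l₁ - l₂ ≤ C₁ * (p - q) :=
    (le_abs_self _).trans (s1.trans (mul_le_mul_of_nonneg_right hCC hpq))
  have hl0 : 0 ≤ l₁ - l₂ := by linarith only [hL1, hL2]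
  have a1 : -(C₁ * (p - q) * R) ≤ (l₁ - l₂) * M := by
    have h2 : (l₁ - l₂) * (-R) ≤ (l₁ - l₂) * M := mul_le_mul_of_nonneg_left hM hl0
    have h3 : (l₁ - l₂) * R ≤ C₁ * (p - q) * R := mul_le_mul_of_nonneg_right hl hR
    linarith only [h2, h3]
  have a2 : -(C₂ * (p - q) ^ 2 * (d * L)) ≤ (q * l₁ + (1 - q) * l₂) * τ := by
    have h2 := mul_le_mul_of_nonneg_right s2 hτ0
    have h3 : C₂ * (p - q) ^ 2 * τ ≤ C₂ * (p - q) ^ 2 * (d * L) :=
      mul_le_mul_of_nonneg_left t2 (mul_nonneg hC₂0.le (sq_nonneg _))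
    linarith only [h2, h3]
  rw [mul_comm]
  refine mul_le_mul_of_nonneg_left (Real.exp_le_exp.2 ?_) (hφ _)
  linarith only [a1, a2]

end Vale.Agent.P165.H199
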