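import Vale.Agent.P165.H199.ArmAll

/-!
Two-sided arm probabilities: the proof of `ArmLowAll`.
-/

open Finset

set_option linter.unusedSectionVars false

namespace Vale.Agent.P165.H199

open Vale.Agent.P151 (Ex Cn cl csz edgesIn EV con tau)
open Vale.Agent.P165 Vale.Agent.P165.LF

lemma scal2 {A c₁ C₂ c' K y : ℝ} (hA : 0 < A) (hc₁ : 0 < c₁) (hC₂ : 0 < C₂) (hK : 0 ≤ K)
    (hy : 1 ≤ y) (h1 : C₂ * √(2 / A) ≤ c₁ / 16 * Real.exp (-(2 * K))) (h2 : K + 1 ≤ c' * A / 4) :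
    C₂ * √(y / A) * Real.exp (-(c' * A * ((y - 1) ^ 2 / y))) ≤ c₁ / 16 * Real.exp (-(K * y)) := by
  have hy0 : 0 < y := by linarith only [hy]
  have hc'A : 0 < c' * A := by linarith only [hK, h2]
  rcases le_total y 2 with h | h
  · have a1 : √(y / A) ≤ √(2 / A) := Real.sqrt_le_sqrt (div_le_div_of_nonneg_right h hA.le)
    have a2 : Real.exp (-(c' * A * ((y - 1) ^ 2 / y))) ≤ 1 := by
      rw [Real.exp_le_one_iff, neg_nonpos]
      positivity
    calc C₂ * √(y / A) * Real.exp (-(c' * A * ((y - 1) ^ 2 / y)))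
        ≤ C₂ * √(2 / A) * 1 :=
          mul_le_mul (mul_le_mul_of_nonneg_left a1 hC₂.le) a2 (Real.exp_nonneg _) (by positivity)
      _ ≤ c₁ / 16 * Real.exp (-(2 * K)) := by rw [mul_one]; exact h1
      _ ≤ c₁ / 16 * Real.exp (-(K * y)) := by
          refine mul_le_mul_of_nonneg_left (Real.exp_le_exp.2 (neg_le_neg ?_)) (by positivity)
          rw [mul_comm 2 K]
          exact mul_le_mul_of_nonneg_left h hK
  · have a1 : y / 4 ≤ (y - 1) ^ 2 / y := by
      rw [le_div_iff₀ hy0]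
      nlinarith only [h]
    have a2 : Real.exp (-(c' * A * ((y - 1) ^ 2 / y))) ≤ Real.exp (-(K * y)) * Real.exp (-y) := by
      rw [← Real.exp_add]
      refine Real.exp_le_exp.2 ?_
      have b1 := mul_le_mul_of_nonneg_left a1 hc'A.le
      have b2 := mul_le_mul_of_nonneg_right h2 hy0.le
      have e : c' * A * (y / 4) = c' * A / 4 * y := by ring
      linarith only [b1, b2, e]
    have a3 : √(y / A) = √(2 / A) * √(y / 2) := by
      rw [← Real.sqrt_mul (by positivity)]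
      congr 1
      field_simp
    have a4 : √(y / 2) * Real.exp (-y) ≤ 1 := by
      have b1 : √(y / 2) ≤ y := by
        rw [Real.sqrt_le_left hy0.le]
        nlinarith only [h]
      have b2 : y ≤ Real.exp y := by
        have := Real.add_one_le_exp y
        linarith only [this]
      calc √(y / 2) * Real.exp (-y) ≤ Real.exp y * Real.exp (-y) :=
            mul_le_mul_of_nonneg_right (b1.trans b2) (Real.exp_nonneg _)
        _ = 1 := by rw [← Real.exp_add, add_neg_cancel, Real.exp_zero]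
    have a5 : Real.exp (-(2 * K)) ≤ 1 := by
      rw [Real.exp_le_one_iff, neg_nonpos]
      positivity
    have a6 : C₂ * √(2 / A) ≤ c₁ / 16 := by
      refine h1.trans ?_
      exact mul_le_of_le_one_right (by positivity) a5
    calc C₂ * √(y / A) * Real.exp (-(c' * A * ((y - 1) ^ 2 / y)))
        ≤ C₂ * √(y / A) * (Real.exp (-(K * y)) * Real.exp (-y)) :=
          mul_le_mul_of_nonneg_left a2 (by positivity)
      _ = (C₂ * √(2 / A)) * (√(y / 2) * Real.exp (-y)) * Real.exp (-(K * y)) := by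
          rw [a3]
          ring
      _ ≤ c₁ / 16 * 1 * Real.exp (-(K * y)) := by
          refine mul_le_mul_of_nonneg_right ?_ (Real.exp_nonneg _)
          exact mul_le_mul a6 a4 (by positivity) (by positivity)
      _ = _ := by rw [mul_one]

variable {V : Type} [DecidableEq V]

lemma arm_imp_rad {G : SimpleGraph V} {F : Finset V} {S : Finset (Sym2 V)}
    (hS : S ⊆ edgesIn G F) {x : V} {n : ℕ} (h : ∃ y, Cn S x y ∧ n ≤ G.dist x y) : Rad S x n := by
  obtain ⟨y, hy, hn⟩ := h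
  refine ⟨y, hy, fun w => ?_⟩
  have hle : Vale.Agent.P151.gr S ≤ G := by
    intro a b hab
    have h1 := hS (Vale.Agent.P151.gr_adj.1 hab).1
    rw [Vale.Agent.P151.mk_mem_edgesIn] at h1
    exact h1.1
  have h2 := SimpleGraph.dist_le (w.mapLe hle)
  rw [SimpleGraph.Walk.length_map] at h2
  exact hn.trans h2

lemma arm_mono (G : SimpleGraph V) (x : V) (n : ℕ) :
    Monotone (fun S : Finset (Sym2 V) => ind (∃ y, Cn S x y ∧ n ≤ G.dist x y)) := by
  intro S T h
  refine ind_mono ?_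
  rintro ⟨y, hy, hn⟩
  exact ⟨y, hy.mono h, hn⟩

lemma arm_trunc (G : SimpleGraph V) {q : ℝ} (h0 : 0 ≤ q) (h1 : q ≤ 1) (Λ : Finset (Sym2 V))
    (x : V) (n L : ℕ) :
    Ex q Λ (fun S => ind (∃ y, Cn S x y ∧ n ≤ G.dist x y)) -
      Ex q Λ (fun S => ind (L + 1 ≤ csz S x)) ≤
    Ex q Λ (fun S => ind ((∃ y, Cn S x y ∧ n ≤ G.dist x y) ∧ csz S x ≤ L)) := by
  rw [← Vale.Agent.P151.Ex_sub]
  refine Vale.Agent.P151.Ex_mono h0 h1 (fun S _ => ?_)
  by_cases h : csz S x ≤ L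
  · have e : ind ((∃ y, Cn S x y ∧ n ≤ G.dist x y) ∧ csz S x ≤ L) =
        ind (∃ y, Cn S x y ∧ n ≤ G.dist x y) := ind_congr ⟨fun h' => h'.1, fun h' => ⟨h', h⟩⟩
    rw [e]
    have := ind_nonneg (L + 1 ≤ csz S x)
    linarith only [this]
  · rw [ind_true (show L + 1 ≤ csz S x by omega)]
    have a1 := ind_le_one (∃ y, Cn S x y ∧ n ≤ G.dist x y)
    have a2 := ind_nonneg ((∃ y, Cn S x y ∧ n ≤ G.dist x y) ∧ csz S x ≤ L)
    linarith only [a1, a2]

/-- The lower bound above `p_c`, for one `p`, `n`. -/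
theorem armLow_above {G : SimpleGraph V} [G.LocallyFinite] {d : ℕ} (hd : ∀ x, G.degree x ≤ d)
    (hpc0 : 0 < pc G) (hpc1 : pc G < 1) {b c₁ c₂ C₂ C₃ A η : ℝ} {K : ℕ} (hb : b < 1)
    (hc₁ : 0 < c₁) (hc₂ : 0 < c₂) (hC₂ : 0 < C₂) (hC₃ : 0 < C₃)
    (hS : ∀ q : ℝ, 0 ≤ q → q < pc G → ∀ n : ℕ, 1 ≤ n →
      ∀ (x : V) (F : Finset V), Ex q (edgesIn G F) (fun S => ind (n ≤ csz S x)) ≤
        C₂ / √(n : ℝ) * Real.exp (-(c₂ * (pc G - q) ^ 2 * n)))
    (hL : ∀ q : ℝ, 0 ≤ q → q ≤ pc G → ∀ n : ℕ, 1 ≤ n → ∀ x : V,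
      c₁ / n * (q / pc G) ^ (K * n) ≤
        EV G q (fun S => ind (∃ y, Cn S x y ∧ n ≤ G.dist x y)))
    (hR : ∀ n : ℕ, 1 ≤ n → ∀ (x : V) (F : Finset V) (Λ : Finset (Sym2 V)),
      Λ ⊆ edgesIn G F → Ex (pc G) Λ (fun S => ind (Rad S x n)) ≤ C₃ / n)
    (hη0 : 0 < η) (hη1 : η ≤ pc G / 8) (hη2 : 2 * (1 / (pc G / 4 * (1 - b))) * d * η ≤ 1 / 2)
    (hA2 : 2 ≤ A) (hA3 : C₂ * √(2 / A) ≤ c₁ / 16 * Real.exp (-(2 * K)))
    (hA4 : (K : ℝ) + 1 ≤ c₂ * pc G ^ 2 / 4 * A / 4)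
    (hA5 : C₃ * Real.exp (-(η * A / 2 - K)) ≤ c₁ / 16) (hA6 : (K : ℝ) ≤ η * A / 2)
    {p : ℝ} (hp : pc G < p) (hpb : p ≤ b) (x : V) (n : ℕ) (hn : 1 ≤ n) :
    ∃ (L : ℕ) (F0 : Finset V), ∀ F : Finset V, F0 ⊆ F →
      c₁ / 4 / n * Real.exp (-((2 * (2 / (pc G / 4) + 2 / (1 - b)) * A +
        8 * (1 / (pc G / 4 * (1 - b))) * d * A + K) * ((p - pc G) * n + 1))) ≤
        Ex p (edgesIn G F) (fun S => ind ((∃ y, Cn S x y ∧ n ≤ G.dist x y) ∧ csz S x ≤ L)) := by
  have hn1 : (1 : ℝ) ≤ n := by exact_mod_cast hn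
  have hn0 : (0 : ℝ) < n := by linarith only [hn1]
  set e := p - pc G with he
  have he0 : 0 < e := sub_pos.2 hp
  have he1 : e ≤ 1 := by linarith only [he, hpb, hb, hpc0]
  set q := pc G * (1 - e / 2) with hq
  set y := e * n + 1 with hy
  have hen : 0 < e * n := mul_pos he0 hn0
  have hy1 : 1 ≤ y := by linarith only [hy, hen]
  have hy0 : 0 < y := by linarith only [hy1]
  have hyn : y ≤ 2 * n := by
    have : e * n ≤ 1 * n := mul_le_mul_of_nonneg_right he1 hn0.le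
    linarith only [this, hy, hn1]
  have hA0 : 0 < A := by linarith only [hA2]
  have hq2 : pc G / 2 ≤ q := by
    rw [hq]
    nlinarith only [hpc0, he1]
  have hqpc : q < pc G := by
    rw [hq]
    nlinarith only [hpc0, he0]
  have hq0 : 0 ≤ q := by linarith only [hq2, hpc0]
  have hq1 : q ≤ 1 := by linarith only [hqpc, hpc1]
  set δ := η * y / n with hδ
  have hδ0 : 0 < δ := by positivity
  have hδ1 : δ ≤ pc G / 4 := by
    rw [hδ, div_le_iff₀ hn0]
    have h1 : η * y ≤ η * (2 * n) := mul_le_mul_of_nonneg_left hyn hη0.le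
    have h2 : η * (2 * n) ≤ pc G / 8 * (2 * n) :=
      mul_le_mul_of_nonneg_right hη1 (by positivity)
    linarith only [h1, h2]
  set L : ℕ := ⌈A * n ^ 2 / y⌉₊ with hLdef
  have hLlow : A * n ^ 2 / y ≤ L := Nat.le_ceil _
  have hbase : 1 ≤ A * n ^ 2 / y := by
    rw [le_div_iff₀ hy0, one_mul]
    have h1 : (2 : ℝ) * n ^ 2 ≤ A * n ^ 2 := mul_le_mul_of_nonneg_right hA2 (by positivity)
    have h2 : (n : ℝ) ≤ n ^ 2 := by
      rw [sq]
      exact le_mul_of_one_le_left hn0.le hn1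
    linarith only [h1, h2, hyn]
  have hLup : (L : ℝ) ≤ 2 * (A * n ^ 2 / y) := by
    have := (Nat.ceil_lt_add_one (by positivity : 0 ≤ A * (n : ℝ) ^ 2 / y)).le
    rw [← hLdef] at this
    linarith only [this, hbase]
  -- finite volume
  have hX : 0 < c₁ / n * (q / pc G) ^ (K * n) := by
    have : 0 < q := by linarith only [hq2, hpc0]
    positivity
  obtain ⟨F0, hF0⟩ := Vale.Agent.P151.exists_lt_Ex (lt_of_lt_of_le (half_lt_self hX)
    (hL q hq0 hqpc.le n hn x))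
  refine ⟨L, F0, fun F hF => ?_⟩
  have hF1 : c₁ / n * (q / pc G) ^ (K * n) / 2 ≤
      Ex q (edgesIn G F) (fun S => ind (∃ y, Cn S x y ∧ n ≤ G.dist x y)) :=
    hF0.le.trans (Vale.Agent.P151.Ex_edgesIn_mono hq0 hq1 (arm_mono G x n) hF)
  -- (1)
  have hpow : Real.exp (-(K * y)) ≤ (q / pc G) ^ (K * n) := by
    have h1 : q / pc G = 1 - e / 2 := by
      rw [hq]
      field_simp
    have h2 : 0 < 1 - e / 2 := by linarith only [he1]
    have h3 : -e ≤ Real.log (1 - e / 2) := by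
      refine le_trans ?_ (log_ge h2)
      have h4 : (1 - e / 2)⁻¹ ≤ 1 + e := by
        rw [inv_le_iff_one_le_mul₀ h2]
        nlinarith only [he0, he1]
      linarith only [h4]
    rw [h1, ← Real.exp_log h2, ← Real.exp_nat_mul]
    refine Real.exp_le_exp.2 ?_
    push_cast
    have hK0 : (0 : ℝ) ≤ K := Nat.cast_nonneg _
    have h5 := mul_le_mul_of_nonneg_left h3 (mul_nonneg hK0 hn0.le)
    have h6 : (K : ℝ) * n * -e = -(K * (e * n)) := by ring
    have h7 : (K : ℝ) * y = K * (e * n) + K := by rw [hy]; ring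
    linarith only [h5, h6, h7, hK0]
  have hone : c₁ / n / 2 * Real.exp (-(K * y)) ≤
      Ex q (edgesIn G F) (fun S => ind (∃ y, Cn S x y ∧ n ≤ G.dist x y)) := by
    refine le_trans ?_ hF1
    have := mul_le_mul_of_nonneg_left hpow (by positivity : 0 ≤ c₁ / n)
    linarith only [this]
  -- (2)
  have htwo : Ex q (edgesIn G F) (fun S => ind (L + 1 ≤ csz S x)) ≤
      c₁ / 16 / n * Real.exp (-(K * y)) := by
    refine (hS q hq0 hqpc (L + 1) (Nat.le_add_left 1 L) x F).trans ?_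
    have hL1 : A * n ^ 2 / y ≤ ((L + 1 : ℕ) : ℝ) := by
      push_cast
      linarith only [hLlow]
    have hsq : C₂ / √((L + 1 : ℕ) : ℝ) ≤ C₂ * √(y / A) / n := by
      have h1 : √(A * n ^ 2 / y) ≤ √((L + 1 : ℕ) : ℝ) := Real.sqrt_le_sqrt hL1
      have h2 : 0 < √(A * n ^ 2 / y) := Real.sqrt_pos.2 (by positivity)
      have h3 : √(A * (n : ℝ) ^ 2 / y) * √(y / A) = n := by
        rw [← Real.sqrt_mul (by positivity)]
        have : A * (n : ℝ) ^ 2 / y * (y / A) = n ^ 2 := by field_simp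
        rw [this, Real.sqrt_sq hn0.le]
      calc C₂ / √((L + 1 : ℕ) : ℝ) ≤ C₂ / √(A * n ^ 2 / y) :=
            div_le_div_of_nonneg_left hC₂.le h2 h1
        _ = C₂ * √(y / A) / n := by
            rw [div_eq_div_iff h2.ne' hn0.ne', mul_assoc, mul_comm √(y / A), h3]
    have hexp : Real.exp (-(c₂ * (pc G - q) ^ 2 * ((L + 1 : ℕ) : ℝ))) ≤
        Real.exp (-(c₂ * pc G ^ 2 / 4 * A * ((y - 1) ^ 2 / y))) := by
      refine Real.exp_le_exp.2 (neg_le_neg ?_)
      have h1 : c₂ * (pc G - q) ^ 2 = c₂ * pc G ^ 2 / 4 * e ^ 2 := by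
        rw [hq]
        ring
      have h2 : c₂ * pc G ^ 2 / 4 * A * ((y - 1) ^ 2 / y) =
          c₂ * pc G ^ 2 / 4 * e ^ 2 * (A * n ^ 2 / y) := by
        rw [hy]
        ring
      rw [h1, h2]
      exact mul_le_mul_of_nonneg_left hL1 (by positivity)
    have key := scal2 (c' := c₂ * pc G ^ 2 / 4) hA0 hc₁ hC₂ (Nat.cast_nonneg K) hy1 hA3 hA4
    calc C₂ / √((L + 1 : ℕ) : ℝ) * Real.exp (-(c₂ * (pc G - q) ^ 2 * ((L + 1 : ℕ) : ℝ)))
        ≤ C₂ * √(y / A) / n * Real.exp (-(c₂ * pc G ^ 2 / 4 * A * ((y - 1) ^ 2 / y))) :=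
          mul_le_mul hsq hexp (Real.exp_nonneg _) (by positivity)
      _ = (C₂ * √(y / A) * Real.exp (-(c₂ * pc G ^ 2 / 4 * A * ((y - 1) ^ 2 / y)))) / n := by
          ring
      _ ≤ (c₁ / 16 * Real.exp (-(K * y))) / n := div_le_div_of_nonneg_right key hn0.le
      _ = _ := by ring
  -- the function of the cluster
  set φ : Finset V → ℝ := fun Q => ind ((∃ z ∈ Q, n ≤ G.dist x z) ∧ Q.card ≤ L) with hφ
  have hφ0 : ∀ Q, 0 ≤ φ Q := fun _ => ind_nonneg _
  have hφL : ∀ Q : Finset V, L < Q.card → φ Q = 0 := fun Q hQ =>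
    ind_false (fun h => absurd h.2 (not_le.2 hQ))
  have hφcl : ∀ S : Finset (Sym2 V), φ (cl S x) =
      ind ((∃ y, Cn S x y ∧ n ≤ G.dist x y) ∧ csz S x ≤ L) := by
    intro S
    refine ind_congr ?_
    constructor
    · rintro ⟨⟨z, hz, hnz⟩, hc⟩
      exact ⟨⟨z, Vale.Agent.P151.mem_cl.1 hz, hnz⟩, hc⟩
    · rintro ⟨⟨z, hz, hnz⟩, hc⟩
      exact ⟨⟨z, Vale.Agent.P151.mem_cl.2 hz, hnz⟩, hc⟩
  have haq : pc G / 4 ≤ q - δ := by linarith only [hq2, hδ1]
  have hqb : q ≤ b := by linarith only [hqpc, hp, hpb]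
  set R := A * n with hRdef
  have hR0 : 0 ≤ R := by positivity
  set Cq := 1 / (pc G / 4 * (1 - b)) with hCq
  have hb1 : 0 < 1 - b := by linarith only [hb]
  have hCq0 : 0 < Cq := by rw [hCq]; positivity
  -- (3)
  have hthree : Ex q (edgesIn G F) (fun S => φ (cl S x) *
      ind (Mx q (edgesIn G F) x S < -R)) ≤ c₁ / 16 / n * Real.exp (-(K * y)) := by
    refine (tilt_down G hd (by positivity : 0 < pc G / 4) hb haq hqb hδ0.le hR0 F x φ hφ0
      hφL).trans ?_
    have h1 : Ex (q - δ) (edgesIn G F) (fun S => φ (cl S x)) ≤ C₃ / n := by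
      have hqd0 : 0 ≤ q - δ := by linarith only [haq, hpc0]
      have hqd1 : q - δ ≤ 1 := by linarith only [hq1, hδ0]
      calc Ex (q - δ) (edgesIn G F) (fun S => φ (cl S x))
          ≤ Ex (q - δ) (edgesIn G F) (fun S => ind (∃ y, Cn S x y ∧ n ≤ G.dist x y)) := by
            refine Vale.Agent.P151.Ex_mono hqd0 hqd1 (fun S _ => ?_)
            rw [hφcl]
            exact ind_mono (fun h => h.1)
        _ ≤ Ex (pc G) (edgesIn G F) (fun S => ind (∃ y, Cn S x y ∧ n ≤ G.dist x y)) :=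
            Vale.Agent.P151.Ex_mono_p hqd0 (by linarith only [hqpc, hδ0]) hpc1.le _
              (arm_mono G x n)
        _ ≤ Ex (pc G) (edgesIn G F) (fun S => ind (Rad S x n)) :=
            Vale.Agent.P151.Ex_mono hpc0.le hpc1.le (fun S hS' => ind_mono (arm_imp_rad hS'))
        _ ≤ C₃ / n := hR n hn x F _ (Finset.Subset.refl _)
    have h2 : -(δ * R) + Cq * δ ^ 2 * (d * L) ≤ -(η * A / 2 * y) := by
      have e1 : δ * R = η * A * y := by
        rw [hδ, hRdef]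
        field_simp
      have e2 : Cq * δ ^ 2 * (d * L) ≤ Cq * δ ^ 2 * (d * (2 * (A * n ^ 2 / y))) := by
        refine mul_le_mul_of_nonneg_left (mul_le_mul_of_nonneg_left hLup (Nat.cast_nonneg _)) ?_
        positivity
      have e3 : Cq * δ ^ 2 * (d * (2 * (A * n ^ 2 / y))) = (2 * Cq * d * η) * (η * A * y) := by
        rw [hδ]
        field_simp
      have e4 : (2 * Cq * d * η) * (η * A * y) ≤ 1 / 2 * (η * A * y) :=
        mul_le_mul_of_nonneg_right hη2 (by positivity)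
      rw [e1]
      linarith only [e2, e3, e4]
    calc Real.exp (-(δ * R) + 1 / (pc G / 4 * (1 - b)) * δ ^ 2 * (d * L)) *
          Ex (q - δ) (edgesIn G F) (fun S => φ (cl S x))
        ≤ Real.exp (-(η * A / 2 * y)) * (C₃ / n) :=
          mul_le_mul (Real.exp_le_exp.2 h2) h1
            (Vale.Agent.P151.Ex_nonneg (by linarith only [haq, hpc0])
              (by linarith only [hq1, hδ0]) (fun _ _ => hφ0 _)) (Real.exp_nonneg _)
      _ ≤ (Real.exp (-(K * y)) * Real.exp (-(η * A / 2 - K))) * (C₃ / n) := by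
          refine mul_le_mul_of_nonneg_right ?_ (by positivity)
          rw [← Real.exp_add]
          refine Real.exp_le_exp.2 ?_
          have h3 : (η * A / 2 - K) * 1 ≤ (η * A / 2 - K) * y :=
            mul_le_mul_of_nonneg_left hy1 (sub_nonneg.2 hA6)
          linarith only [h3]
      _ = (C₃ * Real.exp (-(η * A / 2 - K))) / n * Real.exp (-(K * y)) := by ring
      _ ≤ (c₁ / 16) / n * Real.exp (-(K * y)) :=
          mul_le_mul_of_nonneg_right (div_le_div_of_nonneg_right hA5 hn0.le) (Real.exp_nonneg _)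
  -- conclusion at `q`
  have hsplit : Ex q (edgesIn G F) (fun S => φ (cl S x)) =
      Ex q (edgesIn G F) (fun S => φ (cl S x) * ind (Mx q (edgesIn G F) x S < -R)) +
      Ex q (edgesIn G F) (fun S => φ (cl S x) * ind (¬ Mx q (edgesIn G F) x S < -R)) := by
    rw [← Vale.Agent.P151.Ex_add]
    refine Vale.Agent.P151.Ex_congr q (fun S _ => ?_)
    rw [ind_not']
    ring
  have htr := arm_trunc G hq0 hq1 (edgesIn G F) x n L
  have hφE : Ex q (edgesIn G F) (fun S => φ (cl S x)) =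
      Ex q (edgesIn G F) (fun S => ind ((∃ y, Cn S x y ∧ n ≤ G.dist x y) ∧ csz S x ≤ L)) :=
    Vale.Agent.P151.Ex_congr q (fun S _ => hφcl S)
  rw [← hφE] at htr
  have hgood : c₁ / 4 / n * Real.exp (-(K * y)) ≤
      Ex q (edgesIn G F) (fun S => φ (cl S x) * ind (¬ Mx q (edgesIn G F) x S < -R)) := by
    have e1 : c₁ / n / 2 * Real.exp (-(K * y)) - c₁ / 16 / n * Real.exp (-(K * y)) -
        c₁ / 16 / n * Real.exp (-(K * y)) = c₁ / 4 / n * Real.exp (-(K * y)) +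
        c₁ / 8 / n * Real.exp (-(K * y)) := by ring
    have e2 : 0 ≤ c₁ / 8 / n * Real.exp (-(K * y)) := by positivity
    linarith only [hone, htwo, hthree, hsplit, htr, e1, e2]
  -- tilt up
  have hup := tilt_up G hd (by positivity : 0 < pc G / 4) hb
    (by linarith only [haq, hδ0] : pc G / 4 ≤ q) (by linarith only [hqpc, hp] : q ≤ p) hpb hR0 F x φ
    hφ0 hφL
  have hφE' : Ex p (edgesIn G F) (fun S => φ (cl S x)) =
      Ex p (edgesIn G F) (fun S => ind ((∃ y, Cn S x y ∧ n ≤ G.dist x y) ∧ csz S x ≤ L)) :=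
    Vale.Agent.P151.Ex_congr p (fun S _ => hφcl S)
  rw [← hφE']
  refine le_trans ?_ hup
  set C₁ := 2 / (pc G / 4) + 2 / (1 - b) with hC₁
  have hC₁0 : 0 < C₁ := by rw [hC₁]; positivity
  have hpq0 : 0 ≤ p - q := by linarith only [hqpc, hp]
  have hpq : p - q ≤ 2 * (y / n) := by
    have h1 : p - q = e + pc G * e / 2 := by rw [hq, he]; ring
    have h2 : pc G * e / 2 ≤ e := by nlinarith only [hpc1, he0]
    have h3 : e ≤ y / n := by
      rw [le_div_iff₀ hn0]
      linarith only [hy]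
    linarith only [h1, h2, h3]
  have b1 : C₁ * (p - q) * R ≤ 2 * C₁ * A * y := by
    have h1 : C₁ * (p - q) * R ≤ C₁ * (2 * (y / n)) * R :=
      mul_le_mul_of_nonneg_right (mul_le_mul_of_nonneg_left hpq hC₁0.le) hR0
    have h2 : C₁ * (2 * (y / n)) * R = 2 * C₁ * A * y := by
      rw [hRdef]
      field_simp
    linarith only [h1, h2]
  have b2 : Cq * (p - q) ^ 2 * (d * L) ≤ 8 * Cq * d * A * y := by
    have h1 : (p - q) ^ 2 ≤ (2 * (y / n)) ^ 2 := pow_le_pow_left₀ hpq0 hpq 2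
    have h2 : Cq * (p - q) ^ 2 * (d * L) ≤ Cq * (2 * (y / n)) ^ 2 *
        (d * (2 * (A * n ^ 2 / y))) := by
      refine mul_le_mul (mul_le_mul_of_nonneg_left h1 hCq0.le)
        (mul_le_mul_of_nonneg_left hLup (Nat.cast_nonneg _)) (by positivity) (by positivity)
    have h3 : Cq * (2 * (y / n)) ^ 2 * (d * (2 * (A * n ^ 2 / y))) = 8 * Cq * d * A * y := by
      field_simp
      ring
    linarith only [h2, h3]
  calc c₁ / 4 / n * Real.exp (-((2 * C₁ * A + 8 * Cq * d * A + K) * y))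
      = Real.exp (-(2 * C₁ * A * y) - 8 * Cq * d * A * y) *
        (c₁ / 4 / n * Real.exp (-(K * y))) := by
        have : Real.exp (-((2 * C₁ * A + 8 * Cq * d * A + K) * y)) =
            Real.exp (-(2 * C₁ * A * y) - 8 * Cq * d * A * y) * Real.exp (-(K * y)) := by
          rw [← Real.exp_add]
          congr 1
          ring
        rw [this]
        ring
    _ ≤ _ := by
        refine mul_le_mul (Real.exp_le_exp.2 ?_) hgood (by positivity) (Real.exp_nonneg _)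
        linarith only [b1, b2]

end Vale.Agent.P165.H199
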