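import Vale.Agent.P165.H199.Ghost

/-!
The local surgery: the event `Val`, and the literal statements of the pieces of block BA1.
-/

open Finset

set_option linter.unusedSectionVars false

namespace Vale.Agent.P165.H199

open Vale.Agent.P151 (Ex Cn cl csz edgesIn EV con tau)
open Vale.Agent.P165.LF

variable {V : Type} [DecidableEq V]

/-- `x` is connected to the ghosts, some edge `f` of `D` is pivotal for that, and no edge outside
`D` and beyond `f` is pivotal: the last pivotal edge belongs to `D`. -/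
def Val (x : V) (D S : Finset (Sym2 V)) (A : Finset V) : Prop :=
  Gh A x S ∧ ∃ f ∈ D, ¬ Gh A x (S.erase f) ∧
    ∀ e ∉ D, (∀ v ∈ e, ¬ Cn (S.erase f) x v) → Gh A x (S.erase e)

/-- (S1) at most boundedly many `w` are valid. -/
def S1 (G : SimpleGraph V) [G.LocallyFinite] : Prop :=
  ∀ m : ℕ, ∃ B : ℝ, 0 < B ∧ ∀ (x : V) (S : Finset (Sym2 V)) (A W : Finset V),
    ∑ w ∈ W, ind (Val x (edgesIn G (ballF G w m)) S A) ≤ B * ind (Gh A x S)

/-- (S2) opening at most `d` edges. -/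
def S2 (V : Type) [DecidableEq V] : Prop :=
  ∀ (q : ℝ), 0 < q → q ≤ 1 → ∀ (Λ D : Finset (Sym2 V)), D ⊆ Λ → ∀ P : Finset (Sym2 V) → Prop,
    Ex q Λ (fun S => ind (∃ γ ⊆ D, P (S ∪ γ))) ≤ (2 / q) ^ D.card * Ex q Λ (fun S => ind (P S))

/-- (S3) the deterministic surgery: the cluster `K` of `x` has no ghost, `w` is at distance at
most `R` from `K`, the ball of radius `r` about `w` misses `K`, and `w`, `w₂` are in distinct
clusters, both with ghosts, `w₂` in the ball. -/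
def S3 (G : SimpleGraph V) [G.LocallyFinite] : Prop :=
  ∀ (x w w₂ : V) (R r : ℕ) (S : Finset (Sym2 V)) (A : Finset V),
    ¬ Gh A x S → (∃ y ∈ cl S x, y ∈ ballF G w R) → (∀ y ∈ ballF G w r, y ∉ cl S x) →
    w₂ ∈ ballF G w r → ¬ Cn S w w₂ → Gh A w S → Gh A w₂ S →
    ∃ γ ⊆ edgesIn G (ballF G w (R + r)), Val x (edgesIn G (ballF G w (R + r))) (S ∪ γ) A

/-- (G1) a cluster with at most `L` vertices lies in the ball of radius `L`. -/
def G1 (G : SimpleGraph V) [G.LocallyFinite] : Prop :=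
  ∀ (x : V) (F : Finset V) (S : Finset (Sym2 V)) (L : ℕ), S ⊆ edgesIn G F → csz S x ≤ L →
    cl S x ⊆ ballF G x L

/-- (G2) thickening a finite set. -/
def G2 (G : SimpleGraph V) [G.LocallyFinite] : Prop :=
  ∀ (K : Finset V) (R : ℕ),
    (1 + vertexCheeger G) ^ R * (K.card : ℝ) ≤ ((K.biUnion (fun y => ballF G y R)).card : ℝ)

/-- (G3) the triangle diagram has a small entry in every large ball (finite volume `F`). -/
def G3 (G : SimpleGraph V) [G.LocallyFinite] : Prop :=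
  ∀ (N ε : ℝ), 0 < ε → ∃ r : ℕ, ∀ (q : ℝ), 0 ≤ q → q ≤ 1 → L2B G q N → ∀ (F : Finset V) (w : V),
    ballF G w r ⊆ F → ∃ w₂ ∈ ballF G w r,
      ∑ a ∈ F, ∑ b ∈ F, Ex q (edgesIn G F) (con w₂ a) * Ex q (edgesIn G F) (con a b) *
        Ex q (edgesIn G F) (con b w) ≤ ε

/-- (G4) all finite-volume magnetizations of deep vertices are comparable to the supremum. -/
def G4 (G : SimpleGraph V) [G.LocallyFinite] : Prop :=
  ∀ q₀ : ℝ, 0 < q₀ → ∃ c₁ : ℝ, 0 < c₁ ∧ c₁ ≤ 1 ∧ ∀ (q t : ℝ), q₀ ≤ q → q ≤ 1 → 0 < t → t < 1 →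
    ∀ W : Finset V, ∃ F0 : Finset V, ∀ F : Finset V, F0 ⊆ F → ∀ w ∈ W,
      c₁ * mM G q t ≤ mF G q t F w

end Vale.Agent.P165.H199
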