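import Vale.Agent.P165.H199.Pair
import Vale.Agent.P165.H199.Val

/-!
Assembly of block BA1, first part: the three steps.
-/

open Finset

set_option linter.unusedSectionVars false

namespace Vale.Agent.P165.H199

open Vale.Agent.P151 (Ex Cn cl csz edgesIn EV con tau)
open Vale.Agent.P165 Vale.Agent.P165.LF

variable {V : Type} [DecidableEq V]

/-- Step A: the surgery in expectation. -/
theorem stepA (G : SimpleGraph V) [G.LocallyFinite] (hS2 : S2 V) (hS3 : S3 G) {q t : ℝ}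
    (hq0 : 0 < q) (hq1 : q ≤ 1) (t0 : 0 ≤ t) (t1 : t ≤ 1) {F U : Finset V} (x w w₂ : V)
    (R r : ℕ) (hF : ballF G w (R + r) ⊆ F) (hw2 : w₂ ∈ ballF G w r)
    (Pr : Finset (Sym2 V) → Prop)
    (hPr : ∀ S ⊆ edgesIn G F, Pr S → (∃ y ∈ cl S x, y ∈ ballF G w R) ∧
      ∀ y ∈ ballF G w r, y ∉ cl S x) :
    Ex (1 - t) U (fun A => Ex q (edgesIn G F) (fun S => ind (Pr S ∧
      (¬ Gh A x S ∧ Gh A w S ∧ Gh A w₂ S) ∧ ¬ Cn S w w₂))) ≤
    (2 / q) ^ (edgesIn G (ballF G w (R + r))).card *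
      Ex (1 - t) U (fun A => Ex q (edgesIn G F) (fun S =>
        ind (Val x (edgesIn G (ballF G w (R + r))) S A))) := by
  have ht0 : 0 ≤ 1 - t := sub_nonneg.2 t1
  have ht1 : 1 - t ≤ 1 := by linarith only [t0]
  rw [← Vale.Agent.P151.Ex_const_mul]
  refine Vale.Agent.P151.Ex_mono ht0 ht1 (fun A _ => ?_)
  refine le_trans ?_ (hS2 q hq0 hq1 (edgesIn G F) (edgesIn G (ballF G w (R + r)))
    (Vale.Agent.P151.edgesIn_mono G hF) (fun S => Val x (edgesIn G (ballF G w (R + r))) S A))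
  refine Vale.Agent.P151.Ex_mono hq0.le hq1 (fun S hS => ind_mono ?_)
  rintro ⟨hp, ⟨h1, h2, h3⟩, h4⟩
  obtain ⟨h5, h6⟩ := hPr S hS hp
  exact hS3 x w w₂ R r S A h1 h5 h6 hw2 h4 h2 h3

/-- Step B: the lower bound. -/
theorem stepB (G : SimpleGraph V) {q t c : ℝ} (h0 : 0 ≤ q) (h1 : q ≤ 1) (t0 : 0 ≤ t)
    (t1 : t ≤ 1) {F : Finset V} {x w w₂ : V} (hx : x ∈ F) (hw : w ∈ F) (hw2 : w₂ ∈ F)
    (good : Finset V → Prop)
    (hgood : ∀ K ⊆ F, good K → (w ∉ K ∧ w₂ ∉ K) ∧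
      c ≤ Ex q (edgesIn G F) (fun T => ind (¬ Cn (T ∩ offE (edgesIn G F) (K : Set V)) w w₂) *
      ((1 - t ^ csz (T ∩ offE (edgesIn G F) (K : Set V)) w) *
        (1 - t ^ csz (T ∩ offE (edgesIn G F) (K : Set V)) w₂)))) :
    c * Ex q (edgesIn G F) (fun S => ind (good (cl S x)) * t ^ csz S x) ≤
    Ex (1 - t) F (fun A => Ex q (edgesIn G F) (fun S => ind (good (cl S x) ∧
      (¬ Gh A x S ∧ Gh A w S ∧ Gh A w₂ S) ∧ ¬ Cn S w w₂))) := by
  classical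
  set Λ := edgesIn G F with hΛ
  rw [Vale.Agent.P151.Ex_comm]
  set Φ : Set V → Finset (Sym2 V) → ℝ := fun Q' S' =>
    ind (∃ K : Finset V, (K : Set V) = Q' ∧ good K) * (t ^ Q'.ncard *
      (ind (¬ Cn S' w w₂) * ((1 - t ^ csz S' w) * (1 - t ^ csz S' w₂)))) with hΦ
  have hgK : ∀ K : Finset V, ind (∃ K' : Finset V, (K' : Set V) = (K : Set V) ∧ good K') =
      ind (good K) := by
    intro K
    refine ind_congr ⟨?_, fun h => ⟨K, rfl, h⟩⟩
    rintro ⟨K', h, h'⟩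
    rwa [← Finset.coe_injective h]
  have hFF : F ⊆ F := Finset.Subset.refl F
  have e1 : ∀ S ⊆ Λ, Φ (clS S {x}) (S ∩ offE Λ (clS S {x})) =
      Ex (1 - t) F (fun A => ind (good (cl S x) ∧
      (¬ Gh A x S ∧ Gh A w S ∧ Gh A w₂ S) ∧ ¬ Cn S w w₂)) := by
    intro S hS
    show ind (∃ K : Finset V, (K : Set V) = clS S {x} ∧ good K) * (t ^ (clS S {x}).ncard *
      (ind (¬ Cn (S ∩ offE Λ (clS S {x})) w w₂) *
      ((1 - t ^ csz (S ∩ offE Λ (clS S {x})) w) *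
        (1 - t ^ csz (S ∩ offE Λ (clS S {x})) w₂)))) = _
    rw [gn_clS, Set.ncard_coe_finset, hgK]
    by_cases hg : good (cl S x)
    swap
    · rw [ind_false hg, zero_mul]
      symm
      rw [← Vale.Agent.P151.Ex_const (1 - t) F (0 : ℝ)]
      exact Vale.Agent.P151.Ex_congr _ (fun A _ => ind_false (fun h => hg h.1))
    obtain ⟨⟨hwK, hw2K⟩, _⟩ := hgood (cl S x) (cl_subset_of hFF hS hx) hg
    have hoff : ∀ v, v ∉ cl S x → ∀ y, Cn (S ∩ offE Λ (cl S x : Set V)) v y ↔ Cn S v y := by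
      intro v hv y
      refine ⟨fun h => h.mono inter_subset_left, fun h => ?_⟩
      have := Cn_off hS (B := {x}) (x := v) (y := y) (by rw [gn_clS]; exact hv) h
      rwa [gn_clS] at this
    have hcl : ∀ v, v ∉ cl S x → csz (S ∩ offE Λ (cl S x : Set V)) v = csz S v := by
      intro v hv
      unfold csz
      congr 1
      ext y
      rw [Vale.Agent.P151.mem_cl, Vale.Agent.P151.mem_cl, hoff v hv]
    rw [ind_true hg, one_mul, hcl w hwK, hcl w₂ hw2K,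
      ind_congr (not_congr (hoff w hwK w₂))]
    by_cases hc : Cn S w w₂
    · rw [ind_false (not_not.2 hc), zero_mul, mul_zero]
      symm
      rw [← Vale.Agent.P151.Ex_const (1 - t) F (0 : ℝ)]
      exact Vale.Agent.P151.Ex_congr _ (fun A _ => ind_false (fun h => h.2.2 hc))
    rw [ind_true hc, one_mul]
    have d1 : Disjoint (cl S x) (cl S w) := by
      rw [Finset.disjoint_left]
      intro y hy hy'
      rw [Vale.Agent.P151.mem_cl] at hy hy'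
      exact hwK (Vale.Agent.P151.mem_cl.2 (hy.trans hy'.symm))
    have d2 : Disjoint (cl S x) (cl S w₂) := by
      rw [Finset.disjoint_left]
      intro y hy hy'
      rw [Vale.Agent.P151.mem_cl] at hy hy'
      exact hw2K (Vale.Agent.P151.mem_cl.2 (hy.trans hy'.symm))
    have d12 : Disjoint (cl S w) (cl S w₂) := by
      rw [Finset.disjoint_left]
      intro y hy hy'
      rw [Vale.Agent.P151.mem_cl] at hy hy'
      exact hc (hy.trans hy'.symm)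
    have ht := Ex_triple t (cl_subset_of hFF hS hx) (cl_subset_of hFF hS hw)
      (cl_subset_of hFF hS hw2) d1 d2 d12
    have e2 : Ex (1 - t) F (fun A => ind (good (cl S x) ∧
      (¬ Gh A x S ∧ Gh A w S ∧ Gh A w₂ S) ∧ ¬ Cn S w w₂)) =
      Ex (1 - t) F (fun A => ind ((∀ z ∈ A, z ∉ cl S x) ∧ (∃ z ∈ A, z ∈ cl S w) ∧
        ∃ z ∈ A, z ∈ cl S w₂)) := by
      refine Vale.Agent.P151.Ex_congr _ (fun A _ => ind_congr ?_)
      unfold Gh
      simp only [Vale.Agent.P151.mem_cl]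
      constructor
      · rintro ⟨_, ⟨h1, h2, h3⟩, _⟩
        exact ⟨fun z hz hc => h1 ⟨z, hz, hc⟩, h2, h3⟩
      · rintro ⟨h1, h2, h3⟩
        exact ⟨hg, ⟨fun ⟨z, hz, hc⟩ => h1 z hz hc, h2, h3⟩, hc⟩
    rw [e2, ht]
    rfl
  rw [← Vale.Agent.P151.Ex_congr q e1, explore q Λ {x} Φ, ← Vale.Agent.P151.Ex_const_mul]
  refine Vale.Agent.P151.Ex_mono h0 h1 (fun S hS => ?_)
  show c * (ind (good (cl S x)) * t ^ csz S x) ≤ Ex q Λ (fun T =>
    ind (∃ K : Finset V, (K : Set V) = clS S {x} ∧ good K) * (t ^ (clS S {x}).ncard *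
      (ind (¬ Cn (T ∩ offE Λ (clS S {x})) w w₂) *
      ((1 - t ^ csz (T ∩ offE Λ (clS S {x})) w) *
        (1 - t ^ csz (T ∩ offE Λ (clS S {x})) w₂)))))
  rw [gn_clS, Set.ncard_coe_finset, hgK, Vale.Agent.P151.Ex_const_mul,
    Vale.Agent.P151.Ex_const_mul]
  by_cases hg : good (cl S x)
  · obtain ⟨_, h2⟩ := hgood (cl S x) (cl_subset_of hFF hS hx) hg
    rw [ind_true hg, one_mul, one_mul, mul_comm]
    exact mul_le_mul_of_nonneg_left h2 (pow_nonneg t0 _)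
  · rw [ind_false hg, zero_mul, mul_zero, zero_mul]

/-- Step C: there are many good `w`. -/
theorem stepC (G : SimpleGraph V) [G.LocallyFinite] (hG2 : G2 G) {q N κ : ℝ}
    (hL : L2B G q N) (h0 : 0 ≤ q) (h1 : q ≤ 1) (hκ : 0 < κ) {F K W : Finset V} (hKF : K ⊆ F)
    (hWF : W ⊆ F) (R : ℕ) (hR : N ^ 2 / κ ^ 2 + 1 ≤ (1 + vertexCheeger G) ^ R)
    (hW : K.biUnion (fun y => ballF G y R) ⊆ W) :
    (K.card : ℝ) ≤ ∑ w ∈ W, ind ((∃ y ∈ K, y ∈ ballF G w R) ∧ fQ G q F K w ≤ κ) := by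
  set T := K.biUnion (fun y => ballF G y R) with hT
  have h2 := hG2 K R
  have h3 := H794.sum_sq_le_of_L2B hL F K hKF h0 h1
  have h4 : ((T.card : ℕ) : ℝ) ≤ ∑ w ∈ T, (ind ((∃ y ∈ K, y ∈ ballF G w R) ∧
      fQ G q F K w ≤ κ) + fQ G q F K w ^ 2 / κ ^ 2) := by
    rw [Finset.card_eq_sum_ones, Nat.cast_sum]
    refine Finset.sum_le_sum (fun w hw => ?_)
    push_cast
    rw [hT, mem_biUnion] at hw
    obtain ⟨y, hy, hyw⟩ := hw
    have hyw' : y ∈ ballF G w R := (mem_ballF_comm G _ _ _).1 hyw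
    by_cases hf : fQ G q F K w ≤ κ
    · rw [ind_true ⟨⟨y, hy, hyw'⟩, hf⟩]
      have : 0 ≤ fQ G q F K w ^ 2 / κ ^ 2 := div_nonneg (sq_nonneg _) (sq_nonneg _)
      linarith only [this]
    · rw [not_le] at hf
      have h5 : 1 ≤ fQ G q F K w ^ 2 / κ ^ 2 := by
        rw [le_div_iff₀ (pow_pos hκ 2), one_mul]
        exact pow_le_pow_left₀ hκ.le hf.le 2
      have h6 := ind_nonneg ((∃ y ∈ K, y ∈ ballF G w R) ∧ fQ G q F K w ≤ κ)
      linarith only [h5, h6]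
  rw [Finset.sum_add_distrib, ← Finset.sum_div] at h4
  have h5 : ∑ w ∈ T, ind ((∃ y ∈ K, y ∈ ballF G w R) ∧ fQ G q F K w ≤ κ) ≤
      ∑ w ∈ W, ind ((∃ y ∈ K, y ∈ ballF G w R) ∧ fQ G q F K w ≤ κ) :=
    Finset.sum_le_sum_of_subset_of_nonneg hW (fun _ _ _ => ind_nonneg _)
  have h6 : (∑ w ∈ T, fQ G q F K w ^ 2) / κ ^ 2 ≤ N ^ 2 / κ ^ 2 * K.card := by
    have h7 : ∑ w ∈ T, fQ G q F K w ^ 2 ≤ N ^ 2 * K.card := by
      refine le_trans (Finset.sum_le_sum_of_subset_of_nonneg (hW.trans hWF)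
        (fun _ _ _ => sq_nonneg _)) h3
    calc (∑ w ∈ T, fQ G q F K w ^ 2) / κ ^ 2 ≤ (N ^ 2 * K.card) / κ ^ 2 :=
          div_le_div_of_nonneg_right h7 (sq_nonneg _)
      _ = _ := by ring
  have h7 : (N ^ 2 / κ ^ 2 + 1) * (K.card : ℝ) ≤ (1 + vertexCheeger G) ^ R * K.card :=
    mul_le_mul_of_nonneg_right hR (Nat.cast_nonneg _)
  linarith only [h2, h4, h5, h6, h7]

end Vale.Agent.P165.H199
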