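import Vale.Agent.P165.H199.Core

/-!
Block BA1 from the pieces.
-/

open Finset

set_option linter.unusedSectionVars false

namespace Vale.Agent.P165.H199

open Vale.Agent.P151 (Ex Cn cl csz edgesIn EV con tau)
open Vale.Agent.P165 Vale.Agent.P165.LF

variable {V : Type} [DecidableEq V]

/-- `n t^n ≤ 1` for large `n`. -/
lemma exists_mul_pow_le {t : ℝ} (t0 : 0 < t) (t1 : t < 1) :
    ∃ L : ℕ, ∀ n : ℕ, L < n → (n : ℝ) * t ^ n ≤ 1 := by
  have h := tendsto_self_mul_const_pow_of_lt_one t0.le t1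
  have h2 := h.eventually (gt_mem_nhds (by norm_num : (0 : ℝ) < 1))
  obtain ⟨L, hL⟩ := Filter.eventually_atTop.1 h2
  exact ⟨L, fun n hn => (hL n hn.le).le⟩

theorem ba1_of (G : SimpleGraph V) [G.LocallyFinite] [Infinite V] (hG : G.Connected)
    (hqt : IsQuasiTransitive G) (hna : 0 < vertexCheeger G) (hS1 : S1 G) (hS2 : S2 V)
    (hS3 : S3 G) (hG1 : G1 G) (hG2 : G2 G) (hG3 : G3 G) (hG4 : G4 G) : BA1 G := by
  classical
  have hne : Nonempty V := hG.nonempty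
  obtain ⟨⟨hpc0, hlt, _⟩, _, _⟩ := H794.main hG hqt hna
  obtain ⟨p, N', hp, hp0, hp1, hL'⟩ := H794.exists_L2B_of_lt hG hlt
  set p₁ := (pc G + p) / 2 with hp₁
  have hpp₁ : pc G < p₁ := by rw [hp₁]; linarith only [hp]
  have hp₁p : p₁ ≤ p := by rw [hp₁]; linarith only [hp]
  have hp₁1 : p₁ < 1 := by rw [hp₁]; linarith only [hp, hp1]
  -- constants
  set q₀ := pc G / 2 with hq₀
  have hq₀0 : 0 < q₀ := by rw [hq₀]; linarith only [hpc0]
  obtain ⟨c₁, hc₁, hc₁1, hmag⟩ := hG4 q₀ hq₀0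
  have hε : 0 < c₁ ^ 2 / 8 := by positivity
  obtain ⟨r, hr⟩ := hG3 N' (c₁ ^ 2 / 8) hε
  set κ := c₁ / 2 * q₀ ^ r with hκ
  have hκ0 : 0 < κ := by positivity
  obtain ⟨R, hR⟩ : ∃ R : ℕ, N' ^ 2 / κ ^ 2 + 1 ≤ (1 + vertexCheeger G) ^ R := by
    have h2 : 1 < 1 + vertexCheeger G := by linarith only [hna]
    obtain ⟨R, hR⟩ := pow_unbounded_of_one_lt (N' ^ 2 / κ ^ 2 + 1) h2
    exact ⟨R, hR.le⟩
  obtain ⟨B, hB0, hB⟩ := hS1 (R + r)
  obtain ⟨Δ, hΔ1, hΔ⟩ := LF.exists_degree_bound (G := G) hqt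
  set d := ((Δ + 1) ^ (R + r)) ^ 2 with hd
  have hdle : ∀ w, (edgesIn G (ballF G w (R + r))).card ≤ d := fun w =>
    (card_edgesIn_le G _).trans (Nat.pow_le_pow_left (card_ballF_le G Δ hΔ w (R + r)) 2)
  refine ⟨p₁, (2 / q₀) ^ d * B / (c₁ ^ 2 / 8) + 1, hpp₁, hp₁1, by positivity, ?_⟩
  intro q t hq hqp₁ t0 t1 x
  have hq0 : 0 ≤ q := hq₀0.le.trans hq
  have hq1 : q ≤ 1 := hqp₁.trans hp₁1.le
  have hL2 : L2B G q N' := hL'.mg_mono hq0 (hqp₁.trans hp₁p) hp1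
  obtain ⟨L, hL⟩ := exists_mul_pow_le t0 t1
  obtain ⟨F1, hF1⟩ := hmag q t hq hq1 t0 t1 (ballF G x (L + R + r))
  refine ⟨F1 ∪ ballF G x (L + R + (R + r)), fun F hF => ?_⟩
  have hFb : ballF G x (L + R + (R + r)) ⊆ F := subset_union_right.trans hF
  have hFm := hF1 F (subset_union_left.trans hF)
  have hM0 : 0 < mM G q t := by
    have h1 := mF_ge G hq0 hq1 t0.le t1.le F x
    have h2 := mF_le_mM G hq0 hq1 t0.le F x
    linarith only [h1, h2, t1]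
  have hM1 := mM_le_one G hq0 hq1 t0.le
  have key := core_trunc G hS2 hS3 hG1 hG2 hq₀0 hq hq1 t0 t1 hL2 R r L hc₁ hκ0 le_rfl hc₁1 hR
    hB0 (fun x S A W => hB x S A W) hdle x F hFb
    (fun w hw => hr q hq0 hq1 hL2 F w (by
      intro y hy
      refine hFb ?_
      have h2 := mem_ballF_trans G hy hw
      exact ballF_mono G x (by omega) h2)) hFm
  set E := Ex q (edgesIn G F) (fun S => ind (csz S x ≤ L) * ((csz S x : ℝ) * t ^ csz S x)) with hE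
  have h3 : Ex q (edgesIn G F) (fun S => (csz S x : ℝ) * t ^ csz S x) ≤ E + 1 := by
    rw [hE, ← Vale.Agent.P151.Ex_const q (edgesIn G F) (1 : ℝ), ← Vale.Agent.P151.Ex_add]
    refine Vale.Agent.P151.Ex_mono hq0 hq1 (fun S _ => ?_)
    by_cases h : csz S x ≤ L
    · rw [ind_true h, one_mul]
      linarith only []
    · rw [ind_false h, zero_mul, zero_add]
      exact hL _ (not_le.1 h)
  have h4 : mM G q t * E ≤ (2 / q₀) ^ d * B / (c₁ ^ 2 / 8) := by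
    rw [le_div_iff₀ hε]
    have h5 : mM G q t * (mM G q t * E * (c₁ ^ 2 / 8)) ≤ mM G q t * ((2 / q₀) ^ d * B) := by
      calc mM G q t * (mM G q t * E * (c₁ ^ 2 / 8)) = c₁ ^ 2 / 8 * mM G q t ^ 2 * E := by ring
        _ ≤ (2 / q₀) ^ d * B * mM G q t := key
        _ = mM G q t * ((2 / q₀) ^ d * B) := by ring
    exact le_of_mul_le_mul_left h5 hM0
  calc mM G q t * Ex q (edgesIn G F) (fun S => (csz S x : ℝ) * t ^ csz S x)
      ≤ mM G q t * (E + 1) := mul_le_mul_of_nonneg_left h3 hM0.le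
    _ = mM G q t * E + mM G q t := by ring
    _ ≤ _ := add_le_add h4 hM1

end Vale.Agent.P165.H199
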