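import Vale.Agent.P165.Defs
import Vale.Agent.P165.PowerDefs
import Vale.Agent.P165.H794.Defs

open MeasureTheory ProbabilityTheory
open scoped ENNReal

namespace Vale.Agent.P165

universe u

variable {V : Type u}

/-- `P_p(|K_x| ≥ n)`: the probability that the open cluster of `x` has at least `n` vertices. -/
noncomputable def clusterTail (G : SimpleGraph V) (p : unitInterval) (x : V) (n : ℕ) : ℝ≥0∞ :=
  setBernoulli G.edgeSet p
    {ω | (n : ℕ∞) ≤ {y | (SimpleGraph.fromEdgeSet ω).Reachable x y}.encard}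

/-- `θ_x(p) = P_p(|K_x| = ∞)`: the probability that the open cluster of `x` is infinite. -/
noncomputable def percProb (G : SimpleGraph V) (p : unitInterval) (x : V) : ℝ≥0∞ :=
  setBernoulli G.edgeSet p {ω | {y | (SimpleGraph.fromEdgeSet ω).Reachable x y}.Infinite}

/-- The truncated susceptibility `E_p[|K_x|; |K_x| < ∞]`. -/
noncomputable def finSusceptibility (G : SimpleGraph V) (p : unitInterval) (x : V) : ℝ≥0∞ :=
  ∫⁻ ω in {ω | {y | (SimpleGraph.fromEdgeSet ω).Reachable x y}.Finite},
    (({y | (SimpleGraph.fromEdgeSet ω).Reachable x y}.encard : ℕ∞) : ℝ≥0∞)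
    ∂(setBernoulli G.edgeSet p)

end Vale.Agent.P165
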