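import Vale.Agent.P165.H794.Main
import Vale.Agent.P165.H199.Defs

/-!
Blocks of the plan for the mean-field exponents. Everything finite volume, `V : Type`.
-/

open Finset Vale.Agent.P151 Vale.Agent.P165 Vale.Agent.P165.LF

namespace Vale.Agent.P165.H199

variable {V : Type} [DecidableEq V]

/-- Ghost magnetization of `x` in finite volume: `E^F_q[1 - t ^ |K_x|]`. -/
noncomputable def mF (G : SimpleGraph V) (q t : ℝ) (F : Finset V) (x : V) : ℝ :=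
  Ex q (edgesIn G F) (fun S => 1 - t ^ csz S x)

/-- Ghost magnetization of `x` in infinite volume (supremum over finite volumes). -/
noncomputable def mI (G : SimpleGraph V) (q t : ℝ) (x : V) : ℝ :=
  EV G q (fun S => 1 - t ^ csz S x)

/-- Ghost magnetization: supremum over the vertices. -/
noncomputable def mM (G : SimpleGraph V) (q t : ℝ) : ℝ := ⨆ x, mI G q t x

/-- Block BA1 (owner helper199). -/
def BA1 (G : SimpleGraph V) : Prop :=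
  ∃ p₁ C : ℝ, pc G < p₁ ∧ p₁ < 1 ∧ 0 < C ∧ ∀ q t : ℝ, pc G / 2 ≤ q → q ≤ p₁ → 0 < t → t < 1 →
    ∀ x : V, ∃ F0 : Finset V, ∀ F : Finset V, F0 ⊆ F →
      mM G q t * Ex q (edgesIn G F) (fun S => (csz S x : ℝ) * t ^ csz S x) ≤ C

/-- `P_{p_c}(|K_x| ≥ n) ≤ C n^(-1/2)`. -/
def TailUp (G : SimpleGraph V) : Prop :=
  ∃ C : ℝ, 0 < C ∧ ∀ n : ℕ, 1 ≤ n → ∀ (x : V) (F : Finset V),
    Ex (pc G) (edgesIn G F) (fun S => ind (n ≤ csz S x)) ≤ C / √(n : ℝ)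

/-- `c n^(-1/2) ≤ P_{p_c}(|K_x| ≥ n)`. -/
def TailLow (G : SimpleGraph V) : Prop :=
  ∃ c : ℝ, 0 < c ∧ ∀ n : ℕ, 1 ≤ n → ∀ x : V,
    c / √(n : ℝ) ≤ EV G (pc G) (fun S => ind (n ≤ csz S x))

/-- `θ_x(p) ≤ C (p - p_c)`. -/
def ThetaUp (G : SimpleGraph V) : Prop :=
  ∃ C : ℝ, 0 < C ∧ ∀ p : ℝ, pc G ≤ p → p ≤ 1 → ∀ x : V, ∀ ε : ℝ, 0 < ε → ∃ n : ℕ,
    ∀ F : Finset V, Ex p (edgesIn G F) (fun S => ind (n ≤ csz S x)) ≤ C * (p - pc G) + ε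

/-- `c (p - p_c) ≤ θ_x(p)`, seen through `P_p(|K_x| ≥ n)`. -/
def ThetaLow (G : SimpleGraph V) : Prop :=
  ∃ c : ℝ, 0 < c ∧ ∀ p : ℝ, pc G ≤ p → p ≤ 1 → ∀ (x : V) (n : ℕ),
    c * (p - pc G) ≤ EV G p (fun S => ind (n ≤ csz S x))

/-- `E_p[|K_x| t^|K_x|] ≤ C / (p - p_c)` for `p_c < p ≤ p₁`, uniformly in `t`. -/
def FinUp (G : SimpleGraph V) : Prop :=
  ∃ p₁ C : ℝ, pc G < p₁ ∧ p₁ < 1 ∧ 0 < C ∧ ∀ p : ℝ, pc G < p → p ≤ p₁ → ∀ t : ℝ, 0 < t → t < 1 →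
    ∀ x : V, ∃ F0 : Finset V, ∀ F : Finset V, F0 ⊆ F →
      Ex p (edgesIn G F) (fun S => (csz S x : ℝ) * t ^ csz S x) ≤ C / (p - pc G)

end Vale.Agent.P165.H199
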