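import Vale.Agent.P165.H199.Asm

/-!
Assembly of block BA1 from the pieces S1, S2, S3, G1, G2, G3, G4.
-/

open Finset

set_option linter.unusedSectionVars false

namespace Vale.Agent.P165.H199

open Vale.Agent.P151 (Ex Cn cl csz edgesIn EV con tau)
open Vale.Agent.P165 Vale.Agent.P165.LF

variable {V : Type} [DecidableEq V]

lemma Ex_con_mul_le {q : ℝ} (h0 : 0 ≤ q) (h1 : q ≤ 1) (Λ : Finset (Sym2 V)) (a b c : V) :
    Ex q Λ (con a b) * Ex q Λ (con b c) ≤ Ex q Λ (con a c) := by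
  refine (Vale.Agent.P151.harris h0 h1 Λ (Vale.Agent.P151.con_mono a b)
    (Vale.Agent.P151.con_mono b c)).trans ?_
  refine Vale.Agent.P151.Ex_mono h0 h1 (fun S _ => ?_)
  rw [con_eq_ind, con_eq_ind, con_eq_ind, ← ind_and]
  exact ind_mono (fun h => h.1.trans h.2)

lemma Ex_con_edge (G : SimpleGraph V) {q : ℝ} (h0 : 0 ≤ q) (h1 : q ≤ 1) {F : Finset V} {a b : V}
    (hab : G.Adj a b) (ha : a ∈ F) (hb : b ∈ F) : q ≤ Ex q (edgesIn G F) (con a b) := by
  have he : {s(a, b)} ⊆ edgesIn G F :=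
    singleton_subset_iff.2 (Vale.Agent.P151.mk_mem_edgesIn.2 ⟨hab, ha, hb⟩)
  refine le_trans ?_ (Vale.Agent.P151.Ex_mono_set h0 h1 he (Vale.Agent.P151.con_mono a b))
  have h2 : ({s(a, b)} : Finset (Sym2 V)) = insert s(a, b) ∅ := rfl
  rw [h2, Vale.Agent.P151.Ex_insert q (Finset.notMem_empty _), Vale.Agent.P151.Ex_empty,
    Vale.Agent.P151.Ex_empty]
  have h3 : con a b (insert s(a, b) ∅) = 1 := by
    rw [con_eq_ind]
    exact ind_true (Vale.Agent.P151.Cn_of_mem (mem_insert_self _ _))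
  rw [h3]
  have h4 : 0 ≤ (1 - q) * con a b ∅ :=
    mul_nonneg (sub_nonneg.2 h1) (Vale.Agent.P151.con_nonneg _ _ _)
  linarith only [h4]

lemma Ex_con_ball (G : SimpleGraph V) [G.LocallyFinite] {q : ℝ} (h0 : 0 ≤ q) (h1 : q ≤ 1)
    {F : Finset V} (w : V) : ∀ (r : ℕ) (v : V), v ∈ ballF G w r → ballF G w r ⊆ F →
      q ^ r ≤ Ex q (edgesIn G F) (con w v) := by
  intro r
  induction r with
  | zero =>
    intro v hv _
    rw [ballF_zero, mem_singleton] at hv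
    rw [hv, pow_zero, Ex_con_self]
  | succ r ih =>
    intro v hv hF
    have hsub : ballF G w r ⊆ F := (ballF_mono G w (Nat.le_succ r)).trans hF
    have hvF := hF hv
    rw [mem_ballF_succ] at hv
    rcases hv with hv | ⟨z, hz, hzv⟩
    · refine le_trans ?_ (ih v hv hsub)
      exact pow_le_pow_of_le_one h0 h1 (Nat.le_succ r)
    · refine le_trans ?_ (Ex_con_mul_le h0 h1 (edgesIn G F) w z v)
      rw [pow_succ]
      exact mul_le_mul (ih z hz hsub) (Ex_con_edge G h0 h1 hzv (hsub hz) hvF) h0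
        (Ex_con_nonneg h0 h1 _ _ _)

lemma fQ_ball (G : SimpleGraph V) [G.LocallyFinite] {q : ℝ} (h0 : 0 ≤ q) (h1 : q ≤ 1)
    {F K : Finset V} {w v : V} {r : ℕ} (hv : v ∈ ballF G w r) (hF : ballF G w r ⊆ F) :
    q ^ r * fQ G q F K v ≤ fQ G q F K w := by
  unfold fQ
  rw [Finset.mul_sum]
  refine Finset.sum_le_sum (fun a _ => ?_)
  exact (mul_le_mul_of_nonneg_right (Ex_con_ball G h0 h1 w r v hv hF)
    (Ex_con_nonneg h0 h1 _ _ _)).trans (Ex_con_mul_le h0 h1 _ w v a)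

lemma fQ_mem (G : SimpleGraph V) [G.LocallyFinite] {q : ℝ} (h0 : 0 ≤ q) (h1 : q ≤ 1)
    {F K : Finset V} {w a : V} {r : ℕ} (ha : a ∈ ballF G w r) (hF : ballF G w r ⊆ F)
    (haK : a ∈ K) : q ^ r ≤ fQ G q F K w := by
  refine (Ex_con_ball G h0 h1 w r a ha hF).trans ?_
  unfold fQ
  exact Finset.single_le_sum (f := fun a => Ex q (edgesIn G F) (con w a))
    (fun a _ => Ex_con_nonneg h0 h1 _ _ _) haK

lemma card_edgesIn_le (G : SimpleGraph V) (B : Finset V) : (edgesIn G B).card ≤ B.card ^ 2 := by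
  have h : edgesIn G B ⊆ (B ×ˢ B).image (fun z => s(z.1, z.2)) := by
    intro e he
    have h2 := (Vale.Agent.P151.mem_edgesIn.1 he).2
    induction e using Sym2.ind with
    | _ a b =>
      rw [mem_image]
      exact ⟨(a, b), mem_product.2 ⟨h2 a (Sym2.mem_mk_left a b), h2 b (Sym2.mem_mk_right a b)⟩,
        rfl⟩
  refine (card_le_card h).trans (card_image_le.trans ?_)
  rw [card_product, sq]

lemma mI_le_mM (G : SimpleGraph V) {q t : ℝ} (h0 : 0 ≤ q) (h1 : q ≤ 1) (t0 : 0 ≤ t)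
    (x : V) : mI G q t x ≤ mM G q t := by
  refine le_ciSup (f := fun x => mI G q t x) ⟨1, ?_⟩ x
  rintro _ ⟨y, rfl⟩
  exact Vale.Agent.P151.EV_le_one h0 h1 (fun S => by
    have := pow_nonneg t0 (csz S y)
    linarith only [this])

lemma mF_le_mM (G : SimpleGraph V) {q t : ℝ} (h0 : 0 ≤ q) (h1 : q ≤ 1) (t0 : 0 ≤ t)
    (F : Finset V) (x : V) : mF G q t F x ≤ mM G q t :=
  (Vale.Agent.P151.le_EV h0 h1 (A := fun S => 1 - t ^ csz S x) (fun S => by
    have := pow_nonneg t0 (csz S x)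
    linarith only [this]) F).trans (mI_le_mM G h0 h1 t0 x)

lemma mM_le_one [Nonempty V] (G : SimpleGraph V) {q t : ℝ} (h0 : 0 ≤ q) (h1 : q ≤ 1)
    (t0 : 0 ≤ t) : mM G q t ≤ 1 := by
  refine ciSup_le (fun y => ?_)
  exact Vale.Agent.P151.EV_le_one h0 h1 (fun S => by
    have := pow_nonneg t0 (csz S y)
    linarith only [this])

lemma mF_ge (G : SimpleGraph V) {q t : ℝ} (h0 : 0 ≤ q) (h1 : q ≤ 1) (t0 : 0 ≤ t) (t1 : t ≤ 1)
    (F : Finset V) (x : V) : 1 - t ≤ mF G q t F x := by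
  unfold mF
  rw [← Vale.Agent.P151.Ex_const q (edgesIn G F) (1 - t)]
  refine Vale.Agent.P151.Ex_mono h0 h1 (fun S _ => ?_)
  have h2 : t ^ csz S x ≤ t ^ 1 := pow_le_pow_of_le_one t0 t1 (Vale.Agent.P151.csz_pos S x)
  rw [pow_one] at h2
  linarith only [h2]

/-- The core inequality for fixed `F`, truncated at cluster size `L`. -/
theorem core_trunc (G : SimpleGraph V) [G.LocallyFinite] (hS2 : S2 V) (hS3 : S3 G)
    (hG1 : G1 G) (hG2 : G2 G) {q t c₁ N κ q₀ B : ℝ} {d : ℕ} (hq₀ : 0 < q₀) (hq0 : q₀ ≤ q)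
    (hq1 : q ≤ 1) (t0 : 0 < t) (t1 : t < 1) (hL2 : L2B G q N) (R r L : ℕ)
    (hc₁ : 0 < c₁) (hκ : 0 < κ) (hκr : κ ≤ c₁ / 2 * q₀ ^ r) (hc₁1 : c₁ ≤ 1)
    (hR : N ^ 2 / κ ^ 2 + 1 ≤ (1 + vertexCheeger G) ^ R)
    (hB0 : 0 < B) (hB : ∀ (x : V) (S : Finset (Sym2 V)) (A W : Finset V),
      ∑ w ∈ W, ind (Val x (edgesIn G (ballF G w (R + r))) S A) ≤ B * ind (Gh A x S))
    (hd : ∀ w, (edgesIn G (ballF G w (R + r))).card ≤ d) (x : V) (F : Finset V)
    (hF : ballF G x (L + R + (R + r)) ⊆ F)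
    (hT : ∀ w ∈ ballF G x (L + R), ∃ w₂ ∈ ballF G w r, T3 G q F w₂ w ≤ c₁ ^ 2 / 8)
    (hM : ∀ w ∈ ballF G x (L + R + r), c₁ * mM G q t ≤ mF G q t F w) :
    c₁ ^ 2 / 8 * mM G q t ^ 2 * Ex q (edgesIn G F) (fun S =>
      ind (csz S x ≤ L) * ((csz S x : ℝ) * t ^ csz S x)) ≤
      (2 / q₀) ^ d * B * mM G q t := by
  classical
  have h0 : 0 ≤ q := hq₀.le.trans hq0
  have hqp : 0 < q := hq₀.trans_le hq0
  have hne : Nonempty V := ⟨x⟩
  set M := mM G q t with hMdef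
  have hMF : ∀ a, mF G q t F a ≤ M := mF_le_mM G h0 hq1 t0.le F
  have hM0 : 0 ≤ M := by
    have h1 := mF_ge G h0 hq1 t0.le t1.le F x
    have h2 := hMF x
    linarith only [h1, h2, t1]
  set W := ballF G x (L + R) with hW
  have hballs : ∀ w ∈ W, ballF G w (R + r) ⊆ F := by
    intro w hw y hy
    refine hF ?_
    have := mem_ballF_trans G hy hw
    rwa [add_comm (R + r) (L + R)] at this
  have hballr : ∀ w ∈ W, ballF G w r ⊆ F := fun w hw =>
    (ballF_mono G w (Nat.le_add_left r R)).trans (hballs w hw)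
  have hWF : W ⊆ F := fun w hw => hballr w hw (mem_ballF_self G w r)
  have hxW : x ∈ W := mem_ballF_self G x _
  have hxF : x ∈ F := hWF hxW
  choose! w2 hw2r hw2T using hT
  have hq₀1 : q₀ ≤ 1 := hq0.trans hq1
  have hrq : q₀ ^ r ≤ q ^ r := pow_le_pow_left₀ hq₀.le hq0 r
  have hq₀r : 0 < q₀ ^ r := pow_pos hq₀ r
  have hrq1 : q₀ ^ r ≤ 1 := pow_le_one₀ hq₀.le hq₀1
  have hκc : κ ≤ c₁ / 2 := by
    refine hκr.trans ?_
    have : c₁ / 2 * q₀ ^ r ≤ c₁ / 2 * 1 := mul_le_mul_of_nonneg_left hrq1 (by linarith only [hc₁])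
    linarith only [this]
  -- the good pairs
  set good : V → Finset V → Prop := fun w K => K.card ≤ L ∧
    ((∃ y ∈ K, y ∈ ballF G w R) ∧ fQ G q F K w ≤ κ) with hgood
  have havoid : ∀ w ∈ W, ∀ K, good w K → ∀ y ∈ ballF G w r, y ∉ K := by
    intro w hw K hg y hy hyK
    have h2 := fQ_mem G h0 hq1 hy (hballr w hw) hyK
    have h3 := hg.2.2
    have h4 : κ < q₀ ^ r := by
      refine lt_of_le_of_lt hκr ?_
      have : c₁ / 2 * q₀ ^ r ≤ 1 / 2 * q₀ ^ r :=
        mul_le_mul_of_nonneg_right (by linarith only [hc₁1]) hq₀r.le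
      linarith only [this, hq₀r]
    linarith only [h2, h3, h4, hrq]
  -- step B
  have hBstep : ∀ w ∈ W, c₁ ^ 2 / 8 * M ^ 2 *
      Ex q (edgesIn G F) (fun S => ind (good w (cl S x)) * t ^ csz S x) ≤
      Ex (1 - t) F (fun A => Ex q (edgesIn G F) (fun S => ind (good w (cl S x) ∧
        (¬ Gh A x S ∧ Gh A w S ∧ Gh A (w2 w) S) ∧ ¬ Cn S w (w2 w)))) := by
    intro w hw
    have hwF := hWF hw
    have hw2F : w2 w ∈ F := hballr w hw (hw2r w hw)
    refine stepB G h0 hq1 t0.le t1.le hxF hwF hw2F (good w) (fun K hK hg => ?_)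
    refine ⟨⟨havoid w hw K hg w (mem_ballF_self G w r), havoid w hw K hg _ (hw2r w hw)⟩, ?_⟩
    have hf1 : fQ G q F K w ≤ c₁ / 2 := hg.2.2.trans hκc
    have hf2 : fQ G q F K (w2 w) ≤ c₁ / 2 := by
      have h2 := fQ_ball G h0 hq1 (K := K) (hw2r w hw) (hballr w hw)
      have h3 : q₀ ^ r * fQ G q F K (w2 w) ≤ q₀ ^ r * (c₁ / 2) := by
        have h4 : q₀ ^ r * fQ G q F K (w2 w) ≤ q ^ r * fQ G q F K (w2 w) :=
          mul_le_mul_of_nonneg_right hrq
            (Finset.sum_nonneg (fun a _ => Ex_con_nonneg h0 hq1 _ _ _))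
        have h5 := hg.2.2
        linarith only [h2, h4, h5, hκr]
      exact le_of_mul_le_mul_left h3 hq₀r
    have hwm : w ∈ ballF G x (L + R + r) := ballF_mono G x (Nat.le_add_right _ _) hw
    have hw2m : w2 w ∈ ballF G x (L + R + r) := by
      have := mem_ballF_trans G (hw2r w hw) hw
      rwa [add_comm r (L + R)] at this
    have m1 := hM w hwm
    have m2 := hM (w2 w) hw2m
    have k1 : c₁ / 2 * M ≤ mF G q t F w - M * fQ G q F K w := by
      have := mul_le_mul_of_nonneg_left hf1 hM0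
      linarith only [this, m1]
    have k2 : c₁ / 2 * M ≤ mF G q t F (w2 w) - M * fQ G q F K (w2 w) := by
      have := mul_le_mul_of_nonneg_left hf2 hM0
      linarith only [this, m2]
    have hcM : 0 ≤ c₁ / 2 * M := mul_nonneg (by linarith only [hc₁]) hM0
    refine le_trans ?_ (pair_bound G h0 hq1 t0.le t1.le F K hwF hMF (hcM.trans k2))
    have k3 := mul_le_mul k2 k1 hcM (hcM.trans k2)
    have k4 : M * (M * T3 G q F (w2 w) w) ≤ M * (M * (c₁ ^ 2 / 8)) :=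
      mul_le_mul_of_nonneg_left (mul_le_mul_of_nonneg_left (hw2T w hw) hM0) hM0
    have e : c₁ / 2 * M * (c₁ / 2 * M) - M * (M * (c₁ ^ 2 / 8)) = c₁ ^ 2 / 8 * M ^ 2 := by ring
    linarith only [k3, k4, e]
  -- step A
  have h2q : 1 ≤ 2 / q₀ := by
    rw [le_div_iff₀ hq₀]
    linarith only [hq₀1]
  have hAstep : ∀ w ∈ W, Ex (1 - t) F (fun A => Ex q (edgesIn G F) (fun S =>
      ind (good w (cl S x) ∧
        (¬ Gh A x S ∧ Gh A w S ∧ Gh A (w2 w) S) ∧ ¬ Cn S w (w2 w)))) ≤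
      (2 / q₀) ^ d * Ex (1 - t) F (fun A => Ex q (edgesIn G F) (fun S =>
        ind (Val x (edgesIn G (ballF G w (R + r))) S A))) := by
    intro w hw
    refine (stepA G hS2 hS3 hqp hq1 t0.le t1.le x w (w2 w) R r (hballs w hw) (hw2r w hw)
      (fun S => good w (cl S x)) (fun S _ hg => ⟨hg.2.1, havoid w hw _ hg⟩)).trans ?_
    have ht0 : 0 ≤ 1 - t := sub_nonneg.2 t1.le
    have ht1 : 1 - t ≤ 1 := by linarith only [t0]
    refine mul_le_mul_of_nonneg_right ?_ (Vale.Agent.P151.Ex_nonneg ht0 ht1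
      (fun A _ => Vale.Agent.P151.Ex_nonneg h0 hq1 (fun _ _ => ind_nonneg _)))
    calc (2 / q) ^ (edgesIn G (ballF G w (R + r))).card
        ≤ (2 / q₀) ^ (edgesIn G (ballF G w (R + r))).card :=
          pow_le_pow_left₀ (by positivity) (div_le_div_of_nonneg_left (by norm_num) hq₀ hq0) _
      _ ≤ (2 / q₀) ^ d := pow_le_pow_right₀ h2q (hd w)
  -- sum over `W`
  have hsum : ∑ w ∈ W, Ex (1 - t) F (fun A => Ex q (edgesIn G F) (fun S =>
        ind (Val x (edgesIn G (ballF G w (R + r))) S A))) ≤ B * M := by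
    have ht0 : 0 ≤ 1 - t := sub_nonneg.2 t1.le
    have ht1 : 1 - t ≤ 1 := by linarith only [t0]
    rw [← Vale.Agent.P151.Ex_sum]
    have h2 : Ex (1 - t) F (fun A => ∑ w ∈ W, Ex q (edgesIn G F) (fun S =>
        ind (Val x (edgesIn G (ballF G w (R + r))) S A))) ≤
        Ex (1 - t) F (fun A => B * Ex q (edgesIn G F) (fun S => ind (Gh A x S))) := by
      refine Vale.Agent.P151.Ex_mono ht0 ht1 (fun A _ => ?_)
      rw [← Vale.Agent.P151.Ex_sum, ← Vale.Agent.P151.Ex_const_mul]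
      exact Vale.Agent.P151.Ex_mono h0 hq1 (fun S _ => hB x S A W)
    refine h2.trans ?_
    rw [Vale.Agent.P151.Ex_const_mul, Ex_avg G (Finset.Subset.refl F) hxF]
    exact mul_le_mul_of_nonneg_left (hMF x) hB0.le
  -- step C
  have hC : Ex q (edgesIn G F) (fun S => ind (csz S x ≤ L) * ((csz S x : ℝ) * t ^ csz S x)) ≤
      ∑ w ∈ W, Ex q (edgesIn G F) (fun S => ind (good w (cl S x)) * t ^ csz S x) := by
    rw [← Vale.Agent.P151.Ex_sum]
    refine Vale.Agent.P151.Ex_mono h0 hq1 (fun S hS => ?_)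
    rw [← Finset.sum_mul]
    have htk : 0 ≤ t ^ csz S x := pow_nonneg t0.le _
    by_cases hL : csz S x ≤ L
    · rw [ind_true hL, one_mul]
      refine mul_le_mul_of_nonneg_right ?_ htk
      have hKF : cl S x ⊆ F := cl_subset_of (Finset.Subset.refl F) hS hxF
      have hcl := hG1 x F S L hS hL
      have h5 := stepC G hG2 hL2 h0 hq1 hκ hKF hWF R hR (by
        intro z hz
        rw [mem_biUnion] at hz
        obtain ⟨y, hy, hz⟩ := hz
        have := mem_ballF_trans G hz (hcl hy)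
        rwa [add_comm R L] at this)
      refine h5.trans (Finset.sum_le_sum (fun w _ => ind_mono (fun h => ⟨hL, h⟩)))
    · rw [ind_false hL, zero_mul]
      exact mul_nonneg (Finset.sum_nonneg (fun _ _ => ind_nonneg _)) htk
  have hpos : 0 ≤ c₁ ^ 2 / 8 * M ^ 2 := by positivity
  calc c₁ ^ 2 / 8 * M ^ 2 * Ex q (edgesIn G F) (fun S =>
      ind (csz S x ≤ L) * ((csz S x : ℝ) * t ^ csz S x))
      ≤ c₁ ^ 2 / 8 * M ^ 2 * ∑ w ∈ W, Ex q (edgesIn G F) (fun S =>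
        ind (good w (cl S x)) * t ^ csz S x) := mul_le_mul_of_nonneg_left hC hpos
    _ = ∑ w ∈ W, c₁ ^ 2 / 8 * M ^ 2 * Ex q (edgesIn G F) (fun S =>
        ind (good w (cl S x)) * t ^ csz S x) := Finset.mul_sum _ _ _
    _ ≤ ∑ w ∈ W, (2 / q₀) ^ d * Ex (1 - t) F (fun A => Ex q (edgesIn G F) (fun S =>
        ind (Val x (edgesIn G (ballF G w (R + r))) S A))) :=
        Finset.sum_le_sum (fun w hw => (hBstep w hw).trans (hAstep w hw))
    _ = (2 / q₀) ^ d * ∑ w ∈ W, Ex (1 - t) F (fun A => Ex q (edgesIn G F) (fun S =>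
        ind (Val x (edgesIn G (ballF G w (R + r))) S A))) := (Finset.mul_sum _ _ _).symm
    _ ≤ (2 / q₀) ^ d * (B * M) := mul_le_mul_of_nonneg_left hsum (by positivity)
    _ = (2 / q₀) ^ d * B * M := by ring

end Vale.Agent.P165.H199
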