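import Vale.Agent.P165.H199.Esc

/-!
Sprinkling and Jensen: the proof of `CoreFin`.
-/

open Finset

set_option linter.unusedSectionVars false

namespace Vale.Agent.P165.H199

open Vale.Agent.P151 (Ex Cn cl csz edgesIn EV con tau)
open Vale.Agent.P165 Vale.Agent.P165.LF

lemma ExG_empty {ι : Type*} [DecidableEq ι] (h : ℝ) (C : Finset ι) :
    Ex h C (fun A => ind (A = ∅)) = (1 - h) ^ C.card := by
  induction C using Finset.induction_on with
  | empty => simp [ind]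
  | insert a C ha ih =>
    rw [Vale.Agent.P151.Ex_insert h ha, ih, Finset.card_insert_of_notMem ha, pow_succ]
    have : (fun S : Finset ι => ind (insert a S = ∅)) = fun _ => (0 : ℝ) := by
      funext S
      exact ind_false (Finset.insert_ne_empty a S)
    rw [this, Vale.Agent.P151.Ex_const]
    ring

lemma ExG_avoid {ι : Type*} [DecidableEq ι] (h : ℝ) {U C : Finset ι} (hC : C ⊆ U) :
    Ex h U (fun A => ind (∀ z ∈ A, z ∉ C)) = (1 - h) ^ C.card := by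
  rw [Vale.Agent.P151.Ex_restrict h hC (F := fun A => ind (∀ z ∈ A, z ∉ C))
    (fun A _ => ind_congr ⟨fun H z hz => H z (mem_inter.1 hz).1,
      fun H z hz hzC => H z (mem_inter.2 ⟨hz, hzC⟩) hzC⟩), ← ExG_empty]
  refine Vale.Agent.P151.Ex_congr h (fun A hA => ind_congr ⟨fun H => ?_, fun H => ?_⟩)
  · exact Finset.eq_empty_of_forall_notMem (fun z hz => H z hz (hA hz))
  · subst H
    intro z hz
    exact absurd hz (Finset.notMem_empty z)

variable {V : Type} [DecidableEq V]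

open Classical in
/-- Edges with exactly one end in `Q` (edges touching `Q` and its complement). -/
noncomputable def bdE (Λ : Finset (Sym2 V)) (Q : Finset V) : Finset (Sym2 V) :=
  Λ.filter (fun e => (∃ v ∈ e, v ∈ Q) ∧ ∃ v ∈ e, v ∉ Q)

open Classical in
/-- Edges inside `Q`. -/
noncomputable def inE (Λ : Finset (Sym2 V)) (Q : Finset V) : Finset (Sym2 V) :=
  Λ.filter (fun e => ∀ v ∈ e, v ∈ Q)

lemma mem_bdE {Λ : Finset (Sym2 V)} {Q : Finset V} {e : Sym2 V} :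
    e ∈ bdE Λ Q ↔ e ∈ Λ ∧ (∃ v ∈ e, v ∈ Q) ∧ ∃ v ∈ e, v ∉ Q := by
  classical
  unfold bdE
  rw [mem_filter]

lemma mem_inE {Λ : Finset (Sym2 V)} {Q : Finset V} {e : Sym2 V} :
    e ∈ inE Λ Q ↔ e ∈ Λ ∧ ∀ v ∈ e, v ∈ Q := by
  classical
  unfold inE
  rw [mem_filter]

open Classical in
/-- The percolation of open edges and of sprinkled edges between ghost-free clusters. -/
noncomputable def star (S R : Finset (Sym2 V)) (A : Finset V) : Finset (Sym2 V) :=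
  (S ∪ R).filter (fun e => ∀ v ∈ e, ¬ Gh A v S)

lemma mem_star {S R : Finset (Sym2 V)} {A : Finset V} {e : Sym2 V} :
    e ∈ star S R A ↔ e ∈ S ∪ R ∧ ∀ v ∈ e, ¬ Gh A v S := by
  classical
  unfold star
  rw [mem_filter]

/-- The internal part of the event. -/
def Win (Λ : Finset (Sym2 V)) (Q : Finset V) (x : V) (S1 Ra : Finset (Sym2 V)) : Prop :=
  (∀ e ∈ S1, e ∉ bdE Λ Q) ∧ (∀ v ∈ Q, Cn ((S1 ∪ Ra) ∩ inE Λ Q) x v) ∧ x ∈ Q

/-- A boundary edge is good when its outer end has a ghost in its cluster off `Q`. -/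
def GoodE (Q : Finset V) (S2 : Finset (Sym2 V)) (A2 : Finset V) (e : Sym2 V) : Prop :=
  ∀ v ∈ e, v ∉ Q → Gh A2 v S2

lemma D_imp {Λ : Finset (Sym2 V)} {Q : Finset V} {x : V} {S1 S2 Ra Rb : Finset (Sym2 V)}
    {A1 A2 : Finset V} (hS1 : S1 ⊆ Λ \ offE Λ (Q : Set V)) (hS2 : S2 ⊆ offE Λ (Q : Set V))
    (hRa : Ra ⊆ Λ \ bdE Λ Q) (hRb : Rb ⊆ bdE Λ Q) (hA1 : A1 ⊆ Q)
    (h : cl ((S1 ∪ S2) ∪ (Ra ∪ Rb)) x = Q ∧ ∀ z ∈ A1 ∪ A2, z ∉ Q) :
    Win Λ Q x S1 Ra ∧ Rb = ∅ ∧ A1 = ∅ := by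
  obtain ⟨hcl, hA⟩ := h
  set T := (S1 ∪ S2) ∪ (Ra ∪ Rb) with hT
  have hQ : ∀ v, v ∈ Q ↔ Cn T x v := fun v => by rw [← hcl, Vale.Agent.P151.mem_cl]
  have hbd : ∀ e ∈ T, e ∉ bdE Λ Q := by
    intro e he hb
    rw [mem_bdE] at hb
    obtain ⟨_, ⟨u, hu, huQ⟩, v, hv, hvQ⟩ := hb
    refine hvQ ((hQ v).2 (((hQ u).1 huQ).trans ?_))
    by_cases huv : u = v
    · rw [huv]; exact Vale.Agent.P151.Cn.refl _ _
    · refine Vale.Agent.P151.Cn_of_mem ?_
      rwa [← (Sym2.mem_and_mem_iff huv).1 ⟨hu, hv⟩]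
  refine ⟨⟨fun e he => hbd e (mem_union_left _ (mem_union_left _ he)), fun v hv => ?_,
    (hQ x).2 (Vale.Agent.P151.Cn.refl _ _)⟩, ?_, ?_⟩
  · have key : v ∈ {v | Cn ((S1 ∪ Ra) ∩ inE Λ Q) x v ∧ Cn T x v} := by
      refine Vale.Agent.P151.Cn_closed (S := T) ?_
        ⟨Vale.Agent.P151.Cn.refl _ _, Vale.Agent.P151.Cn.refl _ _⟩ ((hQ v).1 hv)
      rintro a ⟨ha1, ha2⟩ b hab
      have hb2 : Cn T x b := ha2.trans (Vale.Agent.P151.Cn_of_mem hab)
      refine ⟨ha1.trans (Vale.Agent.P151.Cn_of_mem ?_), hb2⟩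
      have haQ := (hQ a).2 ha2
      have hbQ := (hQ b).2 hb2
      rw [mem_inter, mem_inE]
      have hin : ∀ w ∈ s(a, b), w ∈ Q := by
        intro w hw
        rcases Sym2.mem_iff.1 hw with rfl | rfl
        · exact haQ
        · exact hbQ
      have hmem : s(a, b) ∈ S1 ∪ Ra ∧ s(a, b) ∈ Λ := by
        rw [hT, mem_union, mem_union, mem_union] at hab
        rcases hab with (h1 | h2) | (h3 | h4)
        · exact ⟨mem_union_left _ h1, (mem_sdiff.1 (hS1 h1)).1⟩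
        · exact absurd haQ ((mem_offE.1 (hS2 h2)).2 a (Sym2.mem_mk_left a b))
        · exact ⟨mem_union_right _ h3, (mem_sdiff.1 (hRa h3)).1⟩
        · exact absurd (hRb h4) (hbd _ (by
            rw [hT]
            exact mem_union_right _ (mem_union_right _ h4)))
      exact ⟨hmem.1, hmem.2, hin⟩
    exact key.1
  · refine Finset.eq_empty_of_forall_notMem (fun e he => ?_)
    exact hbd e (mem_union_right _ (mem_union_right _ he)) (hRb he)
  · refine Finset.eq_empty_of_forall_notMem (fun z hz => ?_)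
    exact hA z (mem_union_left _ hz) (hA1 hz)

lemma Dstar_of {Λ : Finset (Sym2 V)} {Q : Finset V} {x : V} {S1 S2 Ra Rb : Finset (Sym2 V)}
    {A2 : Finset V} (hS2 : S2 ⊆ offE Λ (Q : Set V)) (hS1 : S1 ⊆ Λ)
    (hRa : Ra ⊆ Λ \ bdE Λ Q) (hRb : Rb ⊆ bdE Λ Q) (hA2 : ∀ z ∈ A2, z ∉ Q)
    (hW : Win Λ Q x S1 Ra) (hg : ∀ e ∈ Rb, GoodE Q S2 A2 e) :
    cl (star (S1 ∪ S2) (Ra ∪ Rb) A2) x = Q ∧ ¬ Gh A2 x (S1 ∪ S2) := by
  obtain ⟨hW1, hW2, hxQ⟩ := hW
  have hSbd : ∀ e ∈ S1 ∪ S2, e ∉ bdE Λ Q := by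
    intro e he
    rcases mem_union.1 he with h | h
    · exact hW1 e h
    · intro hb
      obtain ⟨_, ⟨u, hu, huQ⟩, _⟩ := mem_bdE.1 hb
      exact (mem_offE.1 (hS2 h)).2 u hu huQ
  have hSΛ : S1 ∪ S2 ⊆ Λ := union_subset hS1 (hS2.trans (offE_subset _ _))
  have hgf : ∀ w ∈ Q, ¬ Gh A2 w (S1 ∪ S2) := by
    rintro w hw ⟨z, hz, hwz⟩
    have : z ∈ (Q : Set V) := by
      refine Vale.Agent.P151.Cn_closed (S := S1 ∪ S2) (A := (Q : Set V)) ?_ (mem_coe.2 hw) hwz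
      intro a ha b hab
      by_contra hb
      exact hSbd _ hab (mem_bdE.2 ⟨hSΛ hab, ⟨a, Sym2.mem_mk_left a b, ha⟩, b,
        Sym2.mem_mk_right a b, hb⟩)
    exact hA2 z hz this
  refine ⟨?_, hgf x hxQ⟩
  ext v
  rw [Vale.Agent.P151.mem_cl]
  constructor
  · intro hv
    have : v ∈ (Q : Set V) := by
      refine Vale.Agent.P151.Cn_closed (S := star (S1 ∪ S2) (Ra ∪ Rb) A2) (A := (Q : Set V)) ?_
        (mem_coe.2 hxQ) hv
      intro a ha b hab
      by_contra hb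
      rw [mem_star] at hab
      obtain ⟨hab1, hab2⟩ := hab
      rcases mem_union.1 hab1 with h | h
      · exact hSbd _ h (mem_bdE.2 ⟨hSΛ h, ⟨a, Sym2.mem_mk_left a b, ha⟩, b,
          Sym2.mem_mk_right a b, hb⟩)
      · rcases mem_union.1 h with h | h
        · refine (mem_sdiff.1 (hRa h)).2 (mem_bdE.2 ⟨(mem_sdiff.1 (hRa h)).1,
            ⟨a, Sym2.mem_mk_left a b, ha⟩, b, Sym2.mem_mk_right a b, hb⟩)
        · have h2 := hg _ h b (Sym2.mem_mk_right a b) hb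
          exact hab2 b (Sym2.mem_mk_right a b) (h2.mono subset_union_right)
    exact mem_coe.1 this
  · intro hv
    refine (hW2 v hv).mono ?_
    intro e he
    rw [mem_inter, mem_inE] at he
    obtain ⟨he1, _, he3⟩ := he
    rw [mem_star]
    refine ⟨?_, fun w hw => hgf w (he3 w hw)⟩
    rcases mem_union.1 he1 with h | h
    · exact mem_union_left _ (mem_union_left _ h)
    · exact mem_union_right _ (mem_union_left _ h)

end Vale.Agent.P165.H199
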