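import Vale.Agent.P165.H199.CoreFin

/-!
Sprinkling and Jensen: the proof of `CoreFin`, second half.
-/

open Finset

set_option linter.unusedSectionVars false

namespace Vale.Agent.P165.H199

open Vale.Agent.P151 (Ex Cn cl csz edgesIn EV con tau)
open Vale.Agent.P165 Vale.Agent.P165.LF

lemma Ex_split2 {ι : Type*} [DecidableEq ι] (h : ℝ) {U C : Finset ι} (hC : C ⊆ U)
    (Ψ : Finset ι → ℝ) :
    Ex h U Ψ = Ex h (U \ C) (fun S => Ex h C (fun T => Ψ (S ∪ T))) := by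
  rw [← Vale.Agent.P151.Ex_union h Finset.sdiff_disjoint, Finset.sdiff_union_of_subset hC]

lemma Ex_split3 {ι : Type*} [DecidableEq ι] (h : ℝ) {U C : Finset ι} (hC : C ⊆ U)
    (Ψ : Finset ι → ℝ) :
    Ex h U Ψ = Ex h C (fun S => Ex h (U \ C) (fun T => Ψ (S ∪ T))) := by
  rw [← Vale.Agent.P151.Ex_union h Finset.disjoint_sdiff, Finset.union_sdiff_of_subset hC]

open Classical in
lemma pow_bad_ge {ι : Type*} {s m g : ℝ} (s0 : 0 ≤ s) (s1 : s ≤ 1) (B : Finset ι)
    (P : ι → Prop) (hg : g ≤ ((B.filter P).card : ℝ)) :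
    (1 - s) ^ B.card * (Real.exp (s * m) * (1 + s * (g - m))) ≤
      (1 - s) ^ (B.filter (fun e => ¬ P e)).card := by
  set a := (B.filter P).card with ha
  set b := (B.filter (fun e => ¬ P e)).card with hb
  have hab : B.card = a + b := (Finset.card_filter_add_card_filter_not P).symm
  have hs : 0 ≤ 1 - s := sub_nonneg.2 s1
  have e1 : Real.exp (s * m) * (1 + s * (g - m)) ≤ Real.exp (s * a) := by
    calc Real.exp (s * m) * (1 + s * (g - m)) ≤ Real.exp (s * m) * Real.exp (s * (g - m)) := by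
          refine mul_le_mul_of_nonneg_left ?_ (Real.exp_nonneg _)
          have := Real.add_one_le_exp (s * (g - m))
          linarith only [this]
      _ = Real.exp (s * g) := by
          rw [← Real.exp_add]
          congr 1
          ring
      _ ≤ Real.exp (s * a) := Real.exp_le_exp.2 (mul_le_mul_of_nonneg_left hg s0)
  have e2 : (1 - s) ^ a ≤ Real.exp (-(s * a)) := by
    have h1 : 1 - s ≤ Real.exp (-s) := by
      have := Real.add_one_le_exp (-s)
      linarith only [this]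
    calc (1 - s) ^ a ≤ Real.exp (-s) ^ a := pow_le_pow_left₀ hs h1 a
      _ = Real.exp (-(s * a)) := by
          rw [← Real.exp_nat_mul]
          congr 1
          ring
  calc (1 - s) ^ B.card * (Real.exp (s * m) * (1 + s * (g - m)))
      ≤ (1 - s) ^ B.card * Real.exp (s * a) := mul_le_mul_of_nonneg_left e1 (pow_nonneg hs _)
    _ = (1 - s) ^ b * ((1 - s) ^ a * Real.exp (s * a)) := by
        rw [hab, pow_add]
        ring
    _ ≤ (1 - s) ^ b * (Real.exp (-(s * a)) * Real.exp (s * a)) :=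
        mul_le_mul_of_nonneg_left (mul_le_mul_of_nonneg_right e2 (Real.exp_nonneg _))
          (pow_nonneg hs _)
    _ = (1 - s) ^ b := by rw [← Real.exp_add, neg_add_cancel, Real.exp_zero, mul_one]

variable {V : Type} [DecidableEq V]

/-- Ghosts, percolation at `p`, sprinkling `s`. -/
noncomputable def EE (t p s : ℝ) (F : Finset V) (Λ : Finset (Sym2 V))
    (Φ : Finset V → Finset (Sym2 V) → Finset (Sym2 V) → ℝ) : ℝ :=
  Ex (1 - t) F (fun A => Ex p Λ (fun S => Ex s Λ (fun R => Φ A S R)))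

lemma EE_split (t p s : ℝ) {F Q : Finset V} (hQ : Q ⊆ F) {Λ O B : Finset (Sym2 V)}
    (hO : O ⊆ Λ) (hB : B ⊆ Λ) (Φ : Finset V → Finset (Sym2 V) → Finset (Sym2 V) → ℝ) :
    EE t p s F Λ Φ = Ex (1 - t) Q (fun A1 => Ex (1 - t) (F \ Q) (fun A2 =>
      Ex p (Λ \ O) (fun S1 => Ex p O (fun S2 => Ex s (Λ \ B) (fun Ra => Ex s B (fun Rb =>
        Φ (A1 ∪ A2) (S1 ∪ S2) (Ra ∪ Rb))))))) := by
  unfold EE
  rw [Ex_split3 (1 - t) hQ]
  refine Vale.Agent.P151.Ex_congr _ (fun A1 _ => Vale.Agent.P151.Ex_congr _ (fun A2 _ => ?_))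
  rw [Ex_split2 p hO]
  refine Vale.Agent.P151.Ex_congr _ (fun S1 _ => Vale.Agent.P151.Ex_congr _ (fun S2 _ => ?_))
  rw [Ex_split2 s hB]

/-- The internal weight. -/
noncomputable def winW (p s : ℝ) (Λ : Finset (Sym2 V)) (Q : Finset V) (x : V) : ℝ :=
  Ex p (Λ \ offE Λ (Q : Set V)) (fun S1 => Ex s (Λ \ bdE Λ Q) (fun Ra => ind (Win Λ Q x S1 Ra)))

lemma bdE_subset (Λ : Finset (Sym2 V)) (Q : Finset V) : bdE Λ Q ⊆ Λ := fun _ he =>
  (mem_bdE.1 he).1

lemma upD {t p s : ℝ} (h0 : 0 ≤ p) (h1 : p ≤ 1) (s0 : 0 ≤ s) (s1 : s ≤ 1) (t0 : 0 ≤ t)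
    (t1 : t ≤ 1) {F Q : Finset V} (hQ : Q ⊆ F) (Λ : Finset (Sym2 V)) (x : V) :
    EE t p s F Λ (fun A S R => ind (cl (S ∪ R) x = Q ∧ ∀ z ∈ A, z ∉ Q)) ≤
      winW p s Λ Q x * (1 - s) ^ (bdE Λ Q).card * t ^ Q.card := by
  have k0 : 0 ≤ 1 - t := sub_nonneg.2 t1
  have k1 : 1 - t ≤ 1 := by linarith only [t0]
  rw [EE_split t p s hQ (offE_subset Λ (Q : Set V)) (bdE_subset Λ Q)]
  calc _ ≤ Ex (1 - t) Q (fun A1 => Ex (1 - t) (F \ Q) (fun _ =>
      Ex p (Λ \ offE Λ (Q : Set V)) (fun S1 => Ex p (offE Λ (Q : Set V)) (fun _ =>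
        Ex s (Λ \ bdE Λ Q) (fun Ra => Ex s (bdE Λ Q) (fun Rb =>
        ind (Win Λ Q x S1 Ra) * ind (Rb = ∅) * ind (A1 = ∅))))))) := by
        refine Vale.Agent.P151.Ex_mono k0 k1 (fun A1 hA1 =>
          Vale.Agent.P151.Ex_mono k0 k1 (fun A2 hA2 =>
          Vale.Agent.P151.Ex_mono h0 h1 (fun S1 hS1 =>
          Vale.Agent.P151.Ex_mono h0 h1 (fun S2 hS2 =>
          Vale.Agent.P151.Ex_mono s0 s1 (fun Ra hRa =>
          Vale.Agent.P151.Ex_mono s0 s1 (fun Rb hRb => ?_))))))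
        rw [← ind_and, ← ind_and]
        refine ind_mono (fun h => ?_)
        obtain ⟨a, b, c⟩ := D_imp hS1 hS2 hRa hRb hA1 h
        exact ⟨⟨a, b⟩, c⟩
    _ = _ := by
        simp only [Vale.Agent.P151.Ex_mul_const, Vale.Agent.P151.Ex_const_mul,
          Vale.Agent.P151.Ex_const, ExG_empty, sub_sub_cancel]
        rfl

lemma good_ge (G : SimpleGraph V) (F Q A : Finset V) (S : Finset (Sym2 V)) :
    open Classical in
    ∑ v ∈ outer G F Q, ind (Gh A v S) ≤
      (((bdE (edgesIn G F) Q).filter (GoodE Q S A)).card : ℝ) := by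
  classical
  have e : ∑ v ∈ outer G F Q, ind (Gh A v S) =
      (((outer G F Q).filter (fun v => Gh A v S)).card : ℝ) := by
    rw [← Finset.sum_boole]
    refine Finset.sum_congr rfl (fun v _ => ?_)
    by_cases h : Gh A v S
    · rw [ind_true h, if_pos h]
    · rw [ind_false h, if_neg h]
  rw [e]
  refine Nat.cast_le.2 (Finset.card_le_card_of_forall_subsingleton (fun v e => v ∈ e) ?_ ?_)
  · intro v hv
    rw [mem_filter] at hv
    obtain ⟨hv1, hv2⟩ := hv
    unfold outer at hv1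
    rw [mem_filter] at hv1
    obtain ⟨hvF, hvQ, u, huQ, huv, huF⟩ := hv1
    refine ⟨s(u, v), ?_, Sym2.mem_mk_right u v⟩
    rw [mem_filter, mem_bdE]
    refine ⟨⟨Vale.Agent.P151.mk_mem_edgesIn.2 ⟨huv, huF, hvF⟩, ⟨u, Sym2.mem_mk_left u v, huQ⟩, v,
      Sym2.mem_mk_right u v, hvQ⟩, ?_⟩
    intro w hw hwQ
    rcases Sym2.mem_iff.1 hw with rfl | rfl
    · exact absurd huQ hwQ
    · exact hv2
  · intro e he v hv v' hv'
    rw [mem_filter, mem_bdE] at he
    obtain ⟨⟨_, ⟨u, hu, huQ⟩, _⟩, _⟩ := he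
    have q : ∀ w, w ∈ (outer G F Q).filter (fun v => Gh A v S) → w ∉ Q := by
      intro w hw
      rw [mem_filter] at hw
      have := hw.1
      unfold outer at this
      rw [mem_filter] at this
      exact this.2.1
    have n1 : u ≠ v := fun h => q v hv.1 (h ▸ huQ)
    have n2 : u ≠ v' := fun h => q v' hv'.1 (h ▸ huQ)
    have h1 := (Sym2.mem_and_mem_iff n1).1 ⟨hu, hv.2⟩
    have h2 := (Sym2.mem_and_mem_iff n2).1 ⟨hu, hv'.2⟩
    rw [h1] at h2
    exact Sym2.congr_right.1 h2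

lemma cl_off {G : SimpleGraph V} {F Q : Finset V} {S : Finset (Sym2 V)}
    (hS : S ⊆ offE (edgesIn G F) (Q : Set V)) {v : V} (hv : v ∈ F \ Q) : cl S v ⊆ F \ Q := by
  intro y hy
  rw [Vale.Agent.P151.mem_cl] at hy
  refine mem_coe.1 (Vale.Agent.P151.Cn_closed (S := S) (A := ((F \ Q : Finset V) : Set V)) ?_
    (mem_coe.2 hv) hy)
  intro a _ b hab
  have h := mem_offE.1 (hS hab)
  exact mem_coe.2 (mem_sdiff.2 ⟨(Vale.Agent.P151.mem_edgesIn.1 h.1).2 b (Sym2.mem_mk_right a b),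
    fun hb => h.2 b (Sym2.mem_mk_right a b) (mem_coe.2 hb)⟩)

lemma outer_sub {G : SimpleGraph V} {F Q : Finset V} {v : V} (hv : v ∈ outer G F Q) :
    v ∈ F \ Q := by
  classical
  unfold outer at hv
  rw [mem_filter] at hv
  exact mem_sdiff.2 ⟨hv.1, hv.2.1⟩

lemma EE_J (G : SimpleGraph V) (t p s m : ℝ) (F Q : Finset V) :
    Ex (1 - t) (F \ Q) (fun A => Ex p (offE (edgesIn G F) (Q : Set V)) (fun S =>
      1 + s * (∑ v ∈ outer G F Q, ind (Gh A v S) - m))) = 1 + s * (esc G p t F Q - m) := by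
  have key : ∀ v ∈ outer G F Q, Ex (1 - t) (F \ Q) (fun A =>
      Ex p (offE (edgesIn G F) (Q : Set V)) (fun S => ind (Gh A v S))) =
      Ex p (edgesIn G F) (fun S => 1 - t ^ csz (S ∩ offE (edgesIn G F) (Q : Set V)) v) := by
    intro v hv
    rw [Vale.Agent.P151.Ex_comm, Ex_offE p (edgesIn G F) (Q : Set V)
      (fun S => 1 - t ^ csz S v)]
    exact Vale.Agent.P151.Ex_congr p (fun S hS => Ex_Gh t (cl_off hS (outer_sub hv)))
  unfold esc
  rw [← Finset.sum_congr rfl key]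
  simp only [Vale.Agent.P151.Ex_add, Vale.Agent.P151.Ex_const, Vale.Agent.P151.Ex_const_mul,
    Vale.Agent.P151.Ex_sub, Vale.Agent.P151.Ex_sum]

lemma lowD (G : SimpleGraph V) {t p s m : ℝ} (h0 : 0 ≤ p) (h1 : p ≤ 1) (s0 : 0 ≤ s)
    (s1 : s ≤ 1) (t0 : 0 ≤ t) (t1 : t ≤ 1) {F Q : Finset V} (hQ : Q ⊆ F) (x : V)
    (hm : m ≤ esc G p t F Q) :
    winW p s (edgesIn G F) Q x * ((1 - s) ^ (bdE (edgesIn G F) Q).card * Real.exp (s * m)) *
      t ^ Q.card ≤
    EE t p s F (edgesIn G F) (fun A S R => ind (cl (star S R A) x = Q)) := by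
  classical
  have k0 : 0 ≤ 1 - t := sub_nonneg.2 t1
  have k1 : 1 - t ≤ 1 := by linarith only [t0]
  set Λ := edgesIn G F with hΛ
  have hs : 0 ≤ 1 - s := sub_nonneg.2 s1
  rw [EE_split t p s hQ (offE_subset Λ (Q : Set V)) (bdE_subset Λ Q)]
  set K := (1 - s) ^ (bdE Λ Q).card * Real.exp (s * m) with hK
  have hK0 : 0 ≤ K := mul_nonneg (pow_nonneg hs _) (Real.exp_nonneg _)
  have hw : 0 ≤ winW p s Λ Q x := Vale.Agent.P151.Ex_nonneg h0 h1 (fun _ _ =>
    Vale.Agent.P151.Ex_nonneg s0 s1 (fun _ _ => ind_nonneg _))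
  calc winW p s Λ Q x * K * t ^ Q.card
      ≤ winW p s Λ Q x * (K * (1 + s * (esc G p t F Q - m))) * t ^ Q.card := by
        refine mul_le_mul_of_nonneg_right (mul_le_mul_of_nonneg_left ?_ hw) (pow_nonneg t0 _)
        refine le_mul_of_one_le_right hK0 ?_
        have := mul_nonneg s0 (sub_nonneg.2 hm)
        linarith only [this]
    _ = Ex (1 - t) Q (fun A1 => Ex (1 - t) (F \ Q) (fun A2 =>
      Ex p (Λ \ offE Λ (Q : Set V)) (fun S1 => Ex p (offE Λ (Q : Set V)) (fun S2 =>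
        Ex s (Λ \ bdE Λ Q) (fun Ra =>
        ind (Win Λ Q x S1 Ra) * (K * (1 + s * (∑ v ∈ outer G F Q, ind (Gh A2 v S2) - m))) *
          ind (A1 = ∅)))))) := by
        rw [← EE_J G t p s m F Q]
        simp only [Vale.Agent.P151.Ex_mul_const, Vale.Agent.P151.Ex_const_mul,
          ExG_empty, sub_sub_cancel]
        rfl
    _ ≤ _ := by
        refine Vale.Agent.P151.Ex_mono k0 k1 (fun A1 hA1 =>
          Vale.Agent.P151.Ex_mono k0 k1 (fun A2 hA2 =>
          Vale.Agent.P151.Ex_mono h0 h1 (fun S1 hS1 =>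
          Vale.Agent.P151.Ex_mono h0 h1 (fun S2 hS2 =>
          Vale.Agent.P151.Ex_mono s0 s1 (fun Ra hRa => ?_)))))
        have e1 : Ex s (bdE Λ Q) (fun Rb => ind (Win Λ Q x S1 Ra) *
            ind (∀ e ∈ Rb, GoodE Q S2 A2 e) * ind (A1 = ∅)) =
            ind (Win Λ Q x S1 Ra) * (1 - s) ^ ((bdE Λ Q).filter
              (fun e => ¬ GoodE Q S2 A2 e)).card * ind (A1 = ∅) := by
          rw [Vale.Agent.P151.Ex_mul_const, Vale.Agent.P151.Ex_const_mul,
            ← ExG_avoid s (Finset.filter_subset (fun e => ¬ GoodE Q S2 A2 e) (bdE Λ Q))]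
          congr 2
          refine Vale.Agent.P151.Ex_congr s (fun Rb hRb => ind_congr ?_)
          constructor
          · intro H e he hc
            exact (mem_filter.1 hc).2 (H e he)
          · intro H e he
            by_contra hc
            exact H e he (mem_filter.2 ⟨hRb he, hc⟩)
        calc ind (Win Λ Q x S1 Ra) * (K * (1 + s * (∑ v ∈ outer G F Q, ind (Gh A2 v S2) - m))) *
              ind (A1 = ∅)
            ≤ ind (Win Λ Q x S1 Ra) * (1 - s) ^ ((bdE Λ Q).filter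
              (fun e => ¬ GoodE Q S2 A2 e)).card * ind (A1 = ∅) := by
              refine mul_le_mul_of_nonneg_right (mul_le_mul_of_nonneg_left ?_ (ind_nonneg _))
                (ind_nonneg _)
              rw [hK, mul_assoc]
              exact pow_bad_ge s0 s1 (bdE Λ Q) (GoodE Q S2 A2) (good_ge G F Q A2 S2)
          _ = Ex s (bdE Λ Q) (fun Rb => ind (Win Λ Q x S1 Ra) *
            ind (∀ e ∈ Rb, GoodE Q S2 A2 e) * ind (A1 = ∅)) := e1.symm
          _ ≤ _ := by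
              refine Vale.Agent.P151.Ex_mono s0 s1 (fun Rb hRb => ?_)
              rw [← ind_and, ← ind_and]
              refine ind_mono ?_
              rintro ⟨⟨hW, hg⟩, rfl⟩
              rw [empty_union]
              exact (Dstar_of hS2 (hS1.trans sdiff_subset) hRa hRb
                (fun z hz => (mem_sdiff.1 (hA2 hz)).2) hW hg).1

lemma EE_mono {t p s : ℝ} (h0 : 0 ≤ p) (h1 : p ≤ 1) (s0 : 0 ≤ s) (s1 : s ≤ 1) (t0 : 0 ≤ t)
    (t1 : t ≤ 1) {F : Finset V} {Λ : Finset (Sym2 V)}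
    {Φ Φ' : Finset V → Finset (Sym2 V) → Finset (Sym2 V) → ℝ}
    (h : ∀ A ⊆ F, ∀ S ⊆ Λ, ∀ R ⊆ Λ, Φ A S R ≤ Φ' A S R) :
    EE t p s F Λ Φ ≤ EE t p s F Λ Φ' :=
  Vale.Agent.P151.Ex_mono (sub_nonneg.2 t1) (by linarith only [t0]) (fun A hA =>
    Vale.Agent.P151.Ex_mono h0 h1 (fun S hS =>
    Vale.Agent.P151.Ex_mono s0 s1 (fun R hR => h A hA S hS R hR)))

lemma EE_sum (t p s : ℝ) (F : Finset V) (Λ : Finset (Sym2 V)) {κ : Type*} (𝒬 : Finset κ)
    (Φ : κ → Finset V → Finset (Sym2 V) → Finset (Sym2 V) → ℝ) :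
    EE t p s F Λ (fun A S R => ∑ k ∈ 𝒬, Φ k A S R) = ∑ k ∈ 𝒬, EE t p s F Λ (Φ k) := by
  unfold EE
  simp only [Vale.Agent.P151.Ex_sum]

theorem coreFin : CoreFin V := by
  classical
  intro G p q s t κ h0 h1 s0 s1 hq t0' t1' κ0 F x n L hx hesc
  have t0 := t0'.le
  have t1 := t1'.le
  set Λ := edgesIn G F with hΛ
  set 𝒬 : Finset (Finset V) := F.powerset.filter (fun Q => n ≤ Q.card ∧ Q.card ≤ L) with h𝒬
  -- the left side
  have e1 : Ex q Λ (fun S => ind (n ≤ csz S x ∧ csz S x ≤ L) * t ^ csz S x) =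
      EE t p s F Λ (fun A S R => ind (n ≤ csz (S ∪ R) x ∧ csz (S ∪ R) x ≤ L) *
        ind (∀ z ∈ A, z ∉ cl (S ∪ R) x)) := by
    unfold EE
    rw [Vale.Agent.P151.Ex_superpose hq, Vale.Agent.P151.Ex_comm (1 - t) p F Λ]
    refine Vale.Agent.P151.Ex_congr p (fun S hS => ?_)
    rw [Vale.Agent.P151.Ex_comm (1 - t) s F Λ]
    refine Vale.Agent.P151.Ex_congr s (fun R hR => ?_)
    rw [Vale.Agent.P151.Ex_const_mul, Ex_avoid (1 - t)
      (cl_subset_of (Finset.Subset.refl F) (union_subset hS hR) hx), sub_sub_cancel]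
    rfl
  have e2 : EE t p s F Λ (fun A S R => ind (n ≤ csz (S ∪ R) x ∧ csz (S ∪ R) x ≤ L) *
        ind (∀ z ∈ A, z ∉ cl (S ∪ R) x)) ≤
      ∑ Q ∈ 𝒬, EE t p s F Λ (fun A S R => ind (cl (S ∪ R) x = Q ∧ ∀ z ∈ A, z ∉ Q)) := by
    rw [← EE_sum]
    refine EE_mono h0 h1 s0 s1 t0 t1 (fun A hA S hS R hR => ?_)
    rw [← ind_and]
    by_cases h : (n ≤ csz (S ∪ R) x ∧ csz (S ∪ R) x ≤ L) ∧ ∀ z ∈ A, z ∉ cl (S ∪ R) x
    · rw [ind_true h]
      have hmem : cl (S ∪ R) x ∈ 𝒬 := by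
        rw [h𝒬, mem_filter, mem_powerset]
        exact ⟨cl_subset_of (Finset.Subset.refl F) (union_subset hS hR) hx, h.1⟩
      refine le_trans (le_of_eq (ind_true ?_).symm) (Finset.single_le_sum
        (f := fun Q => ind (cl (S ∪ R) x = Q ∧ ∀ z ∈ A, z ∉ Q)) (fun _ _ => ind_nonneg _) hmem)
      exact ⟨rfl, h.2⟩
    · rw [ind_false h]
      exact Finset.sum_nonneg (fun _ _ => ind_nonneg _)
  -- each value of the cluster
  have e3 : ∀ Q ∈ 𝒬, EE t p s F Λ (fun A S R => ind (cl (S ∪ R) x = Q ∧ ∀ z ∈ A, z ∉ Q)) ≤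
      Real.exp (-(s * κ * n)) * EE t p s F Λ (fun A S R => ind (cl (star S R A) x = Q)) := by
    intro Q hQ
    rw [h𝒬, mem_filter, mem_powerset] at hQ
    obtain ⟨hQF, hQn, hQL⟩ := hQ
    by_cases hS : ∃ S ⊆ Λ, cl S x = Q
    · obtain ⟨S, hSΛ, hSQ⟩ := hS
      have hc : csz S x = Q.card := by rw [← hSQ]; rfl
      have hm : κ * Q.card ≤ esc G p t F Q := by
        have := hesc S hSΛ (by rw [hc]; exact hQn) (by rw [hc]; exact hQL)
        rwa [hc, hSQ] at this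
      have a1 := upD h0 h1 s0 s1 t0 t1 hQF Λ x
      have a2 := lowD G h0 h1 s0 s1 t0 t1 hQF x hm
      rw [← hΛ] at a2
      refine a1.trans ?_
      have a3 : winW p s Λ Q x * (1 - s) ^ (bdE Λ Q).card * t ^ Q.card =
          Real.exp (-(s * (κ * Q.card))) * (winW p s Λ Q x * ((1 - s) ^ (bdE Λ Q).card *
            Real.exp (s * (κ * Q.card))) * t ^ Q.card) := by
        have : Real.exp (-(s * (κ * Q.card))) * Real.exp (s * (κ * Q.card)) = 1 := by
          rw [← Real.exp_add, neg_add_cancel, Real.exp_zero]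
        calc winW p s Λ Q x * (1 - s) ^ (bdE Λ Q).card * t ^ Q.card
            = (Real.exp (-(s * (κ * Q.card))) * Real.exp (s * (κ * Q.card))) *
              (winW p s Λ Q x * (1 - s) ^ (bdE Λ Q).card * t ^ Q.card) := by rw [this, one_mul]
          _ = _ := by ring
      rw [a3]
      have a4 : 0 ≤ EE t p s F Λ (fun A S R => ind (cl (star S R A) x = Q)) :=
        Vale.Agent.P151.Ex_nonneg (sub_nonneg.2 t1) (by linarith only [t0]) (fun _ _ =>
          Vale.Agent.P151.Ex_nonneg h0 h1 (fun _ _ =>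
          Vale.Agent.P151.Ex_nonneg s0 s1 (fun _ _ => ind_nonneg _)))
      refine (mul_le_mul_of_nonneg_left a2 (Real.exp_nonneg _)).trans
        (mul_le_mul_of_nonneg_right (Real.exp_le_exp.2 (neg_le_neg ?_)) a4)
      rw [mul_assoc]
      refine mul_le_mul_of_nonneg_left (mul_le_mul_of_nonneg_left ?_ κ0.le) s0
      exact Nat.cast_le.2 hQn
    · have z : EE t p s F Λ (fun A S R => ind (cl (S ∪ R) x = Q ∧ ∀ z ∈ A, z ∉ Q)) ≤ 0 := by
        refine (EE_mono h0 h1 s0 s1 t0 t1 (Φ' := fun _ _ _ => 0) (fun A hA S hS' R hR => ?_)).trans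
          (le_of_eq ?_)
        · rw [ind_false]
          rintro ⟨h, _⟩
          exact hS ⟨S ∪ R, union_subset hS' hR, h⟩
        · unfold EE
          simp only [Vale.Agent.P151.Ex_const]
      refine z.trans (mul_nonneg (Real.exp_nonneg _) ?_)
      exact Vale.Agent.P151.Ex_nonneg (sub_nonneg.2 t1) (by linarith only [t0]) (fun _ _ =>
          Vale.Agent.P151.Ex_nonneg h0 h1 (fun _ _ =>
          Vale.Agent.P151.Ex_nonneg s0 s1 (fun _ _ => ind_nonneg _)))
  -- the right side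
  have e4 : ∑ Q ∈ 𝒬, EE t p s F Λ (fun A S R => ind (cl (star S R A) x = Q)) ≤
      Ex q Λ (fun S => ind (n ≤ csz S x)) := by
    rw [← EE_sum]
    have : Ex q Λ (fun S => ind (n ≤ csz S x)) =
        EE t p s F Λ (fun _ S R => ind (n ≤ csz (S ∪ R) x)) := by
      unfold EE
      rw [Vale.Agent.P151.Ex_superpose hq, Vale.Agent.P151.Ex_const]
    rw [this]
    refine EE_mono h0 h1 s0 s1 t0 t1 (fun A hA S hS R hR => ?_)
    by_cases h : n ≤ csz (S ∪ R) x
    · rw [ind_true h]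
      calc ∑ Q ∈ 𝒬, ind (cl (star S R A) x = Q)
          ≤ ∑ Q ∈ insert (cl (star S R A) x) 𝒬, ind (cl (star S R A) x = Q) :=
            Finset.sum_le_sum_of_subset_of_nonneg (Finset.subset_insert _ _)
              (fun _ _ _ => ind_nonneg _)
        _ = ind (cl (star S R A) x = cl (star S R A) x) :=
            Finset.sum_eq_single_of_mem _ (Finset.mem_insert_self _ _)
              (fun Q _ hne => ind_false (fun h => hne h.symm))
        _ = 1 := ind_true rfl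
    · rw [ind_false h]
      refine le_of_eq (Finset.sum_eq_zero (fun Q hQ => ind_false (fun hc => h ?_)))
      rw [h𝒬, mem_filter] at hQ
      rw [← hc] at hQ
      refine hQ.2.1.trans (Finset.card_le_card ?_)
      intro y hy
      rw [Vale.Agent.P151.mem_cl] at hy ⊢
      exact hy.mono (fun e he => (mem_star.1 he).1)
  rw [e1]
  refine e2.trans ((Finset.sum_le_sum e3).trans ?_)
  rw [← Finset.mul_sum]
  exact mul_le_mul_of_nonneg_left e4 (Real.exp_nonneg _)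

end Vale.Agent.P165.H199
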