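import Vale.Agent.P165.H199.Mom

/-!
Abstract exploration, and the exploration of intrinsic balls.
-/

open Finset

set_option linter.unusedSectionVars false

namespace Vale.Agent.P165.H199

open Vale.Agent.P151 (Ex Cn cl csz edgesIn EV con tau)
open Vale.Agent.P165 Vale.Agent.P165.LF

variable {V : Type} [DecidableEq V]

/-- Abstract exploration: `Z S` is the explored information, `Q z` the explored region. -/
theorem explore_gen {ζ : Type} (p : ℝ) (Λ : Finset (Sym2 V)) (Z : Finset (Sym2 V) → ζ)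
    (Q : ζ → Set V)
    (hZ : ∀ z, ∀ S1 ⊆ Λ, ∀ S2 ⊆ offE Λ (Q z), Z (S1 ∪ S2) = z ↔ Z S1 = z)
    (Φ : ζ → Finset (Sym2 V) → ℝ) :
    Ex p Λ (fun S => Φ (Z S) (S ∩ offE Λ (Q (Z S)))) =
      Ex p Λ (fun S => Ex p Λ (fun T => Φ (Z S) (T ∩ offE Λ (Q (Z S))))) := by
  classical
  have hval : ∀ (g : ζ → ℝ) {S : Finset (Sym2 V)}, S ⊆ Λ →
      g (Z S) = ∑ z ∈ Λ.powerset.image Z, ind (Z S = z) * g z := by
    intro g S hS
    rw [Finset.sum_eq_single (Z S)]
    · rw [ind_true rfl, one_mul]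
    · intro z _ hz
      rw [ind_false (fun h => hz h.symm), zero_mul]
    · intro h
      exact absurd (Finset.mem_image_of_mem Z (Finset.mem_powerset.2 hS)) h
  have hsplit : ∀ (z : ζ) (Ψ : Finset (Sym2 V) → ℝ),
      Ex p Λ (fun S => ind (Z S = z) * Ψ (S ∩ offE Λ (Q z))) =
        Ex p (Λ \ offE Λ (Q z)) (fun S => ind (Z S = z)) * Ex p (offE Λ (Q z)) Ψ := by
    intro z Ψ
    have hΛ : Λ = (Λ \ offE Λ (Q z)) ∪ offE Λ (Q z) := by
      rw [Finset.sdiff_union_of_subset (offE_subset Λ (Q z))]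
    have hd : Disjoint (Λ \ offE Λ (Q z)) (offE Λ (Q z)) := Finset.sdiff_disjoint
    have h1 : Ex p Λ (fun S => ind (Z S = z) * Ψ (S ∩ offE Λ (Q z))) =
        Ex p ((Λ \ offE Λ (Q z)) ∪ offE Λ (Q z))
          (fun S => ind (Z S = z) * Ψ (S ∩ offE Λ (Q z))) := by
      rw [← hΛ]
    rw [h1, Vale.Agent.P151.Ex_union p hd]
    rw [← Vale.Agent.P151.Ex_mul_const]
    apply Vale.Agent.P151.Ex_congr
    intro S1 hS1
    rw [← Vale.Agent.P151.Ex_const_mul]
    apply Vale.Agent.P151.Ex_congr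
    intro S2 hS2
    have h3 : (S1 ∪ S2) ∩ offE Λ (Q z) = S2 := by
      rw [Finset.union_inter_distrib_right, Finset.inter_eq_left.2 hS2]
      have : S1 ∩ offE Λ (Q z) = ∅ := by
        rw [← Finset.disjoint_iff_inter_eq_empty]
        exact Finset.disjoint_of_subset_left hS1 hd
      rw [this, Finset.empty_union]
    rw [h3, ind_congr (hZ z S1 (hS1.trans sdiff_subset) S2 hS2)]
  have hL : Ex p Λ (fun S => Φ (Z S) (S ∩ offE Λ (Q (Z S)))) =
      Ex p Λ (fun S => ∑ z ∈ Λ.powerset.image Z, ind (Z S = z) * Φ z (S ∩ offE Λ (Q z))) := by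
    apply Vale.Agent.P151.Ex_congr
    intro S hS
    exact hval (fun z => Φ z (S ∩ offE Λ (Q z))) hS
  have hR : Ex p Λ (fun S => Ex p Λ (fun T => Φ (Z S) (T ∩ offE Λ (Q (Z S))))) =
      Ex p Λ (fun S => ∑ z ∈ Λ.powerset.image Z,
        ind (Z S = z) * Ex p Λ (fun T => Φ z (T ∩ offE Λ (Q z)))) := by
    apply Vale.Agent.P151.Ex_congr
    intro S hS
    exact hval (fun z => Ex p Λ (fun T => Φ z (T ∩ offE Λ (Q z)))) hS
  rw [hL, hR, Vale.Agent.P151.Ex_sum, Vale.Agent.P151.Ex_sum]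
  apply Finset.sum_congr rfl
  intro z _
  have h5 : Ex p Λ (fun S => ind (Z S = z)) =
      Ex p (Λ \ offE Λ (Q z)) (fun S => ind (Z S = z)) := by
    have := hsplit z (fun _ => 1)
    simpa using this
  rw [hsplit z (Φ z), Vale.Agent.P151.Ex_mul_const, h5, Ex_offE]

lemma Bn_zero (S : Finset (Sym2 V)) (x : V) : Bn S x 0 = {x} := by
  ext y
  constructor
  · rintro ⟨w, hw⟩
    rw [Set.mem_singleton_iff]
    exact (SimpleGraph.Walk.eq_of_length_eq_zero (Nat.le_zero.1 hw)).symm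
  · intro h
    rw [Set.mem_singleton_iff] at h
    subst h
    exact ⟨SimpleGraph.Walk.nil, le_rfl⟩

lemma Bn_mono_n (S : Finset (Sym2 V)) (x : V) {m n : ℕ} (h : m ≤ n) : Bn S x m ⊆ Bn S x n := by
  rintro y ⟨w, hw⟩
  exact ⟨w, hw.trans h⟩

lemma mem_Bn_succ {S : Finset (Sym2 V)} {x y : V} {n : ℕ} :
    y ∈ Bn S x (n + 1) ↔ y ∈ Bn S x n ∨ ∃ a ∈ Bn S x n, (Vale.Agent.P151.gr S).Adj a y := by
  constructor
  · rintro ⟨w, hw⟩
    by_cases h : w.length ≤ n
    · exact Or.inl ⟨w, h⟩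
    · right
      have hlen : w.length = n + 1 := by omega
      have hnn : ¬ w.Nil := by
        intro hn
        rw [← SimpleGraph.Walk.length_eq_zero_iff] at hn
        omega
      refine ⟨w.penultimate, ⟨w.dropLast, ?_⟩, w.adj_penultimate hnn⟩
      rw [SimpleGraph.Walk.length_dropLast]
      omega
  · rintro (h | ⟨a, ⟨w, hw⟩, ha⟩)
    · exact Bn_mono_n S x (Nat.le_succ n) h
    · exact ⟨w.concat ha, by rw [SimpleGraph.Walk.length_concat]; omega⟩

lemma Bn_mono_S {S T : Finset (Sym2 V)} (h : S ⊆ T) (x : V) (n : ℕ) : Bn S x n ⊆ Bn T x n := by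
  rintro y ⟨w, hw⟩
  exact ⟨w.mapLe (Vale.Agent.P151.gr_mono h), by
    rw [SimpleGraph.Walk.length_map]
    exact hw⟩

/-- The intrinsic balls up to radius `i` do not see the edges off the ball of radius `i`. -/
lemma Bn_union_eq {Λ S1 S2 : Finset (Sym2 V)} {x : V} {Q : Set V} {i : ℕ}
    (h2 : S2 ⊆ offE Λ Q) (h : Bn S1 x i = Q ∨ Bn (S1 ∪ S2) x i = Q) :
    ∀ j ≤ i, Bn (S1 ∪ S2) x j = Bn S1 x j := by
  intro j
  induction j with
  | zero => intro _; rw [Bn_zero, Bn_zero]
  | succ j ih =>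
    intro hj
    have hj' := ih (by omega)
    refine Set.Subset.antisymm ?_ (Bn_mono_S subset_union_left x _)
    intro y hy
    rw [mem_Bn_succ] at hy ⊢
    rw [hj'] at hy
    rcases hy with hy | ⟨a, ha, hay⟩
    · exact Or.inl hy
    · refine Or.inr ⟨a, ha, ?_⟩
      have haQ : a ∈ Q := by
        rcases h with h | h
        · rw [← h]
          exact Bn_mono_n S1 x (by omega) ha
        · rw [← h]
          exact Bn_mono_n _ x (by omega) (Bn_mono_S subset_union_left x _ ha)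
      rw [Vale.Agent.P151.gr_adj] at hay ⊢
      refine ⟨?_, hay.2⟩
      rcases mem_union.1 hay.1 with h3 | h3
      · exact h3
      · exact absurd haQ ((mem_offE.1 (h2 h3)).2 a (Sym2.mem_mk_left a y))

/-- Exploration of the intrinsic balls of radii `j ≤ i`. -/
theorem explore_Bn (p : ℝ) (Λ : Finset (Sym2 V)) (x : V) (i : ℕ)
    (Φ : (ℕ → Set V) → Finset (Sym2 V) → ℝ) :
    Ex p Λ (fun S => Φ (fun j => Bn S x (min j i)) (S ∩ offE Λ (Bn S x i))) =
      Ex p Λ (fun S => Ex p Λ (fun T =>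
        Φ (fun j => Bn S x (min j i)) (T ∩ offE Λ (Bn S x i)))) := by
  have h := explore_gen p Λ (fun S => fun j : ℕ => Bn S x (min j i)) (fun z => z i)
    (fun z S1 _ S2 hS2 => ?_) Φ
  · simpa only [min_self] using h
  · constructor
    · intro hz
      have hQ : Bn (S1 ∪ S2) x i = z i := by
        have := congrFun hz i
        simpa only [min_self] using this
      rw [← hz]
      funext j
      exact (Bn_union_eq hS2 (Or.inr hQ) _ (min_le_right _ _)).symm
    · intro hz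
      have hQ : Bn S1 x i = z i := by
        have := congrFun hz i
        simpa only [min_self] using this
      rw [← hz]
      funext j
      exact Bn_union_eq hS2 (Or.inl hQ) _ (min_le_right _ _)

end Vale.Agent.P165.H199
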