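import Vale.Agent.P165.H199.Blocks

/-!
Ghost sets: independent sets of vertices, and the BK-type bounds for the magnetization.
-/

open Finset

set_option linter.unusedSectionVars false

namespace Vale.Agent.P165.H199

open Vale.Agent.P151 (Ex Cn cl csz edgesIn EV con tau)
open Vale.Agent.P165.LF

variable {V : Type} [DecidableEq V]

lemma Ex_eq_empty (h : ℝ) (C : Finset V) :
    Ex h C (fun A => ind (A = ∅)) = (1 - h) ^ C.card := by
  induction C using Finset.induction_on with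
  | empty => simp [ind]
  | insert a C ha ih =>
    rw [Vale.Agent.P151.Ex_insert h ha, ih, Finset.card_insert_of_notMem ha, pow_succ]
    have : (fun S : Finset V => ind (insert a S = ∅)) = fun _ => (0 : ℝ) := by
      funext S
      exact ind_false (Finset.insert_ne_empty a S)
    rw [this, Vale.Agent.P151.Ex_const]
    ring

lemma Ex_avoid (h : ℝ) {U C : Finset V} (hC : C ⊆ U) :
    Ex h U (fun A => ind (∀ z ∈ A, z ∉ C)) = (1 - h) ^ C.card := by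
  rw [Vale.Agent.P151.Ex_restrict h hC (F := fun A => ind (∀ z ∈ A, z ∉ C))
    (fun A _ => ind_congr ⟨fun H z hz => H z (mem_inter.1 hz).1,
      fun H z hz hzC => H z (mem_inter.2 ⟨hz, hzC⟩) hzC⟩), ← Ex_eq_empty]
  refine Vale.Agent.P151.Ex_congr h (fun A hA => ind_congr ⟨fun H => ?_, fun H => ?_⟩)
  · exact Finset.eq_empty_of_forall_notMem (fun z hz => H z hz (hA hz))
  · subst H
    intro z hz
    exact absurd hz (Finset.notMem_empty z)

/-- `x` is connected to the ghost set `A`. -/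
def Gh (A : Finset V) (x : V) (S : Finset (Sym2 V)) : Prop := ∃ z ∈ A, Cn S x z

lemma Gh.mono {A : Finset V} {x : V} {S T : Finset (Sym2 V)} (hST : S ⊆ T) (h : Gh A x S) :
    Gh A x T := by
  obtain ⟨z, hz, hc⟩ := h
  exact ⟨z, hz, hc.mono hST⟩

lemma ind_not' (P : Prop) : ind (¬ P) = 1 - ind P := by
  by_cases h : P
  · rw [ind_true h, ind_false (not_not.2 h)]; ring
  · rw [ind_false h, ind_true h]; ring

lemma ind_not_Gh (A : Finset V) (x : V) (S : Finset (Sym2 V)) :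
    ind (∀ z ∈ A, z ∉ cl S x) = 1 - ind (Gh A x S) := by
  rw [← ind_not']
  refine ind_congr ?_
  unfold Gh
  push Not
  simp only [Vale.Agent.P151.mem_cl]

lemma Ex_Gh (t : ℝ) {U : Finset V} {x : V} {S : Finset (Sym2 V)} (hU : cl S x ⊆ U) :
    Ex (1 - t) U (fun A => ind (Gh A x S)) = 1 - t ^ csz S x := by
  have h := Ex_avoid (1 - t) hU
  have e : Ex (1 - t) U (fun A => ind (∀ z ∈ A, z ∉ cl S x)) =
      1 - Ex (1 - t) U (fun A => ind (Gh A x S)) := by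
    have e1 := Vale.Agent.P151.Ex_sub (1 - t) U (fun _ => (1 : ℝ)) (fun A => ind (Gh A x S))
    rw [Vale.Agent.P151.Ex_const] at e1
    rw [← e1]
    exact Vale.Agent.P151.Ex_congr _ (fun A _ => ind_not_Gh A x S)
  rw [h] at e
  unfold csz
  rw [sub_sub_cancel] at e
  linarith only [e]

lemma Ex_triple (t : ℝ) {U K C1 C2 : Finset V} (hK : K ⊆ U) (h1 : C1 ⊆ U) (h2 : C2 ⊆ U)
    (d1 : Disjoint K C1) (d2 : Disjoint K C2) (d12 : Disjoint C1 C2) :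
    Ex (1 - t) U (fun A => ind ((∀ z ∈ A, z ∉ K) ∧ (∃ z ∈ A, z ∈ C1) ∧ ∃ z ∈ A, z ∈ C2)) =
      t ^ K.card * ((1 - t ^ C1.card) * (1 - t ^ C2.card)) := by
  have a0 := Ex_avoid (1 - t) hK
  have a1 := Ex_avoid (1 - t) (union_subset hK h1)
  have a2 := Ex_avoid (1 - t) (union_subset hK h2)
  have a12 := Ex_avoid (1 - t) (union_subset (union_subset hK h1) h2)
  have d3 : Disjoint (K ∪ C1) C2 := disjoint_union_left.2 ⟨d2, d12⟩
  rw [card_union_of_disjoint d1] at a1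
  rw [card_union_of_disjoint d2] at a2
  rw [card_union_of_disjoint d3, card_union_of_disjoint d1] at a12
  have e : ∀ A : Finset V, ind ((∀ z ∈ A, z ∉ K) ∧ (∃ z ∈ A, z ∈ C1) ∧ ∃ z ∈ A, z ∈ C2) =
      (ind (∀ z ∈ A, z ∉ K) - ind (∀ z ∈ A, z ∉ K ∪ C1)) -
      (ind (∀ z ∈ A, z ∉ K ∪ C2) - ind (∀ z ∈ A, z ∉ K ∪ C1 ∪ C2)) := by
    intro A
    have b1 : ind (∀ z ∈ A, z ∉ K ∪ C1) =
        ind (∀ z ∈ A, z ∉ K) * ind (∀ z ∈ A, z ∉ C1) := by
      rw [← ind_and]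
      exact ind_congr ⟨fun H => ⟨fun z hz h => H z hz (mem_union_left _ h),
        fun z hz h => H z hz (mem_union_right _ h)⟩,
        fun H z hz h => (mem_union.1 h).elim (H.1 z hz) (H.2 z hz)⟩
    have b2 : ind (∀ z ∈ A, z ∉ K ∪ C2) =
        ind (∀ z ∈ A, z ∉ K) * ind (∀ z ∈ A, z ∉ C2) := by
      rw [← ind_and]
      exact ind_congr ⟨fun H => ⟨fun z hz h => H z hz (mem_union_left _ h),
        fun z hz h => H z hz (mem_union_right _ h)⟩,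
        fun H z hz h => (mem_union.1 h).elim (H.1 z hz) (H.2 z hz)⟩
    have b3 : ind (∀ z ∈ A, z ∉ K ∪ C1 ∪ C2) =
        ind (∀ z ∈ A, z ∉ K) * ind (∀ z ∈ A, z ∉ C1) * ind (∀ z ∈ A, z ∉ C2) := by
      rw [← b1, ← ind_and]
      exact ind_congr ⟨fun H => ⟨fun z hz h => H z hz (mem_union_left _ h),
        fun z hz h => H z hz (mem_union_right _ h)⟩,
        fun H z hz h => (mem_union.1 h).elim (H.1 z hz) (H.2 z hz)⟩
    have c1 : ind (∃ z ∈ A, z ∈ C1) = 1 - ind (∀ z ∈ A, z ∉ C1) := by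
      rw [← ind_not']
      exact ind_congr (by push Not; rfl)
    have c2 : ind (∃ z ∈ A, z ∈ C2) = 1 - ind (∀ z ∈ A, z ∉ C2) := by
      rw [← ind_not']
      exact ind_congr (by push Not; rfl)
    rw [ind_and, ind_and, b1, b2, b3, c1, c2]
    ring
  rw [Vale.Agent.P151.Ex_congr (1 - t) (fun A _ => e A), Vale.Agent.P151.Ex_sub,
    Vale.Agent.P151.Ex_sub, Vale.Agent.P151.Ex_sub, a0, a1, a2, a12, sub_sub_cancel, pow_add,
    pow_add, pow_add]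
  ring

lemma cl_subset_of {G : SimpleGraph V} {F U : Finset V} (hFU : F ⊆ U) {S : Finset (Sym2 V)}
    (hS : S ⊆ edgesIn G F) {x : V} (hx : x ∈ U) : cl S x ⊆ U := by
  intro y hy
  rw [Vale.Agent.P151.mem_cl] at hy
  have : y ∈ (U : Set V) := by
    refine Vale.Agent.P151.Cn_closed (S := S) (A := (U : Set V)) ?_ (mem_coe.2 hx) hy
    intro a _ b hab
    exact hFU ((Vale.Agent.P151.mem_edgesIn.1 (hS hab)).2 b (Sym2.mem_mk_right a b))
  exact mem_coe.1 this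

/-- Averaging over ghost sets. -/
lemma Ex_avg (G : SimpleGraph V) {q t : ℝ} {F U : Finset V} (hFU : F ⊆ U) {x : V} (hx : x ∈ U) :
    Ex (1 - t) U (fun A => Ex q (edgesIn G F) (fun S => ind (Gh A x S))) =
      Ex q (edgesIn G F) (fun S => 1 - t ^ csz S x) := by
  rw [Vale.Agent.P151.Ex_comm]
  exact Vale.Agent.P151.Ex_congr q (fun S hS => Ex_Gh t (cl_subset_of hFU hS hx))

/-- Lower bound off a set `Q`, for fixed ghosts. -/
lemma Gh_off {Λ : Finset (Sym2 V)} (Q : Finset V) (A : Finset V) (w : V)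
    {S : Finset (Sym2 V)} (hS : S ⊆ Λ) :
    ind (Gh A w S) ≤ ind (Gh A w (S ∩ offE Λ (Q : Set V))) +
      ∑ a ∈ Q, ind (∃ S1 S2, S1 ⊆ S ∧ S2 ⊆ S ∧ Disjoint S1 S2 ∧ Cn S1 w a ∧ Gh A a S2) := by
  have hs : 0 ≤ ∑ a ∈ Q, ind (∃ S1 S2, S1 ⊆ S ∧ S2 ⊆ S ∧ Disjoint S1 S2 ∧ Cn S1 w a ∧
      Gh A a S2) := Finset.sum_nonneg (fun _ _ => ind_nonneg _)
  by_cases h : Gh A w S
  · obtain ⟨z, hz, hwz⟩ := h
    obtain ⟨P, hPS, hPwz, hPc, hsplit⟩ := path_split' S w z hwz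
    by_cases hQ : ∃ a ∈ Q, Cn P w a
    · obtain ⟨a, haQ, ha⟩ := hQ
      obtain ⟨S1, S2, h1, h2, hd, hc1, hc2⟩ := hsplit a ha
      have h3 : (1 : ℝ) ≤ ∑ a ∈ Q, ind (∃ S1 S2, S1 ⊆ S ∧ S2 ⊆ S ∧ Disjoint S1 S2 ∧ Cn S1 w a ∧
          Gh A a S2) := by
        refine le_trans (le_of_eq (ind_true ?_).symm) (Finset.single_le_sum
          (f := fun a => ind (∃ S1 S2, S1 ⊆ S ∧ S2 ⊆ S ∧ Disjoint S1 S2 ∧ Cn S1 w a ∧
          Gh A a S2)) (fun _ _ => ind_nonneg _) haQ)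
        exact ⟨S1, S2, h1.trans hPS, h2.trans hPS, hd, hc1, z, hz, hc2⟩
      have h4 := ind_nonneg (Gh A w (S ∩ offE Λ (Q : Set V)))
      have h5 := ind_le_one (Gh A w S)
      linarith only [h3, h4, h5]
    · push Not at hQ
      have hsub : P ⊆ S ∩ offE Λ (Q : Set V) := by
        intro e he
        rw [mem_inter, mem_offE]
        refine ⟨hPS he, hS (hPS he), fun v hv hvQ => ?_⟩
        exact hQ v (mem_coe.1 hvQ) (hPc e he v hv)
      have h4 : ind (Gh A w (S ∩ offE Λ (Q : Set V))) = 1 :=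
        ind_true ⟨z, hz, hPwz.mono hsub⟩
      have h5 := ind_le_one (Gh A w S)
      linarith only [h4, h5, hs]
  · rw [ind_false h]
    have h4 := ind_nonneg (Gh A w (S ∩ offE Λ (Q : Set V)))
    linarith only [h4, hs]

lemma csz_of_nat_pow_nonneg {t : ℝ} (t0 : 0 ≤ t) (t1 : t ≤ 1) (n : ℕ) : 0 ≤ 1 - t ^ n :=
  sub_nonneg.2 (pow_le_one₀ t0 t1)

lemma Ex_Gh_mul' (G : SimpleGraph V) {q : ℝ} (h0 : 0 ≤ q) (h1 : q ≤ 1) (F : Finset V)
    (A : Finset V) (w a b : V) :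
    Ex q (edgesIn G F) (fun S => ind (∃ S1 S2, S1 ⊆ S ∧ S2 ⊆ S ∧ Disjoint S1 S2 ∧ Cn S1 w a ∧
      Gh A b S2)) ≤
    Ex q (edgesIn G F) (con w a) * Ex q (edgesIn G F) (fun S => ind (Gh A b S)) := by
  have e1 : Ex q (edgesIn G F) (con w a) = Ex q (edgesIn G F) (fun S => ind (Cn S w a)) :=
    Vale.Agent.P151.Ex_congr q (fun S _ => con_eq_ind w a S)
  rw [e1]
  exact bk h0 h1 (edgesIn G F) (fun S => Cn S w a) (fun S => Gh A b S)
    (fun S S' h h' => h'.mono h) (fun S S' h h' => h'.mono h)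

lemma Ex_Gh_mul (G : SimpleGraph V) {q : ℝ} (h0 : 0 ≤ q) (h1 : q ≤ 1) (F : Finset V)
    (A : Finset V) (w a : V) :
    Ex q (edgesIn G F) (fun S => ind (∃ S1 S2, S1 ⊆ S ∧ S2 ⊆ S ∧ Disjoint S1 S2 ∧ Cn S1 w a ∧
      Gh A a S2)) ≤
    Ex q (edgesIn G F) (con w a) * Ex q (edgesIn G F) (fun S => ind (Gh A a S)) :=
  Ex_Gh_mul' G h0 h1 F A w a a

/-- Magnetization off a set `Q`. -/
theorem off_ge (G : SimpleGraph V) {q t : ℝ} (h0 : 0 ≤ q) (h1 : q ≤ 1) (t0 : 0 ≤ t) (t1 : t ≤ 1)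
    (F Q : Finset V) (w : V) :
    Ex q (edgesIn G F) (fun S => 1 - t ^ csz S w) -
      ∑ a ∈ Q, Ex q (edgesIn G F) (con w a) *
        Ex q (edgesIn G F) (fun S => 1 - t ^ csz S a) ≤
    Ex q (edgesIn G F) (fun S => 1 - t ^ csz (S ∩ offE (edgesIn G F) (Q : Set V)) w) := by
  set Λ := edgesIn G F with hΛ
  set U := insert w (F ∪ Q) with hU
  have hFU : F ⊆ U := fun v hv => mem_insert_of_mem (mem_union_left _ hv)
  have hwU : w ∈ U := mem_insert_self _ _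
  have hQU : ∀ a ∈ Q, a ∈ U := fun a ha => mem_insert_of_mem (mem_union_right _ ha)
  have ht0 : 0 ≤ 1 - t := sub_nonneg.2 t1
  have ht1 : 1 - t ≤ 1 := by linarith only [t0]
  have m : ∀ A ⊆ U, Ex q Λ (fun S => ind (Gh A w S)) ≤
      Ex q Λ (fun S => ind (Gh A w (S ∩ offE Λ (Q : Set V)))) +
      ∑ a ∈ Q, Ex q Λ (con w a) * Ex q Λ (fun S => ind (Gh A a S)) := by
    intro A _
    refine (Vale.Agent.P151.Ex_mono h0 h1 (fun S hS => Gh_off Q A w hS)).trans ?_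
    rw [Vale.Agent.P151.Ex_add, Vale.Agent.P151.Ex_sum]
    exact add_le_add (le_refl _) (Finset.sum_le_sum (fun a _ => Ex_Gh_mul G h0 h1 F A w a))
  have m2 := Vale.Agent.P151.Ex_mono ht0 ht1 m
  rw [Vale.Agent.P151.Ex_add, Vale.Agent.P151.Ex_sum, Ex_avg G hFU hwU] at m2
  have e1 : Ex (1 - t) U (fun A => Ex q Λ (fun S => ind (Gh A w (S ∩ offE Λ (Q : Set V))))) =
      Ex q Λ (fun S => 1 - t ^ csz (S ∩ offE Λ (Q : Set V)) w) := by
    rw [Vale.Agent.P151.Ex_comm]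
    exact Vale.Agent.P151.Ex_congr q (fun S hS =>
      Ex_Gh t (cl_subset_of hFU (inter_subset_left.trans hS) hwU))
  have e2 : ∀ a ∈ Q, Ex (1 - t) U (fun A => Ex q Λ (con w a) *
      Ex q Λ (fun S => ind (Gh A a S))) =
      Ex q Λ (con w a) * Ex q Λ (fun S => 1 - t ^ csz S a) := by
    intro a ha
    rw [Vale.Agent.P151.Ex_const_mul, Ex_avg G hFU (hQU a ha)]
  rw [e1, Finset.sum_congr rfl e2] at m2
  linarith only [m2]

/-- `E[1(w ↔ a) (1 - t^|K_w|)]` by the tree-graph inequality. -/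
theorem con_mul_le (G : SimpleGraph V) {q t : ℝ} (h0 : 0 ≤ q) (h1 : q ≤ 1) (t0 : 0 ≤ t)
    (t1 : t ≤ 1) (F : Finset V) {U : Finset V} (hFU : F ⊆ U) {w : V} (hwU : w ∈ U) (a : V) :
    Ex q (edgesIn G F) (fun S => con w a S * (1 - t ^ csz S w)) ≤
      ∑ b ∈ U, Ex q (edgesIn G F) (con w b) * (Ex q (edgesIn G F) (con b a) *
        Ex q (edgesIn G F) (fun S => 1 - t ^ csz S b)) := by
  set Λ := edgesIn G F with hΛ
  have ht0 : 0 ≤ 1 - t := sub_nonneg.2 t1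
  have ht1 : 1 - t ≤ 1 := by linarith only [t0]
  have hpt : ∀ A : Finset V, ∀ S ⊆ Λ, con w a S * ind (Gh A w S) ≤
      ∑ b ∈ U, ind (∃ S1 S2, S1 ⊆ S ∧ S2 ⊆ S ∧ Disjoint S1 S2 ∧ Cn S1 w b ∧
        (∃ T1 T2, T1 ⊆ S2 ∧ T2 ⊆ S2 ∧ Disjoint T1 T2 ∧ Cn T1 b a ∧ Gh A b T2)) := by
    intro A S hS
    rw [con_eq_ind, ← ind_and]
    by_cases h : Cn S w a ∧ Gh A w S
    · rw [ind_true h]
      obtain ⟨ha, z, hz, hwz⟩ := h
      obtain ⟨b, hwb, S1, S2, k1, k2, k3, k4, T1, T2, k5, k6, k7, k8, k9⟩ :=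
        tree_split S w a z ha hwz
      have hbU : b ∈ U := cl_subset_of hFU hS hwU (Vale.Agent.P151.mem_cl.2 hwb)
      refine le_trans (le_of_eq (ind_true ?_).symm) (Finset.single_le_sum
        (f := fun b => ind (∃ S1 S2, S1 ⊆ S ∧ S2 ⊆ S ∧ Disjoint S1 S2 ∧ Cn S1 w b ∧
        (∃ T1 T2, T1 ⊆ S2 ∧ T2 ⊆ S2 ∧ Disjoint T1 T2 ∧ Cn T1 b a ∧ Gh A b T2)))
        (fun _ _ => ind_nonneg _) hbU)
      exact ⟨S1, S2, k1, k2, k3, k4, T1, T2, k5, k6, k7, k8, z, hz, k9⟩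
    · rw [ind_false h]
      exact Finset.sum_nonneg (fun _ _ => ind_nonneg _)
  have m : ∀ A ⊆ U, Ex q Λ (fun S => con w a S * ind (Gh A w S)) ≤
      ∑ b ∈ U, Ex q Λ (con w b) * (Ex q Λ (con b a) * Ex q Λ (fun S => ind (Gh A b S))) := by
    intro A _
    refine (Vale.Agent.P151.Ex_mono h0 h1 (hpt A)).trans ?_
    rw [Vale.Agent.P151.Ex_sum]
    refine Finset.sum_le_sum (fun b _ => ?_)
    refine (bk h0 h1 Λ (fun S => Cn S w b)
      (fun S => ∃ T1 T2, T1 ⊆ S ∧ T2 ⊆ S ∧ Disjoint T1 T2 ∧ Cn T1 b a ∧ Gh A b T2)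
      (fun S S' h h' => h'.mono h) ?_).trans ?_
    · rintro S S' h ⟨T1, T2, hT1, hT2, h'⟩
      exact ⟨T1, T2, hT1.trans h, hT2.trans h, h'⟩
    · have e1 : Ex q Λ (con w b) = Ex q Λ (fun S => ind (Cn S w b)) :=
        Vale.Agent.P151.Ex_congr q (fun S _ => con_eq_ind w b S)
      rw [e1]
      refine mul_le_mul_of_nonneg_left ?_
        (Vale.Agent.P151.Ex_nonneg h0 h1 (fun _ _ => ind_nonneg _))
      exact Ex_Gh_mul' G h0 h1 F A b a b
  have m2 := Vale.Agent.P151.Ex_mono ht0 ht1 m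
  rw [Vale.Agent.P151.Ex_sum, Vale.Agent.P151.Ex_comm] at m2
  have e1 : Ex q Λ (fun S => Ex (1 - t) U (fun A => con w a S * ind (Gh A w S))) =
      Ex q Λ (fun S => con w a S * (1 - t ^ csz S w)) := by
    refine Vale.Agent.P151.Ex_congr q (fun S hS => ?_)
    rw [Vale.Agent.P151.Ex_const_mul, Ex_Gh t (cl_subset_of hFU hS hwU)]
  have e2 : ∀ b ∈ U, Ex (1 - t) U (fun A => Ex q Λ (con w b) * (Ex q Λ (con b a) *
      Ex q Λ (fun S => ind (Gh A b S)))) =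
      Ex q Λ (con w b) * (Ex q Λ (con b a) * Ex q Λ (fun S => 1 - t ^ csz S b)) := by
    intro b hb
    rw [Vale.Agent.P151.Ex_const_mul, Vale.Agent.P151.Ex_const_mul, Ex_avg G hFU hb]
  rw [e1, Finset.sum_congr rfl e2] at m2
  exact m2

end Vale.Agent.P165.H199
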