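import Vale.Agent.P165.H199.Ghost

/-!
The pair bound: two distinct clusters with ghosts off a set `Q`.
-/

open Finset

set_option linter.unusedSectionVars false

namespace Vale.Agent.P165.H199

open Vale.Agent.P151 (Ex Cn cl csz edgesIn EV con tau)
open Vale.Agent.P165.LF

variable {V : Type} [DecidableEq V]

lemma Ex_con_comm (q : ℝ) (Λ : Finset (Sym2 V)) (a b : V) :
    Ex q Λ (con a b) = Ex q Λ (con b a) := by
  refine Vale.Agent.P151.Ex_congr q (fun S _ => ?_)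
  rw [con_eq_ind, con_eq_ind]
  exact ind_congr ⟨fun h => h.symm, fun h => h.symm⟩

lemma Ex_con_self (q : ℝ) (Λ : Finset (Sym2 V)) (a : V) : Ex q Λ (con a a) = 1 := by
  rw [← Vale.Agent.P151.Ex_const q Λ (1 : ℝ)]
  refine Vale.Agent.P151.Ex_congr q (fun S _ => ?_)
  rw [con_eq_ind]
  exact ind_true (Vale.Agent.P151.Cn.refl _ _)

lemma Ex_con_nonneg {q : ℝ} (h0 : 0 ≤ q) (h1 : q ≤ 1) (Λ : Finset (Sym2 V)) (a b : V) :
    0 ≤ Ex q Λ (con a b) :=
  Vale.Agent.P151.Ex_nonneg h0 h1 (fun S _ => Vale.Agent.P151.con_nonneg a b S)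

lemma offE_inter (Λ : Finset (Sym2 V)) (Q1 Q2 : Finset V) :
    offE Λ (Q1 : Set V) ∩ offE Λ (Q2 : Set V) = offE Λ ((Q2 ∪ Q1 : Finset V) : Set V) := by
  ext e
  rw [mem_inter, mem_offE, mem_offE, mem_offE]
  constructor
  · rintro ⟨⟨h1, h2⟩, _, h3⟩
    refine ⟨h1, fun v hv hvQ => ?_⟩
    rcases mem_union.1 (mem_coe.1 hvQ) with h | h
    · exact h3 v hv (mem_coe.2 h)
    · exact h2 v hv (mem_coe.2 h)
  · rintro ⟨h1, h2⟩
    exact ⟨⟨h1, fun v hv h => h2 v hv (mem_coe.2 (mem_union_right _ (mem_coe.1 h)))⟩,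
      h1, fun v hv h => h2 v hv (mem_coe.2 (mem_union_left _ (mem_coe.1 h)))⟩

/-- `f_Q(w)`. -/
noncomputable def fQ (G : SimpleGraph V) (q : ℝ) (F Q : Finset V) (w : V) : ℝ :=
  ∑ a ∈ Q, Ex q (edgesIn G F) (con w a)

/-- The finite-volume triangle. -/
noncomputable def T3 (G : SimpleGraph V) (q : ℝ) (F : Finset V) (w₂ w : V) : ℝ :=
  ∑ a ∈ F, ∑ b ∈ F, Ex q (edgesIn G F) (con w₂ a) * Ex q (edgesIn G F) (con a b) *
        Ex q (edgesIn G F) (con b w)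

lemma off_ge' (G : SimpleGraph V) {q t M : ℝ} (h0 : 0 ≤ q) (h1 : q ≤ 1) (t0 : 0 ≤ t) (t1 : t ≤ 1)
    (F Q : Finset V) (w : V) (hM : ∀ a, mF G q t F a ≤ M) :
    mF G q t F w - M * fQ G q F Q w ≤
      Ex q (edgesIn G F) (fun S => 1 - t ^ csz (S ∩ offE (edgesIn G F) (Q : Set V)) w) := by
  refine le_trans ?_ (off_ge G h0 h1 t0 t1 F Q w)
  unfold mF fQ at *
  have : ∑ a ∈ Q, Ex q (edgesIn G F) (con w a) * Ex q (edgesIn G F) (fun S => 1 - t ^ csz S a) ≤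
      M * ∑ a ∈ Q, Ex q (edgesIn G F) (con w a) := by
    rw [Finset.mul_sum]
    refine Finset.sum_le_sum (fun a _ => ?_)
    rw [mul_comm M]
    exact mul_le_mul_of_nonneg_left (hM a) (Ex_con_nonneg h0 h1 _ _ _)
  linarith only [this]

/-- `E[f_{C_w}(w₂) (1 - t^|C_w|)] ≤ M² T₃`. -/
lemma triangle_le (G : SimpleGraph V) {q t M : ℝ} (h0 : 0 ≤ q) (h1 : q ≤ 1) (t0 : 0 ≤ t)
    (t1 : t ≤ 1) (F : Finset V) {w w₂ : V} (hw : w ∈ F) (hM : ∀ a, mF G q t F a ≤ M) :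
    ∑ a ∈ F, Ex q (edgesIn G F) (con w₂ a) *
      Ex q (edgesIn G F) (fun S => con w a S * (1 - t ^ csz S w)) ≤ M * T3 G q F w₂ w := by
  set Λ := edgesIn G F with hΛ
  unfold T3
  rw [Finset.mul_sum]
  refine Finset.sum_le_sum (fun a _ => ?_)
  have h2 := con_mul_le G h0 h1 t0 t1 F (Finset.Subset.refl F) hw a
  refine (mul_le_mul_of_nonneg_left h2 (Ex_con_nonneg h0 h1 _ w₂ a)).trans ?_
  rw [Finset.mul_sum, Finset.mul_sum]
  refine Finset.sum_le_sum (fun b _ => ?_)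
  rw [Ex_con_comm q (edgesIn G F) w b, Ex_con_comm q (edgesIn G F) b a]
  have h3 := hM b
  unfold mF at h3
  have e : Ex q (edgesIn G F) (con w₂ a) * (Ex q (edgesIn G F) (con b w) *
      (Ex q (edgesIn G F) (con a b) * Ex q (edgesIn G F) (fun S => 1 - t ^ csz S b))) =
      (Ex q (edgesIn G F) (con w₂ a) * Ex q (edgesIn G F) (con a b) *
        Ex q (edgesIn G F) (con b w)) * Ex q (edgesIn G F) (fun S => 1 - t ^ csz S b) := by ring
  rw [e, mul_comm M]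
  refine mul_le_mul_of_nonneg_left h3 ?_
  exact mul_nonneg (mul_nonneg (Ex_con_nonneg h0 h1 _ _ _) (Ex_con_nonneg h0 h1 _ _ _))
    (Ex_con_nonneg h0 h1 _ _ _)

/-- The pair bound. -/
theorem pair_bound (G : SimpleGraph V) {q t M : ℝ} (h0 : 0 ≤ q) (h1 : q ≤ 1) (t0 : 0 ≤ t)
    (t1 : t ≤ 1) (F Q : Finset V) {w w₂ : V} (hw : w ∈ F) (hM : ∀ a, mF G q t F a ≤ M)
    (hX : 0 ≤ mF G q t F w₂ - M * fQ G q F Q w₂) :
    (mF G q t F w₂ - M * fQ G q F Q w₂) * (mF G q t F w - M * fQ G q F Q w) -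
      M * (M * T3 G q F w₂ w) ≤
    Ex q (edgesIn G F) (fun T => ind (¬ Cn (T ∩ offE (edgesIn G F) (Q : Set V)) w w₂) *
      ((1 - t ^ csz (T ∩ offE (edgesIn G F) (Q : Set V)) w) *
        (1 - t ^ csz (T ∩ offE (edgesIn G F) (Q : Set V)) w₂))) := by
  classical
  have hM0 : 0 ≤ M := by
    refine le_trans ?_ (hM w)
    exact Vale.Agent.P151.Ex_nonneg h0 h1 (fun S _ => csz_of_nat_pow_nonneg t0 t1 _)
  have hpn : ∀ n : ℕ, 0 ≤ 1 - t ^ n := csz_of_nat_pow_nonneg t0 t1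
  set Λ := edgesIn G F with hΛ
  set A := offE Λ (Q : Set V) with hA
  set X := mF G q t F w₂ - M * fQ G q F Q w₂ with hXdef
  -- step 1: monotonicity and exploration
  have s1 : Ex q Λ (fun T => (fun (Q' : Set V) (S' : Finset (Sym2 V)) => ind (w₂ ∉ Q') *
      ((1 - t ^ Q'.ncard) * (1 - t ^ csz (S' ∩ A) w₂))) (clS (T ∩ A) {w})
        (T ∩ offE Λ (clS (T ∩ A) {w}))) ≤
      Ex q Λ (fun T => ind (¬ Cn (T ∩ A) w w₂) *
      ((1 - t ^ csz (T ∩ A) w) * (1 - t ^ csz (T ∩ A) w₂))) := by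
    refine Vale.Agent.P151.Ex_mono h0 h1 (fun T _ => ?_)
    show ind (w₂ ∉ clS (T ∩ A) {w}) * ((1 - t ^ (clS (T ∩ A) {w}).ncard) *
      (1 - t ^ csz (T ∩ offE Λ (clS (T ∩ A) {w}) ∩ A) w₂)) ≤ _
    rw [gn_clS, Set.ncard_coe_finset]
    have e1 : ind (w₂ ∉ (cl (T ∩ A) w : Set V)) = ind (¬ Cn (T ∩ A) w w₂) :=
      ind_congr (by rw [mem_coe, Vale.Agent.P151.mem_cl])
    rw [e1]
    refine mul_le_mul_of_nonneg_left ?_ (ind_nonneg _)
    refine mul_le_mul (le_of_eq rfl) ?_ (hpn _) (hpn _)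
    have hsub : T ∩ offE Λ (cl (T ∩ A) w : Set V) ∩ A ⊆ T ∩ A :=
      inter_subset_inter_right inter_subset_left
    have := pow_le_pow_of_le_one t0 t1 (Vale.Agent.P151.csz_mono hsub w₂)
    linarith only [this]
  refine le_trans ?_ s1
  rw [explore_sub q Λ A {w} (fun (Q' : Set V) (S' : Finset (Sym2 V)) => ind (w₂ ∉ Q') *
      ((1 - t ^ Q'.ncard) * (1 - t ^ csz (S' ∩ A) w₂)))]
  -- step 2: lower bound of the inner expectation
  have s2 : ∀ T ⊆ Λ, (1 - t ^ csz (T ∩ A) w) * (X - M * fQ G q F (cl (T ∩ A) w) w₂) ≤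
      Ex q Λ (fun T' => ind (w₂ ∉ clS (T ∩ A) {w}) * ((1 - t ^ (clS (T ∩ A) {w}).ncard) *
        (1 - t ^ csz (T' ∩ offE Λ (clS (T ∩ A) {w}) ∩ A) w₂))) := by
    intro T hT
    rw [gn_clS, Set.ncard_coe_finset, Vale.Agent.P151.Ex_const_mul, Vale.Agent.P151.Ex_const_mul]
    set C1 := cl (T ∩ A) w with hC1
    have e2 : Ex q Λ (fun T' => 1 - t ^ csz (T' ∩ offE Λ (C1 : Set V) ∩ A) w₂) =
        Ex q Λ (fun T' => 1 - t ^ csz (T' ∩ offE Λ ((Q ∪ C1 : Finset V) : Set V)) w₂) := by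
      refine Vale.Agent.P151.Ex_congr q (fun T' _ => ?_)
      rw [Finset.inter_assoc, hA, offE_inter]
    have h3 := off_ge' G h0 h1 t0 t1 F (Q ∪ C1) w₂ hM
    have h4 : fQ G q F (Q ∪ C1) w₂ ≤ fQ G q F Q w₂ + fQ G q F C1 w₂ := by
      unfold fQ
      rw [← Finset.sum_union_inter]
      exact le_add_of_nonneg_right (Finset.sum_nonneg (fun a _ => Ex_con_nonneg h0 h1 _ _ _))
    have h5 : X - M * fQ G q F C1 w₂ ≤
        Ex q Λ (fun T' => 1 - t ^ csz (T' ∩ offE Λ (C1 : Set V) ∩ A) w₂) := by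
      rw [e2]
      refine le_trans ?_ h3
      have := mul_le_mul_of_nonneg_left h4 hM0
      rw [hXdef]
      linarith only [this]
    by_cases hm : w₂ ∈ (C1 : Set V)
    · rw [ind_false (not_not.2 hm), zero_mul]
      refine mul_nonpos_of_nonneg_of_nonpos (hpn _) ?_
      have h6 : 1 ≤ fQ G q F C1 w₂ := by
        unfold fQ
        rw [← Ex_con_self q (edgesIn G F) w₂]
        exact Finset.single_le_sum (f := fun a => Ex q (edgesIn G F) (con w₂ a))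
          (fun a _ => Ex_con_nonneg h0 h1 _ _ _) (mem_coe.1 hm)
      have h7 : 0 ≤ fQ G q F Q w₂ := Finset.sum_nonneg (fun a _ => Ex_con_nonneg h0 h1 _ _ _)
      have h8 := mul_nonneg hM0 h7
      have h9 := mul_le_mul_of_nonneg_left h6 hM0
      have h10 := hM w₂
      rw [hXdef]
      linarith only [h8, h9, h10]
    · rw [ind_true hm, one_mul]
      exact mul_le_mul_of_nonneg_left h5 (hpn _)
  refine le_trans ?_ (Vale.Agent.P151.Ex_mono h0 h1 s2)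
  -- step 3
  have e3 : Ex q Λ (fun T => (1 - t ^ csz (T ∩ A) w) * (X - M * fQ G q F (cl (T ∩ A) w) w₂)) =
      Ex q Λ (fun T => 1 - t ^ csz (T ∩ A) w) * X -
        M * Ex q Λ (fun T => (1 - t ^ csz (T ∩ A) w) * fQ G q F (cl (T ∩ A) w) w₂) := by
    rw [← Vale.Agent.P151.Ex_mul_const, ← Vale.Agent.P151.Ex_const_mul,
      ← Vale.Agent.P151.Ex_sub]
    exact Vale.Agent.P151.Ex_congr q (fun T _ => by ring)
  rw [e3]
  have h6 := off_ge' G h0 h1 t0 t1 F Q w hM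
  have h7 : Ex q Λ (fun T => (1 - t ^ csz (T ∩ A) w) * fQ G q F (cl (T ∩ A) w) w₂) ≤
      M * T3 G q F w₂ w := by
    refine le_trans ?_ (triangle_le G h0 h1 t0 t1 F hw hM)
    have e4 : ∑ a ∈ F, Ex q (edgesIn G F) (con w₂ a) *
        Ex q (edgesIn G F) (fun S => con w a S * (1 - t ^ csz S w)) =
        Ex q Λ (fun S => ∑ a ∈ F, Ex q (edgesIn G F) (con w₂ a) *
          (con w a S * (1 - t ^ csz S w))) := by
      rw [Vale.Agent.P151.Ex_sum]
      exact Finset.sum_congr rfl (fun a _ => (Vale.Agent.P151.Ex_const_mul _ _ _ _).symm)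
    rw [e4]
    refine Vale.Agent.P151.Ex_mono h0 h1 (fun T hT => ?_)
    have hclF : cl (T ∩ A) w ⊆ F := cl_subset_of (Finset.Subset.refl F)
      (inter_subset_left.trans hT) hw
    unfold fQ
    rw [Finset.mul_sum]
    refine le_trans (Finset.sum_le_sum (fun a ha => ?_))
      (Finset.sum_le_sum_of_subset_of_nonneg hclF (fun a _ _ => ?_))
    · have hc : con w a T = 1 := by
        rw [con_eq_ind]
        exact ind_true ((Vale.Agent.P151.mem_cl.1 ha).mono inter_subset_left)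
      rw [hc, one_mul, mul_comm]
      refine mul_le_mul_of_nonneg_left ?_ (Ex_con_nonneg h0 h1 _ _ _)
      have := pow_le_pow_of_le_one t0 t1 (Vale.Agent.P151.csz_mono
        (inter_subset_left : T ∩ A ⊆ T) w)
      linarith only [this]
    · exact mul_nonneg (Ex_con_nonneg h0 h1 _ _ _)
        (mul_nonneg (Vale.Agent.P151.con_nonneg _ _ _) (hpn _))
  have h8 := mul_le_mul_of_nonneg_left h7 hM0
  have h9 := mul_le_mul_of_nonneg_left h6 hX
  linarith only [h8, h9]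

end Vale.Agent.P165.H199
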