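import Vale.Agent.P165.H199.Exp
import Vale.Agent.P165.H199.Pair

/-!
The weighted row of the two-point function by intrinsic distance.
-/

open Finset

set_option linter.unusedSectionVars false

namespace Vale.Agent.P165.H199

open Vale.Agent.P151 (Ex Cn cl csz edgesIn EV con tau)
open Vale.Agent.P165 Vale.Agent.P165.LF

variable {V : Type} [DecidableEq V]

/-- `u` is at intrinsic distance exactly `j` from `x`. -/
def Lev (S : Finset (Sym2 V)) (x : V) (j : ℕ) (u : V) : Prop :=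
  u ∈ Bn S x j ∧ ∀ i < j, u ∉ Bn S x i

lemma cross_level {Λ S : Finset (Sym2 V)} (hS : S ⊆ Λ) {x y : V} {j : ℕ} (h : Cn S x y)
    (hy : y ∉ Bn S x j) :
    ∃ u v, Lev S x j u ∧ s(u, v) ∈ S ∧ Cn (S ∩ offE Λ (Bn S x j)) v y := by
  have key : y ∈ {z | z ∈ Bn S x j ∨ (z ∉ Bn S x j ∧
      ∃ u v, Lev S x j u ∧ s(u, v) ∈ S ∧ Cn (S ∩ offE Λ (Bn S x j)) v z)} := by
    refine Vale.Agent.P151.Cn_closed (S := S) ?_
      (Or.inl (Bn_mono_n S x (Nat.zero_le j) (by rw [Bn_zero]; rfl))) h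
    rintro z hz z' hzz'
    by_cases hz' : z' ∈ Bn S x j
    · exact Or.inl hz'
    · refine Or.inr ⟨hz', ?_⟩
      rcases hz with hz | ⟨hzn, u, v, hl, huv, hc⟩
      · refine ⟨z, z', ⟨hz, fun i hi hzi => hz' ?_⟩, hzz', Vale.Agent.P151.Cn.refl _ _⟩
        by_cases hne : z = z'
        · rw [← hne]; exact hz
        · refine Bn_mono_n S x (Nat.succ_le_of_lt hi) (mem_Bn_succ.2 (Or.inr ⟨z, hzi, ?_⟩))
          rw [Vale.Agent.P151.gr_adj]
          exact ⟨hzz', hne⟩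
      · refine ⟨u, v, hl, huv, hc.trans (Vale.Agent.P151.Cn_of_mem ?_)⟩
        rw [mem_inter, mem_offE]
        refine ⟨hzz', hS hzz', fun w hw => ?_⟩
        rcases Sym2.mem_iff.1 hw with rfl | rfl
        · exact hzn
        · exact hz'
  rcases key with hk | ⟨_, hk⟩
  · exact absurd hk hy
  · exact hk

/-- `P(d_int(x,u) = j)`. -/
noncomputable def Dl (G : SimpleGraph V) (p : ℝ) (F : Finset V) (x : V) (j : ℕ) (u : V) : ℝ :=
  Ex p (edgesIn G F) (fun S => ind (Lev S x j u))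

/-- `P(d_int(x,y) > j)`. -/
noncomputable def Rl (G : SimpleGraph V) (p : ℝ) (F : Finset V) (x : V) (j : ℕ) (y : V) : ℝ :=
  Ex p (edgesIn G F) (fun S => ind (Cn S x y ∧ y ∉ Bn S x j))

/-- `P(d_int(x,y) ≤ j)`. -/
noncomputable def Bl (G : SimpleGraph V) (p : ℝ) (F : Finset V) (x : V) (j : ℕ) (y : V) : ℝ :=
  Ex p (edgesIn G F) (fun S => ind (y ∈ Bn S x j))

theorem Rl_le (G : SimpleGraph V) {p : ℝ} (h0 : 0 ≤ p) (h1 : p ≤ 1) (F : Finset V) (x : V)
    (j : ℕ) (y : V) :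
    Rl G p F x j y ≤ ∑ v ∈ F, (∑ u ∈ F, ind (G.Adj u v) * Dl G p F x j u) *
      Ex p (edgesIn G F) (con v y) := by
  classical
  set Λ := edgesIn G F with hΛ
  have hpt : ∀ S ⊆ Λ, ind (Cn S x y ∧ y ∉ Bn S x j) ≤
      ∑ v ∈ F, ∑ u ∈ F, ind (G.Adj u v) *
        (ind (Lev S x j u) * ind (Cn (S ∩ offE Λ (Bn S x j)) v y)) := by
    intro S hS
    by_cases h : Cn S x y ∧ y ∉ Bn S x j
    · obtain ⟨u, v, hl, huv, hc⟩ := cross_level hS h.1 h.2
      obtain ⟨hadj, hu, hv⟩ := Vale.Agent.P151.mk_mem_edgesIn.1 (hS huv)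
      rw [ind_true h]
      have e1 : ind (G.Adj u v) * (ind (Lev S x j u) *
          ind (Cn (S ∩ offE Λ (Bn S x j)) v y)) = 1 := by
        rw [ind_true hadj, ind_true hl, ind_true hc]
        norm_num
      have hn : ∀ v u, 0 ≤ ind (G.Adj u v) * (ind (Lev S x j u) *
          ind (Cn (S ∩ offE Λ (Bn S x j)) v y)) := fun v u =>
        mul_nonneg (ind_nonneg _) (mul_nonneg (ind_nonneg _) (ind_nonneg _))
      rw [← e1]
      refine le_trans ?_ (Finset.single_le_sum (f := fun v => ∑ u ∈ F, ind (G.Adj u v) *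
        (ind (Lev S x j u) * ind (Cn (S ∩ offE Λ (Bn S x j)) v y)))
        (fun v _ => Finset.sum_nonneg (fun u _ => hn v u)) hv)
      exact Finset.single_le_sum (f := fun u => ind (G.Adj u v) *
        (ind (Lev S x j u) * ind (Cn (S ∩ offE Λ (Bn S x j)) v y))) (fun u _ => hn v u) hu
    · rw [ind_false h]
      exact Finset.sum_nonneg (fun v _ => Finset.sum_nonneg (fun u _ =>
        mul_nonneg (ind_nonneg _) (mul_nonneg (ind_nonneg _) (ind_nonneg _))))
  unfold Rl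
  refine (Vale.Agent.P151.Ex_mono h0 h1 hpt).trans ?_
  rw [Vale.Agent.P151.Ex_sum]
  refine Finset.sum_le_sum (fun v _ => ?_)
  rw [Vale.Agent.P151.Ex_sum, Finset.sum_mul]
  refine Finset.sum_le_sum (fun u _ => ?_)
  rw [Vale.Agent.P151.Ex_const_mul, mul_assoc]
  refine mul_le_mul_of_nonneg_left ?_ (ind_nonneg _)
  have e2 := explore_Bn p Λ x j (fun z S' =>
    ind (u ∈ z j ∧ ∀ i < j, u ∉ z i) * ind (Cn S' v y))
  have e3 : ∀ S, ind (u ∈ Bn S x (min j j) ∧ ∀ i < j, u ∉ Bn S x (min i j)) =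
      ind (Lev S x j u) := by
    intro S
    refine ind_congr ?_
    unfold Lev
    rw [min_self]
    exact and_congr Iff.rfl (forall₂_congr (fun i hi => by rw [min_eq_left hi.le]))
  simp only [e3] at e2
  rw [e2]
  unfold Dl
  rw [← Vale.Agent.P151.Ex_mul_const]
  refine Vale.Agent.P151.Ex_mono h0 h1 (fun S _ => ?_)
  rw [Vale.Agent.P151.Ex_const_mul]
  refine mul_le_mul_of_nonneg_left ?_ (ind_nonneg _)
  refine Vale.Agent.P151.Ex_mono h0 h1 (fun T _ => ?_)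
  rw [con_eq_ind]
  exact ind_mono (fun h => h.mono inter_subset_left)

lemma Dl_zero (G : SimpleGraph V) (p : ℝ) (F : Finset V) (x u : V) :
    Dl G p F x 0 u = Bl G p F x 0 u := by
  unfold Dl Bl
  refine Vale.Agent.P151.Ex_congr p (fun S _ => ind_congr ?_)
  unfold Lev
  exact ⟨fun h => h.1, fun h => ⟨h, fun i hi => absurd hi (Nat.not_lt_zero i)⟩⟩

lemma Dl_succ (G : SimpleGraph V) (p : ℝ) (F : Finset V) (x u : V) (j : ℕ) :
    Dl G p F x (j + 1) u = Bl G p F x (j + 1) u - Bl G p F x j u := by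
  unfold Dl Bl
  rw [← Vale.Agent.P151.Ex_sub]
  refine Vale.Agent.P151.Ex_congr p (fun S _ => ?_)
  by_cases h : u ∈ Bn S x j
  · rw [ind_true h, ind_true (Bn_mono_n S x (Nat.le_succ j) h),
      ind_false (fun h' => h'.2 j (Nat.lt_succ_self j) h)]
    ring
  · rw [ind_false h, sub_zero]
    refine ind_congr ⟨fun h' => h'.1, fun h' => ⟨h', fun i hi hui => h ?_⟩⟩
    exact Bn_mono_n S x (Nat.lt_succ_iff.1 hi) hui

/-- The weighted row. -/
noncomputable def Wl (G : SimpleGraph V) (p α : ℝ) (F : Finset V) (x : V) (M : ℕ) (y : V) : ℝ :=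
  ∑ i ∈ range (M + 1), α ^ i * Dl G p F x i y

lemma Wl_eq (G : SimpleGraph V) (p α : ℝ) (F : Finset V) (x y : V) (M : ℕ) :
    Wl G p α F x M y = Bl G p F x M y +
      (α - 1) * ∑ j ∈ range M, α ^ j * (Bl G p F x M y - Bl G p F x j y) := by
  unfold Wl
  induction M with
  | zero =>
    rw [Finset.sum_range_one, pow_zero, one_mul, Dl_zero, Finset.range_zero, Finset.sum_empty]
    ring
  | succ M ih =>
    rw [Finset.sum_range_succ, ih, Dl_succ, Finset.sum_range_succ (fun j => α ^ j *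
      (Bl G p F x (M + 1) y - Bl G p F x j y))]
    have hg := mul_neg_geom_sum α M
    have e1 : ∑ j ∈ range M, α ^ j * (Bl G p F x (M + 1) y - Bl G p F x j y) =
        ∑ j ∈ range M, α ^ j * (Bl G p F x M y - Bl G p F x j y) +
        (∑ j ∈ range M, α ^ j) * (Bl G p F x (M + 1) y - Bl G p F x M y) := by
      rw [Finset.sum_mul, ← Finset.sum_add_distrib]
      exact Finset.sum_congr rfl (fun j _ => by ring)
    rw [e1]
    have hg' : (α - 1) * ∑ j ∈ range M, α ^ j = α ^ M - 1 := by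
      have := mul_geom_sum α M
      exact this
    have e2 : (α - 1) * ((∑ j ∈ range M, α ^ j) *
        (Bl G p F x (M + 1) y - Bl G p F x M y)) =
        (α ^ M - 1) * (Bl G p F x (M + 1) y - Bl G p F x M y) := by
      rw [← mul_assoc, hg']
    have e3 : α ^ (M + 1) = α * α ^ M := by rw [pow_succ]; ring
    rw [e3]
    linear_combination -e2

lemma Bl_sub_le (G : SimpleGraph V) {p : ℝ} (h0 : 0 ≤ p) (h1 : p ≤ 1) (F : Finset V) (x y : V)
    (M j : ℕ) : Bl G p F x M y - Bl G p F x j y ≤ Rl G p F x j y := by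
  unfold Bl Rl
  rw [← Vale.Agent.P151.Ex_sub]
  refine Vale.Agent.P151.Ex_mono h0 h1 (fun S _ => ?_)
  by_cases h : y ∈ Bn S x j
  · rw [ind_true h]
    have h2 := ind_le_one (y ∈ Bn S x M)
    have h3 := ind_nonneg (Cn S x y ∧ y ∉ Bn S x j)
    linarith only [h2, h3]
  · rw [ind_false h, sub_zero]
    exact ind_mono (fun h' => ⟨by obtain ⟨w, _⟩ := h'; exact ⟨w⟩, h⟩)

lemma Bl_le_con (G : SimpleGraph V) {p : ℝ} (h0 : 0 ≤ p) (h1 : p ≤ 1) (F : Finset V) (x y : V)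
    (M : ℕ) : Bl G p F x M y ≤ Ex p (edgesIn G F) (con x y) := by
  unfold Bl
  refine Vale.Agent.P151.Ex_mono h0 h1 (fun S _ => ?_)
  rw [con_eq_ind]
  exact ind_mono (fun h => by obtain ⟨w, _⟩ := h; exact ⟨w⟩)

lemma Dl_nonneg (G : SimpleGraph V) {p : ℝ} (h0 : 0 ≤ p) (h1 : p ≤ 1) (F : Finset V) (x : V)
    (j : ℕ) (u : V) : 0 ≤ Dl G p F x j u :=
  Vale.Agent.P151.Ex_nonneg h0 h1 (fun _ _ => ind_nonneg _)

lemma Wl_nonneg (G : SimpleGraph V) {p α : ℝ} (h0 : 0 ≤ p) (h1 : p ≤ 1) (hα : 0 ≤ α)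
    (F : Finset V) (x : V) (M : ℕ) (y : V) : 0 ≤ Wl G p α F x M y :=
  Finset.sum_nonneg (fun i _ => mul_nonneg (pow_nonneg hα i) (Dl_nonneg G h0 h1 F x i y))

/-- The renewal inequality `W ≤ T + (α - 1) W A T`. -/
theorem Wl_le (G : SimpleGraph V) {p α : ℝ} (h0 : 0 ≤ p) (h1 : p ≤ 1) (hα : 1 ≤ α)
    (F : Finset V) (x y : V) (M : ℕ) :
    Wl G p α F x M y ≤ Ex p (edgesIn G F) (con x y) +
      (α - 1) * ∑ v ∈ F, (∑ u ∈ F, ind (G.Adj u v) * Wl G p α F x M u) *
        Ex p (edgesIn G F) (con v y) := by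
  have hα0 : 0 ≤ α := zero_le_one.trans hα
  rw [Wl_eq]
  refine add_le_add (Bl_le_con G h0 h1 F x y M) (mul_le_mul_of_nonneg_left ?_
    (sub_nonneg.2 hα))
  calc ∑ j ∈ range M, α ^ j * (Bl G p F x M y - Bl G p F x j y)
      ≤ ∑ j ∈ range M, α ^ j * ∑ v ∈ F, (∑ u ∈ F, ind (G.Adj u v) * Dl G p F x j u) *
        Ex p (edgesIn G F) (con v y) :=
        Finset.sum_le_sum (fun j _ => mul_le_mul_of_nonneg_left
          ((Bl_sub_le G h0 h1 F x y M j).trans (Rl_le G h0 h1 F x j y)) (pow_nonneg hα0 j))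
    _ = ∑ v ∈ F, (∑ u ∈ F, ind (G.Adj u v) * ∑ j ∈ range M, α ^ j * Dl G p F x j u) *
        Ex p (edgesIn G F) (con v y) := by
        simp only [Finset.mul_sum, Finset.sum_mul]
        rw [Finset.sum_comm]
        refine Finset.sum_congr rfl (fun v _ => ?_)
        rw [Finset.sum_comm]
        refine Finset.sum_congr rfl (fun u _ => Finset.sum_congr rfl (fun j _ => by ring))
    _ ≤ _ := by
        refine Finset.sum_le_sum (fun v _ => mul_le_mul_of_nonneg_right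
          (Finset.sum_le_sum (fun u _ => mul_le_mul_of_nonneg_left ?_ (ind_nonneg _)))
          (Ex_con_nonneg h0 h1 _ _ _))
        unfold Wl
        exact Finset.sum_le_sum_of_subset_of_nonneg (range_mono (Nat.le_succ M))
          (fun i _ _ => mul_nonneg (pow_nonneg hα0 i) (Dl_nonneg G h0 h1 F x i u))

end Vale.Agent.P165.H199
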